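import Vale.Agent.P078.H598.Null
import Vale.Agent.P078.H291.Defs

/-! Final assembly for joint so-paving: from the expected corner to the joint so-paving number,
and the lower bound for factors of type II₁. -/

namespace Vale.Agent.P078.WG

open Vale.Agent.P078

variable {H : Type*} [NormedAddCommGroup H] [InnerProductSpace ℂ H] [CompleteSpace H]
variable {M A : VonNeumannAlgebra H}

theorem joint_of_jPav {k : ℕ} {x : Fin k → (H →L[ℂ] H)} {ε : ℝ} {r : ℕ}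
    (h : JPav M A.toStarSubalgebra 1 x ε r) : SO.JointlySOPavable M A x ε r := by
  intro F δ hδ
  obtain ⟨p, a, q, hp, ho, hs, ha, hqM, -, hqp, hqF, hq⟩ := h F (fun ξ _ => rfl) δ hδ
  exact ⟨p, a, q, hp, ho, hs, fun j => ⟨(ha j).1, (ha j).2.2.1, (ha j).2.2.2⟩, hqM, hqp, hqF, hq⟩

/-- the arithmetic of the number of pieces -/
theorem pieces_arith {C : ℝ} (hC0 : 0 ≤ C) {ε : ℝ} (hε : 0 < ε) (hε1 : ε < 1) :
    ⌈16 * C / ε ^ 2⌉₊ + (⌊1 / ε⌋₊ + 1) ≤ ⌈(16 * C + 2) / ε ^ 2⌉₊ := by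
  have h3 : (⌊1 / ε⌋₊ : ℝ) ≤ 1 / ε := Nat.floor_le (by positivity)
  have h4 : 1 / ε + 1 ≤ 2 / ε ^ 2 := by
    have h5 : ε ^ 2 ≤ 1 := pow_le_one₀ hε.le hε1.le
    rw [le_div_iff₀ (by positivity), add_mul, one_div, one_mul]
    have h7 : ε⁻¹ * ε ^ 2 = ε := by field_simp
    rw [h7]
    linarith only [hε1, h5]
  rw [← Nat.ceil_add_natCast (by (clear * - hC0 hε; positivity))]
  refine Nat.ceil_le_ceil ?_
  push_cast
  have e1 : (16 * C + 2) / ε ^ 2 = 16 * C / ε ^ 2 + 2 / ε ^ 2 := by ring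
  rw [e1]
  linarith only [h3, h4]

/-- from the expected corner to the joint so-paving number -/
theorem jointPavingNumber_le (hA : SO.IsMASA A M) {k : ℕ} {ε : ℝ} (hε : 0 < ε) {R : ℕ}
    (hG : ∀ (z : H →L[ℂ] H) (E : (H →L[ℂ] H) →ₗ[ℂ] (H →L[ℂ] H)), z ∈ A → IsStarProjection z →
      SO.IsNormalExpectation M A z E → ∀ x : Fin k → (H →L[ℂ] H), (∀ j, x j ∈ M) →
      (∀ j, IsSelfAdjoint (x j)) → JPav M A.toStarSubalgebra z x ε R) :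
    SO.jointPavingNumber M A k ε ≤ ((R + (⌊1 / ε⌋₊ + 1) : ℕ) : ℕ∞) := by
  have hA' := SO.IsMASA.toStar hA
  obtain ⟨z, hzA, hzp, ⟨E, hE⟩, h0, -⟩ := exists_largest hA'
  have hzM : z ∈ M := hA.1 z hzA
  refine iInf₂_le (f := fun (r : ℕ) (_ : r ∈ {r : ℕ | 1 ≤ r ∧ ∀ x : Fin k → (H →L[ℂ] H),
    (∀ j, x j ∈ M ∧ IsSelfAdjoint (x j)) → SO.JointlySOPavable M A x ε r}) => (r : ℕ∞)) _
    ⟨by omega, fun x hx => joint_of_jPav ?_⟩
  refine jPav_one hA' hzA hzp h0 hε (fun j => (hx j).1) (fun j => (hx j).2)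
    (hG z E hzA hzp (SO.isNormalExpectation_iff.2 hE) _
      (fun j => mul_mem (mul_mem hzM (hx j).1) hzM) fun j => ?_)
  rw [IsSelfAdjoint, star_mul, star_mul, hzp.isSelfAdjoint.star_eq, (hx j).2.star_eq, mul_assoc]

/-- the upper bound `⌈1200002 k² / ε²⌉` -/
theorem jointPavingNumber_le_ceil (hA : SO.IsMASA A M) {k : ℕ} (hk : 1 ≤ k) {ε : ℝ}
    (hε : 0 < ε) (hε1 : ε < 1)
    (hG : ∀ R : ℕ, 16 * (75000 * (k : ℝ) ^ 2) / ε ^ 2 ≤ (R : ℝ) → 1 ≤ R →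
      ∀ (z : H →L[ℂ] H) (E : (H →L[ℂ] H) →ₗ[ℂ] (H →L[ℂ] H)), z ∈ A → IsStarProjection z →
      SO.IsNormalExpectation M A z E → ∀ x : Fin k → (H →L[ℂ] H), (∀ j, x j ∈ M) →
      (∀ j, IsSelfAdjoint (x j)) → JPav M A.toStarSubalgebra z x ε R) :
    SO.jointPavingNumber M A k ε ≤ (⌈1200002 * (k : ℝ) ^ 2 / ε ^ 2⌉₊ : ℕ∞) := by
  have hk1 : (1 : ℝ) ≤ (k : ℝ) ^ 2 := by
    have : (1 : ℝ) ≤ k := by exact_mod_cast hk
    nlinarith only [this]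
  have hC0 : (0 : ℝ) < 75000 * (k : ℝ) ^ 2 := by linarith only [hk1]
  have h1 : 1 ≤ ⌈16 * (75000 * (k : ℝ) ^ 2) / ε ^ 2⌉₊ := by
    rw [Nat.one_le_iff_ne_zero, ← Nat.pos_iff_ne_zero, Nat.ceil_pos]
    exact div_pos (by linarith only [hC0]) (pow_pos hε 2)
  have h2 := jointPavingNumber_le hA hε (hG _ (Nat.le_ceil _) h1)
  refine h2.trans ?_
  rw [Nat.cast_le]
  refine (pieces_arith hC0.le hε hε1).trans (Nat.ceil_le_ceil ?_)
  refine div_le_div_of_nonneg_right ?_ (pow_pos hε 2).le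
  linarith only [hk1]

/-- a family of equal operators: the joint number dominates the number of one operator -/
theorem le_jointPavingNumber {k : ℕ} (hk : 1 ≤ k) {ε : ℝ} :
    SO.pavingNumber M A 1 ε ≤ SO.jointPavingNumber M A k ε := by
  refine le_iInf₂ fun r hr => ?_
  refine iInf₂_le (f := fun (r : ℕ) (_ : r ∈ {r : ℕ | 1 ≤ r ∧ ∀ x ∈ M, IsSelfAdjoint x →
    1 * x * 1 = x → SO.SOPavable M A 1 x ε r}) => (r : ℕ∞)) _ ⟨hr.1, fun x hx hxs _ => ?_⟩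
  intro F _ δ hδ
  obtain ⟨p, a, q, hp, ho, hs, ha, hqM, hqp, hqF, hq⟩ := hr.2 (fun _ => x) (fun _ => ⟨hx, hxs⟩) F δ hδ
  exact ⟨p, a ⟨0, hk⟩, q, hp, ho, hs, (ha _).1, one_mul _, (ha _).2.1, (ha _).2.2, hqM,
    one_mul _, hqp, hqF, hq _⟩

/-- the lower bound for factors of type II₁ -/
theorem le_jointPavingNumber_factor (hA : SO.IsMASA A M) (hM : SO.IsTypeII1Factor M) {k : ℕ}
    (hk : 1 ≤ k) {ε : ℝ} (hε : 0 < ε) :
    (⌈1 / ε ^ 2⌉₊ : ℕ∞) ≤ SO.jointPavingNumber M A k ε :=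
  ((SO.growth hA).2.2 hM ε hε).trans (le_jointPavingNumber hk)

end Vale.Agent.P078.WG
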