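import Vale.Agent.P078.H291.Defs
import Vale.Agent.P078.Bdl.B8
import Mathlib.Analysis.InnerProductSpace.Adjoint
import Mathlib.Analysis.InnerProductSpace.Orthonormal

/-! Linear growth of the joint so-paving number over diagonal maximal abelian subalgebras. -/

namespace Vale.Agent.P078.WG

open Vale.Agent.P078
open scoped InnerProductSpace

variable {H : Type*} [NormedAddCommGroup H] [InnerProductSpace ℂ H] [CompleteSpace H]
variable {M A : VonNeumannAlgebra H}

/-- the symmetry `v i ↦ v (l - i)` -/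
noncomputable def symX {k : ℕ} [NeZero k] (v : Fin k → H) (l : Fin k) : H →L[ℂ] H :=
  ∑ i, InnerProductSpace.rankOne ℂ (v (l - i)) (v i)

theorem symX_apply {k : ℕ} [NeZero k] (v : Fin k → H) (l : Fin k) (ξ : H) :
    symX v l ξ = ∑ i, ⟪v i, ξ⟫_ℂ • v (l - i) := by
  unfold symX
  rw [_root_.sum_apply]
  rfl

theorem symX_sa {k : ℕ} [NeZero k] (v : Fin k → H) (l : Fin k) : IsSelfAdjoint (symX v l) := by
  unfold symX
  rw [IsSelfAdjoint, star_sum]
  rw [← Equiv.sum_comp (Equiv.subLeft l)]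
  refine Finset.sum_congr rfl fun i _ => ?_
  rw [ContinuousLinearMap.star_eq_adjoint, InnerProductSpace.adjoint_rankOne]
  simp [Equiv.subLeft]

theorem symX_norm {k : ℕ} [NeZero k] {v : Fin k → H} (hv : Orthonormal ℂ v) (l : Fin k) :
    ‖symX v l‖ ≤ 1 := by
  refine ContinuousLinearMap.opNorm_le_bound _ zero_le_one fun ξ => ?_
  rw [one_mul]
  have h1 : ‖symX v l ξ‖ ^ 2 ≤ ‖ξ‖ ^ 2 := by
    have hv' : Orthonormal ℂ fun i => v (l - i) :=
      hv.comp (fun i => l - i) (Equiv.subLeft l).injective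
    have h2 : ((‖symX v l ξ‖ ^ 2 : ℝ) : ℂ) = ((∑ i, ‖⟪v i, ξ⟫_ℂ‖ ^ 2 : ℝ) : ℂ) := by
      have h3 := hv'.inner_sum (fun i => ⟪v i, ξ⟫_ℂ) (fun i => ⟪v i, ξ⟫_ℂ) Finset.univ
      rw [← symX_apply, inner_self_eq_norm_sq_to_K] at h3
      push_cast
      refine h3.trans (Finset.sum_congr rfl fun i _ => ?_)
      rw [RCLike.conj_mul]
      rfl
    have h4 : ‖symX v l ξ‖ ^ 2 = ∑ i, ‖⟪v i, ξ⟫_ℂ‖ ^ 2 := by exact_mod_cast h2
    rw [h4]
    exact hv.sum_inner_products_le ξ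
  exact (sq_le_sq₀ (norm_nonneg _) (norm_nonneg _)).mp h1

theorem symX_inner {k : ℕ} [NeZero k] {v : Fin k → H} (hv : Orthonormal ℂ v) (i j : Fin k) :
    ⟪v j, symX v (i + j) (v i)⟫_ℂ = 1 := by
  have h1 : symX v (i + j) (v i) = v j := by
    rw [symX_apply, Finset.sum_eq_single i]
    · rw [inner_self_eq_norm_sq_to_K, hv.1 i, add_sub_cancel_left]
      simp
    · intro l _ hl
      rw [hv.2 hl, zero_smul]
    · intro h; exact absurd (Finset.mem_univ i) h
  rw [h1, inner_self_eq_norm_sq_to_K, hv.1 j]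
  simp

/-- elements of a commutative algebra containing the rank one projections are diagonal -/
theorem diag_apply (hc : ∀ x ∈ A, ∀ y ∈ A, x * y = y * x) {w : H} (hw : ‖w‖ = 1)
    (hwA : InnerProductSpace.rankOne ℂ w w ∈ A) {a : H →L[ℂ] H} (ha : a ∈ A) :
    a w = ⟪w, a w⟫_ℂ • w := by
  have h1 := congrArg (fun S : H →L[ℂ] H => S w) (hc a ha _ hwA)
  have h2 : InnerProductSpace.rankOne ℂ w w w = w := by
    rw [InnerProductSpace.rankOne_apply, inner_self_eq_norm_sq_to_K, hw]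
    simp
  change a (InnerProductSpace.rankOne ℂ w w w) = InnerProductSpace.rankOne ℂ w w (a w) at h1
  rw [h2, InnerProductSpace.rankOne_apply] at h1
  exact h1

/-- over a maximal abelian subalgebra which contains `k` orthogonal rank one projections the
joint so-paving number of `k` operators is at least `k`, for all `ε < 1` -/
theorem le_joint_of_rankOne (hA : SO.IsMASA A M) {k : ℕ} (v : Fin k → H) (hv : Orthonormal ℂ v)
    (hM : ∀ i j, InnerProductSpace.rankOne ℂ (v i) (v j) ∈ M)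
    (hAv : ∀ i, InnerProductSpace.rankOne ℂ (v i) (v i) ∈ A) {ε : ℝ} (h0 : 0 < ε) (h1 : ε < 1) :
    (k : ℕ∞) ≤ SO.jointPavingNumber M A k ε := by
  classical
  refine le_iInf₂ fun r hr => ?_
  rw [Nat.cast_le]
  by_contra hrk
  push Not at hrk
  have hk0 : k ≠ 0 := by omega
  have : NeZero k := ⟨hk0⟩
  have hxM : ∀ l : Fin k, symX v l ∈ M := fun l => sum_mem fun i _ => hM _ _
  obtain ⟨δ, hδ⟩ : ∃ δ : ℝ, δ = (1 - ε) / (4 * (r + 2)) := ⟨_, rfl⟩
  have hr0 : (0 : ℝ) ≤ r := Nat.cast_nonneg r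
  have hδ0 : 0 < δ := by
    rw [hδ]
    exact div_pos (by linarith) (by linarith)
  obtain ⟨p, a, q, hp, ho, hs, ha, hqM, hqp, hqF, hq⟩ :=
    hr.2 (symX v) (fun l => ⟨hxM l, symX_sa v l⟩) (Finset.univ.image v) δ hδ0
  have hqv : ∀ i, ‖v i - q (v i)‖ < δ := fun i =>
    hqF _ (Finset.mem_image_of_mem _ (Finset.mem_univ i))
  have hpd : ∀ c i, p c (v i) = ⟪v i, p c (v i)⟫_ℂ • v i := fun c i =>
    diag_apply hA.2.1 (hv.1 i) (hAv i) (hp c).1
  -- the color of an index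
  have hcol : ∀ i, ∃ c : Fin r, p c (v i) = v i := by
    intro i
    have hsum : ∑ c, p c (v i) = v i := by
      have := congrArg (fun S : H →L[ℂ] H => S (v i)) hs
      simpa only [_root_.sum_apply, one_apply_eq_self] using this
    have hne : ∃ c : Fin r, p c (v i) ≠ 0 := by
      by_contra hcon
      push Not at hcon
      rw [Finset.sum_eq_zero fun c _ => hcon c] at hsum
      exact hv.ne_zero i hsum.symm
    obtain ⟨c, hc⟩ := hne
    refine ⟨c, ?_⟩
    obtain ⟨z, hz⟩ : ∃ z, z = ⟪v i, p c (v i)⟫_ℂ := ⟨_, rfl⟩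
    have h2 := hpd c i
    rw [← hz] at h2
    have h3 : p c (p c (v i)) = p c (v i) := by
      have := congrArg (fun S : H →L[ℂ] H => S (v i)) (hp c).2.isIdempotentElem.eq
      exact this
    rw [h2, map_smul, h2, smul_smul] at h3
    have hz0 : z ≠ 0 := by
      rintro rfl
      rw [zero_smul] at h2
      exact hc h2
    have h4 : z * z = z := by
      have h5 : (z * z - z) • v i = 0 := by rw [sub_smul, h3, sub_self]
      exact sub_eq_zero.1 ((smul_eq_zero.1 h5).resolve_right (hv.ne_zero i))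
    have h6 : z = 1 := mul_right_cancel₀ hz0 (by rw [h4, one_mul])
    rw [h2, h6, one_smul]
  choose col hcol' using hcol
  obtain ⟨i, j, hij, hc⟩ : ∃ i j, i ≠ j ∧ col i = col j :=
    Fintype.exists_ne_map_eq_of_card_lt col (by simpa using hrk)
  obtain ⟨l, hl⟩ : ∃ l, l = i + j := ⟨_, rfl⟩
  have hzero : ∀ c, c ≠ col i → p c (v i) = 0 := by
    intro c hcne
    rw [← hcol' i]
    have := congrArg (fun S : H →L[ℂ] H => S (v i)) (ho c (col i) hcne)
    exact this
  have hpin : ⟪v j, (∑ c, p c * symX v l * p c) (v i)⟫_ℂ = 1 := by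
    have h2 : (∑ c, p c * symX v l * p c) (v i) = p (col i) (symX v l (v i)) := by
      rw [_root_.sum_apply, Finset.sum_eq_single (col i)]
      · change p (col i) (symX v l (p (col i) (v i))) = _
        rw [hcol' i]
      · intro c _ hcne
        change p c (symX v l (p c (v i))) = 0
        rw [hzero c hcne, map_zero, map_zero]
      · intro h; exact absurd (Finset.mem_univ _) h
    rw [h2, ← sproj_inner (hp (col i)).2, hc, hcol' j, hl]
    exact symX_inner hv i j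
  have hadiag : ⟪v j, a l (v i)⟫_ℂ = 0 := by
    rw [diag_apply hA.2.1 (hv.1 i) (hAv i) (ha l).1, inner_smul_right, hv.2 hij.symm, mul_zero]
  obtain ⟨T, hT⟩ : ∃ T, T = ∑ c, p c * symX v l * p c - a l := ⟨_, rfl⟩
  have hTij : ⟪v j, T (v i)⟫_ℂ = 1 := by
    rw [hT, _root_.sub_apply, inner_sub_right, hpin, hadiag, sub_zero]
  have hTn : ‖T‖ ≤ r + 1 := by
    rw [hT]
    refine (norm_sub_le _ _).trans (add_le_add ?_ ((ha l).2.2.trans (symX_norm hv l)))
    refine (norm_sum_le _ _).trans ?_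
    calc ∑ c, ‖p c * symX v l * p c‖ ≤ ∑ _c : Fin r, (1 : ℝ) :=
          Finset.sum_le_sum fun c _ => (norm_corner_le (hp c).2 _).trans (symX_norm hv l)
      _ = r := by simp
  have hq1 : ‖q * T * q‖ ≤ ε := by
    rw [hT]
    refine (hq l).trans ?_
    calc ε * ‖symX v l‖ ≤ ε * 1 := mul_le_mul_of_nonneg_left (symX_norm hv l) h0.le
      _ = ε := mul_one ε
  -- splitting
  have hsplit : ⟪v j, T (v i)⟫_ℂ = ⟪v j, (q * T * q) (v i)⟫_ℂ +
      ⟪v j - q (v j), T (q (v i))⟫_ℂ + ⟪v j, T (v i - q (v i))⟫_ℂ := by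
    have e1 : ⟪v j, (q * T * q) (v i)⟫_ℂ = ⟪q (v j), T (q (v i))⟫_ℂ := by
      rw [sproj_inner hqp]; rfl
    rw [e1, inner_sub_left, map_sub, inner_sub_right]
    ring
  have b1 : ‖⟪v j, (q * T * q) (v i)⟫_ℂ‖ ≤ ε := by
    refine (norm_inner_le_norm _ _).trans ?_
    rw [hv.1 j, one_mul]
    refine ((q * T * q).le_opNorm _).trans ?_
    rw [hv.1 i, mul_one]
    exact hq1
  have hr1 : (0 : ℝ) ≤ r + 1 := by linarith
  have b2 : ‖⟪v j - q (v j), T (q (v i))⟫_ℂ‖ ≤ δ * (r + 1) := by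
    refine (norm_inner_le_norm _ _).trans ?_
    refine mul_le_mul (hqv j).le ?_ (norm_nonneg _) hδ0.le
    refine (T.le_opNorm _).trans ?_
    calc ‖T‖ * ‖q (v i)‖ ≤ (r + 1) * 1 := mul_le_mul hTn ((proj_norm_le hqp _).trans (hv.1 i).le)
          (norm_nonneg _) hr1
      _ = r + 1 := mul_one _
  have b3 : ‖⟪v j, T (v i - q (v i))⟫_ℂ‖ ≤ (r + 1) * δ := by
    refine (norm_inner_le_norm _ _).trans ?_
    rw [hv.1 j, one_mul]
    exact (T.le_opNorm _).trans (mul_le_mul hTn (hqv i).le (norm_nonneg _) hr1)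
  have b4 : (1 : ℝ) ≤ ε + 2 * (δ * (r + 1)) := by
    calc (1 : ℝ) = ‖⟪v j, T (v i)⟫_ℂ‖ := by rw [hTij, norm_one]
      _ ≤ ‖⟪v j, (q * T * q) (v i)⟫_ℂ‖ + ‖⟪v j - q (v j), T (q (v i))⟫_ℂ‖ +
          ‖⟪v j, T (v i - q (v i))⟫_ℂ‖ := by rw [hsplit]; exact norm_add₃_le
      _ ≤ _ := by linarith
  have b5 : δ * (4 * (r + 2)) = 1 - ε := by
    rw [hδ]
    exact div_mul_cancel₀ _ (by positivity)
  nlinarith

end Vale.Agent.P078.WG
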