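import Vale.Agent.P078.H291.JPav

/-! Joint so-paving of finite families in the null corner, and gluing of complementary
corners. -/

namespace Vale.Agent.P078

open Filter Topology ContinuousLinearMap
open scoped InnerProductSpace

variable {H : Type*} [NormedAddCommGroup H] [InnerProductSpace ℂ H] [CompleteSpace H]
variable {M : VonNeumannAlgebra H} {A : StarSubalgebra ℂ (H →L[ℂ] H)}

/-- one projection for a finite family of small compressions -/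
theorem exists_corner_fam (M : VonNeumannAlgebra H) {n : ℕ} {Y : Fin n → (H →L[ℂ] H)}
    {h : H →L[ℂ] H} (hY : ∀ l, Y l ∈ M) (hYsa : ∀ l, IsSelfAdjoint (Y l)) (hh : h ∈ M)
    (hh1 : ‖h‖ ≤ 1) {s t : ℝ} (hs : 0 < s) (ht : 0 < t) :
    ∃ q : H →L[ℂ] H, q ∈ M ∧ IsStarProjection q ∧ (∀ l, ‖q * Y l * q‖ ≤ t / s) ∧
      (∀ w : H →L[ℂ] H, w * h = h → w * q = q) ∧
      ∀ ξ : H, ‖ξ - q ξ‖ ≤ ‖ξ - h ξ‖ + √(∑ l, ‖(star h * Y l * h) ξ‖ ^ 2) / t + √s * ‖ξ‖ := by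
  set T : Fin n → (H →L[ℂ] H) := fun l => star h * Y l * h with hT
  have hTM : ∀ l, T l ∈ M := fun l => mul_mem (mul_mem (star_mem hh) (hY l)) hh
  have hTsa : ∀ l, IsSelfAdjoint (T l) := by
    intro l
    rw [hT]
    simp only
    rw [IsSelfAdjoint, star_mul, star_mul, star_star, (hYsa l).star_eq, mul_assoc]
  set S : H →L[ℂ] H := ∑ l, T l * T l with hS
  have hSM : S ∈ M := sum_mem fun l _ => mul_mem (hTM l) (hTM l)
  have hSsa : IsSelfAdjoint S := by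
    rw [hS, IsSelfAdjoint, star_sum]
    refine Finset.sum_congr rfl fun l _ => ?_
    rw [star_mul, (hTsa l).star_eq]
  have hSre : ∀ v, RCLike.re ⟪S v, v⟫_ℂ = ∑ l, ‖T l v‖ ^ 2 := by
    intro v
    rw [hS, _root_.sum_apply, sum_inner, map_sum]
    exact Finset.sum_congr rfl fun l _ => inner_sq_self (hTsa l) v
  have hS0 : ∀ v, 0 ≤ RCLike.re ⟪S v, v⟫_ℂ := by
    intro v
    rw [hSre]
    exact Finset.sum_nonneg fun _ _ => sq_nonneg _
  obtain ⟨g₁, hg₁, hg₁c, hg₁lo, hg₁up⟩ := spectral_proj_exists S hSsa (t ^ 2)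
  have hg₁M : g₁ ∈ M := mem_of_forall_commute M hSM hg₁c
  have hg₁S : Commute S g₁ := hg₁c S (Commute.refl S)
  have hSg : ∀ v, S (g₁ v) = g₁ (S v) := by
    intro v
    have := congrArg (fun S : H →L[ℂ] H => S v) hg₁S.eq
    simpa only [mul_apply_eq_comp] using this
  have htail : ∀ v, ‖g₁ v‖ ≤ √(∑ l, ‖T l v‖ ^ 2) / t := by
    intro v
    have h1 := hg₁lo v
    have hsplit : RCLike.re ⟪S v, v⟫_ℂ = RCLike.re ⟪S (g₁ v), g₁ v⟫_ℂ +
        RCLike.re ⟪S (v - g₁ v), v - g₁ v⟫_ℂ := by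
      have e1 : ⟪S (g₁ v), v - g₁ v⟫_ℂ = 0 := by
        rw [hSg, sproj_inner hg₁, map_sub, sproj_apply_apply hg₁, sub_self, inner_zero_right]
      have e2 : ⟪S (v - g₁ v), g₁ v⟫_ℂ = 0 := by
        rw [← sproj_inner hg₁, ← hSg, map_sub, sproj_apply_apply hg₁, sub_self, map_zero,
          inner_zero_left]
      have e3 : ⟪S v, v⟫_ℂ = ⟪S (g₁ v), g₁ v⟫_ℂ + ⟪S (v - g₁ v), v - g₁ v⟫_ℂ := by
        calc ⟪S v, v⟫_ℂ = ⟪S (g₁ v) + S (v - g₁ v), g₁ v + (v - g₁ v)⟫_ℂ := by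
              rw [← map_add, add_sub_cancel]
          _ = _ := by
              rw [inner_add_left, inner_add_right, inner_add_right, e1, e2, add_zero, zero_add]
      rw [e3, map_add]
    have h2 : t ^ 2 * ‖g₁ v‖ ^ 2 ≤ ∑ l, ‖T l v‖ ^ 2 := by
      rw [← hSre, hsplit]
      linarith only [h1, hS0 (v - g₁ v)]
    rw [le_div_iff₀ ht]
    apply Real.le_sqrt_of_sq_le
    calc (‖g₁ v‖ * t) ^ 2 = t ^ 2 * ‖g₁ v‖ ^ 2 := by ring
      _ ≤ _ := h2
  have hcore : ∀ l v, ‖T l (v - g₁ v)‖ ≤ t * ‖v - g₁ v‖ := by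
    intro l v
    have h1 := hg₁up v
    rw [hSre] at h1
    have h3 : ‖T l (v - g₁ v)‖ ^ 2 ≤ ∑ l, ‖T l (v - g₁ v)‖ ^ 2 :=
      Finset.single_le_sum (f := fun l => ‖T l (v - g₁ v)‖ ^ 2) (fun _ _ => sq_nonneg _)
        (Finset.mem_univ l)
    have h4 : ‖T l (v - g₁ v)‖ ^ 2 ≤ (t * ‖v - g₁ v‖) ^ 2 := by
      rw [mul_pow]; exact h3.trans h1
    exact (sq_le_sq₀ (norm_nonneg _) (by (clear * - ht; positivity))).mp h4
  set c : H →L[ℂ] H := h * (1 - g₁) with hc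
  have hcM : c ∈ M := mul_mem hh (sub_mem (one_mem _) hg₁M)
  have hcapp : ∀ v, c v = h (v - g₁ v) := by
    intro v; simp only [hc, mul_apply_eq_comp, sub_apply, one_apply_eq_self, map_sub]
  have hYc : ∀ l v, |RCLike.re ⟪Y l (c v), c v⟫_ℂ| ≤ t * ‖v‖ ^ 2 := by
    intro l v
    set w := v - g₁ v with hw
    have h1 : ⟪Y l (c v), c v⟫_ℂ = ⟪T l w, w⟫_ℂ := by
      rw [hcapp, hT]
      simp only [mul_apply_eq_comp, ContinuousLinearMap.star_eq_adjoint]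
      rw [ContinuousLinearMap.adjoint_inner_left]
    rw [h1]
    calc |RCLike.re ⟪T l w, w⟫_ℂ| ≤ ‖⟪T l w, w⟫_ℂ‖ := RCLike.abs_re_le_norm _
      _ ≤ ‖T l w‖ * ‖w‖ := norm_inner_le_norm _ _
      _ ≤ (t * ‖w‖) * ‖w‖ := mul_le_mul_of_nonneg_right (hcore l v) (norm_nonneg _)
      _ = t * ‖w‖ ^ 2 := by ring
      _ ≤ t * ‖v‖ ^ 2 := by
          apply mul_le_mul_of_nonneg_left _ ht.le
          exact pow_le_pow_left₀ (norm_nonneg _) (sub_proj_norm_le hg₁ v) 2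
  have hccsa : IsSelfAdjoint (star c * c) := IsSelfAdjoint.star_mul_self c
  obtain ⟨p, hp, hpc, hplo, hpup⟩ := spectral_proj_exists (star c * c) hccsa s
  have hpM : p ∈ M := mem_of_forall_commute M (mul_mem (star_mem hcM) hcM) hpc
  set q := rangeProj (c * p) with hq
  have hqM : q ∈ M := rangeProj_mem M (mul_mem hcM hpM)
  have hqp : IsStarProjection q := rangeProj_isStarProjection _
  refine ⟨q, hqM, hqp, ?_, ?_, ?_⟩
  · intro l
    apply norm_le_of_rayleigh _ (by (clear * - hs ht; positivity))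
    · intro v
      have h1 : ⟪(q * Y l * q) v, v⟫_ℂ = ⟪Y l (q v), q v⟫_ℂ := by
        simp only [mul_apply_eq_comp]
        rw [sproj_inner hqp]
      rw [h1]
      have h2 : |RCLike.re ⟪Y l (q v), q v⟫_ℂ| ≤ t / s * ‖q v‖ ^ 2 := by
        refine rangeCl_induction (c * p)
          (p := fun w => |RCLike.re ⟪Y l w, w⟫_ℂ| ≤ t / s * ‖w‖ ^ 2) ?_ ?_
          (rangeProj_apply_mem _ v)
        · apply isClosed_le
          · exact (RCLike.continuous_re.comp ((Y l).continuous.inner continuous_id)).abs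
          · exact continuous_const.mul (continuous_norm.pow 2)
        · intro u
          rw [mul_apply_eq_comp]
          have h3 := hYc l (p u)
          have h4 := hplo u
          rw [inner_star_mul_self] at h4
          calc |RCLike.re ⟪Y l (c (p u)), c (p u)⟫_ℂ| ≤ t * ‖p u‖ ^ 2 := h3
            _ = t / s * (s * ‖p u‖ ^ 2) := by (clear * - hs ht; field_simp)
            _ ≤ t / s * ‖c (p u)‖ ^ 2 :=
              mul_le_mul_of_nonneg_left h4 (by (clear * - hs ht; positivity))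
      refine h2.trans ?_
      apply mul_le_mul_of_nonneg_left _ (by (clear * - hs ht; positivity))
      exact pow_le_pow_left₀ (norm_nonneg _) (proj_norm_le hqp v) 2
    · rw [IsSelfAdjoint, star_mul, star_mul, hqp.isSelfAdjoint.star_eq, (hYsa l).star_eq,
        mul_assoc]
  · intro w hwh
    ext v
    rw [mul_apply_eq_comp]
    refine rangeCl_induction (c * p) (p := fun u => w u = u) ?_ ?_ (rangeProj_apply_mem _ v)
    · exact isClosed_eq w.continuous continuous_id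
    · intro u
      have h1 : w * (c * p) = c * p := by
        rw [hc, ← mul_assoc, ← mul_assoc, hwh]
      have h2 := congrArg (fun S : H →L[ℂ] H => S u) h1
      simpa only [mul_apply_eq_comp] using h2
  · intro ξ
    have hmin : ‖ξ - q ξ‖ ≤ ‖ξ - c (p ξ)‖ := by
      have h1 : c (p ξ) = q (c (p ξ)) := by
        have := rangeProj_apply_self (c * p) ξ
        rw [mul_apply_eq_comp] at this
        exact this.symm
      have h2 : ξ - q ξ = (ξ - c (p ξ)) - q (ξ - c (p ξ)) := by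
        rw [map_sub, ← h1]; abel
      rw [h2]
      exact sub_proj_norm_le hqp _
    have h3 : ‖c (ξ - p ξ)‖ ≤ √s * ‖ξ‖ := by
      have h4 := hpup ξ
      rw [inner_star_mul_self] at h4
      have h5 : ‖c (ξ - p ξ)‖ ^ 2 ≤ (√s * ‖ξ‖) ^ 2 := by
        rw [mul_pow, Real.sq_sqrt hs.le]
        refine h4.trans ?_
        apply mul_le_mul_of_nonneg_left _ hs.le
        exact pow_le_pow_left₀ (norm_nonneg _) (sub_proj_norm_le hp ξ) 2
      exact (sq_le_sq₀ (norm_nonneg _) (by (clear * - hs; positivity))).mp h5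
    have h6 : ξ - c (p ξ) = (ξ - h ξ) + h (g₁ ξ) + c (ξ - p ξ) := by
      rw [map_sub c, hcapp ξ, map_sub]; abel
    calc ‖ξ - q ξ‖ ≤ ‖ξ - c (p ξ)‖ := hmin
      _ = ‖(ξ - h ξ) + h (g₁ ξ) + c (ξ - p ξ)‖ := by rw [h6]
      _ ≤ ‖ξ - h ξ‖ + ‖h (g₁ ξ)‖ + ‖c (ξ - p ξ)‖ := norm_add₃_le
      _ ≤ ‖ξ - h ξ‖ + √(∑ l, ‖T l ξ‖ ^ 2) / t + √s * ‖ξ‖ := by
          have h7 : ‖h (g₁ ξ)‖ ≤ √(∑ l, ‖T l ξ‖ ^ 2) / t := by
            calc ‖h (g₁ ξ)‖ ≤ ‖h‖ * ‖g₁ ξ‖ := h.le_opNorm _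
              _ ≤ 1 * ‖g₁ ξ‖ := mul_le_mul_of_nonneg_right hh1 (norm_nonneg _)
              _ = ‖g₁ ξ‖ := one_mul _
              _ ≤ √(∑ l, ‖T l ξ‖ ^ 2) / t := htail ξ
          linarith only [h3, h7]

/-- one coloring for a finite family -/
theorem coloring_step_fam {n : ℕ} (F : Finset H) {h : H →L[ℂ] H} {x : Fin n → (H →L[ℂ] H)}
    (hx1 : ∀ l, ‖x l‖ ≤ 1) (hh1 : ‖h‖ ≤ 1) {δ : ℝ} (hδ : 0 ≤ δ)
    (Q : Part A) (hQ : ∀ i, ‖Q.e i * h‖ ≤ δ) (r : ℕ) (hr : 0 < r) [DecidableEq Q.ι] :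
    ∃ c : Q.ι → Fin r, ∀ ξ ∈ F, ∀ l,
      ‖star h ((∑ j, ∑ k, (if j = k then (0 : H →L[ℂ] H) else
        (cind r c j k : ℂ) • (Q.e j * x l * Q.e k))) (h ξ))‖ ≤
        2 * δ * √(∑ p : F × Fin n, ‖(p.1 : H)‖ ^ 2) := by
  classical
  let V := PiLp 2 (fun _ : F × Fin n => H)
  let v : Q.ι → Q.ι → V := fun j k =>
    WithLp.toLp 2 (fun p : F × Fin n => star h (Q.e j (x p.2 (Q.e k (h p.1)))))
  obtain ⟨c, hc⟩ := exists_coloring_symm (E := V) r hr v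
  refine ⟨c, fun ξ hξ l => ?_⟩
  set L : ℝ := ∑ p : F × Fin n, ‖(p.1 : H)‖ ^ 2 with hL
  have hL0 : 0 ≤ L := Finset.sum_nonneg fun _ _ => sq_nonneg _
  have hv : ∑ j, ∑ k, ‖v j k‖ ^ 2 ≤ δ ^ 2 * L := by
    have h1 : ∀ j k, ‖v j k‖ ^ 2 =
        ∑ p : F × Fin n, ‖star h (Q.e j (x p.2 (Q.e k (h p.1))))‖ ^ 2 := by
      intro j k
      rw [PiLp.norm_sq_eq_of_L2]
    simp_rw [h1]
    have h2 : ∑ j, ∑ k, ∑ p : F × Fin n, ‖star h (Q.e j (x p.2 (Q.e k (h p.1))))‖ ^ 2 =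
        ∑ p : F × Fin n, ∑ k, ∑ j, ‖star h (Q.e j (x p.2 (Q.e k (h p.1))))‖ ^ 2 := by
      rw [Finset.sum_comm]
      simp_rw [Finset.sum_comm (s := (Finset.univ : Finset Q.ι))
        (t := (Finset.univ : Finset (F × Fin n)))]
    rw [h2]
    have h3 : ∀ p : F × Fin n, ∑ k, ∑ j, ‖star h (Q.e j (x p.2 (Q.e k (h p.1))))‖ ^ 2 ≤
        δ ^ 2 * ‖(p.1 : H)‖ ^ 2 := by
      intro p
      have h4 : ∀ k, ∑ j, ‖star h (Q.e j (x p.2 (Q.e k (h p.1))))‖ ^ 2 ≤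
          δ ^ 2 * ‖Q.e k (h p.1)‖ ^ 2 := by
        intro k
        set u := x p.2 (Q.e k (h p.1)) with hu
        have h5 : ∀ j, ‖star h (Q.e j u)‖ ^ 2 ≤ δ ^ 2 * ‖Q.e j u‖ ^ 2 := by
          intro j
          have h6 : ‖star h (Q.e j u)‖ ≤ δ * ‖Q.e j u‖ := by
            have := norm_star_mul_le (Q.proj j) (hQ j) (Q.e j u)
            rwa [sproj_apply_apply (Q.proj j)] at this
          calc ‖star h (Q.e j u)‖ ^ 2 ≤ (δ * ‖Q.e j u‖) ^ 2 :=
                pow_le_pow_left₀ (norm_nonneg _) h6 2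
            _ = _ := by ring
        have hu1 : ‖u‖ ≤ ‖Q.e k (h p.1)‖ := by
          calc ‖u‖ ≤ ‖x p.2‖ * ‖Q.e k (h p.1)‖ := (x p.2).le_opNorm _
            _ ≤ 1 * ‖Q.e k (h p.1)‖ := mul_le_mul_of_nonneg_right (hx1 _) (norm_nonneg _)
            _ = _ := one_mul _
        calc ∑ j, ‖star h (Q.e j u)‖ ^ 2 ≤ ∑ j, δ ^ 2 * ‖Q.e j u‖ ^ 2 :=
              Finset.sum_le_sum fun j _ => h5 j
          _ = δ ^ 2 * ‖u‖ ^ 2 := by rw [← Finset.mul_sum, Q.sum_norm_sq]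
          _ ≤ δ ^ 2 * ‖Q.e k (h p.1)‖ ^ 2 := by
              apply mul_le_mul_of_nonneg_left _ (sq_nonneg δ)
              exact pow_le_pow_left₀ (norm_nonneg _) hu1 2
      calc ∑ k, ∑ j, ‖star h (Q.e j (x p.2 (Q.e k (h p.1))))‖ ^ 2
          ≤ ∑ k, δ ^ 2 * ‖Q.e k (h p.1)‖ ^ 2 := Finset.sum_le_sum fun k _ => h4 k
        _ = δ ^ 2 * ‖h p.1‖ ^ 2 := by rw [← Finset.mul_sum, Q.sum_norm_sq]
        _ ≤ δ ^ 2 * ‖(p.1 : H)‖ ^ 2 := by
            apply mul_le_mul_of_nonneg_left _ (sq_nonneg δ)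
            apply pow_le_pow_left₀ (norm_nonneg _)
            calc ‖h p.1‖ ≤ ‖h‖ * ‖(p.1 : H)‖ := h.le_opNorm _
              _ ≤ 1 * ‖(p.1 : H)‖ := mul_le_mul_of_nonneg_right hh1 (norm_nonneg _)
              _ = _ := one_mul _
    calc ∑ p : F × Fin n, ∑ k, ∑ j, ‖star h (Q.e j (x p.2 (Q.e k (h p.1))))‖ ^ 2
        ≤ ∑ p : F × Fin n, δ ^ 2 * ‖(p.1 : H)‖ ^ 2 := Finset.sum_le_sum fun p _ => h3 p
      _ = δ ^ 2 * L := by rw [← Finset.mul_sum, hL]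
  set Z : V := ∑ j, ∑ k, (if j = k then (0 : V) else (cind r c j k : ℂ) • v j k) with hZ
  have hcomp : star h ((∑ j, ∑ k, (if j = k then (0 : H →L[ℂ] H) else
        (cind r c j k : ℂ) • (Q.e j * x l * Q.e k))) (h ξ)) = Z (⟨ξ, hξ⟩, l) := by
    rw [hZ, WithLp.ofLp_sum, Finset.sum_apply, _root_.sum_apply, map_sum]
    refine Finset.sum_congr rfl fun j _ => ?_
    rw [WithLp.ofLp_sum, Finset.sum_apply, _root_.sum_apply, map_sum]
    refine Finset.sum_congr rfl fun k _ => ?_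
    split_ifs with hjk
    · simp
    · change star h (((cind r c j k : ℂ) • (Q.e j * x l * Q.e k)) (h ξ)) =
        (cind r c j k : ℂ) • star h (Q.e j (x l (Q.e k (h ξ))))
      rw [_root_.smul_apply, map_smul]
      rfl
  rw [hcomp]
  have h7 : ‖Z (⟨ξ, hξ⟩, l)‖ ≤ ‖Z‖ := PiLp.norm_apply_le Z (⟨ξ, hξ⟩, l)
  have h8 : ‖Z‖ ^ 2 ≤ (2 * δ * √L) ^ 2 := by
    have h9 : (2 * δ * √L) ^ 2 = 4 * (δ ^ 2 * L) := by
      rw [mul_pow, Real.sq_sqrt hL0]; ring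
    rw [h9]
    have h10 : 0 ≤ δ ^ 2 * L := mul_nonneg (sq_nonneg _) hL0
    linarith only [hv, hc, h10]
  exact h7.trans ((sq_le_sq₀ (norm_nonneg _) (by (clear * - hδ; positivity))).mp h8)

/-- one mixing for a finite family -/
theorem mixing_step_fam (hc : ∀ x ∈ A, ∀ y ∈ A, x * y = y * x) {n : ℕ}
    {x a₀ : Fin n → (H →L[ℂ] H)} {h : H →L[ℂ] H} (hx1 : ∀ l, ‖x l‖ ≤ 1)
    (U : Filter (Part A)) [U.NeBot]
    (hE : ∀ l, ∀ ξ η : H,
      Tendsto (fun Q : Part A => ⟪ξ, Q.E (x l) η⟫_ℂ) U (𝓝 ⟪ξ, a₀ l η⟫_ℂ))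
    (hh1 : ‖h‖ ≤ 1) (F : Finset H) {δ η : ℝ} (hδ : 0 ≤ δ) (hη : 0 < η)
    (Q : Part A) (hQU : {Q' : Part A | Q.Finer Q'} ∈ U) (hQ : ∀ i, ‖Q.e i * h‖ ≤ δ) :
    ∃ R : Q.ι → Part A, ∀ ξ ∈ F, ∀ l,
      ‖star h (((Part.mix hc Q R).E (x l) - a₀ l) (h ξ))‖ ≤
        η + 2 * δ * √(∑ p : F × Fin n, ‖(p.1 : H)‖ ^ 2) := by
  classical
  let V := PiLp 2 (fun _ : F × Fin n => H)
  let T : Part A → V := fun Q' =>
    WithLp.toLp 2 (fun p : F × Fin n => star h (Q'.E (x p.2) (h p.1)))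
  let T₀ : V := WithLp.toLp 2 (fun p : F × Fin n => star h (a₀ p.2 (h p.1)))
  have hT : ∀ y : V, Tendsto (fun Q' => ⟪y, T Q'⟫_ℂ) U (𝓝 ⟪y, T₀⟫_ℂ) := by
    intro y
    have e1 : (fun Q' => ⟪y, T Q'⟫_ℂ) =
        fun Q' : Part A => ∑ p : F × Fin n, ⟪y p, star h (Q'.E (x p.2) (h p.1))⟫_ℂ := by
      funext Q'
      exact PiLp.inner_apply y (T Q')
    have e2 : ⟪y, T₀⟫_ℂ = ∑ p : F × Fin n, ⟪y p, star h (a₀ p.2 (h p.1))⟫_ℂ :=
      PiLp.inner_apply y T₀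
    rw [e1, e2]
    apply tendsto_finsetSum
    intro p _
    have h1 := hE p.2 (h (y p)) (h p.1)
    have h2 : ∀ u : H, ⟪y p, star h u⟫_ℂ = ⟪h (y p), u⟫_ℂ := by
      intro u
      rw [ContinuousLinearMap.star_eq_adjoint, ContinuousLinearMap.adjoint_inner_right]
    simp only [h2]
    exact h1
  obtain ⟨σ, hσ, w, q, hw0, hw1, hqS, happ⟩ := exists_convex_approx U T T₀ hT hQU hη
  let z : Q.ι → σ → V := fun j s =>
    WithLp.toLp 2 (fun p : F × Fin n => star h (Q.e j ((q s).E (x p.2) (Q.e j (h p.1)))))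
  let m : Q.ι → ℝ := fun j => √(∑ p : F × Fin n, ‖Q.e j (h p.1)‖ ^ 2)
  have hm0 : ∀ j, 0 ≤ m j := fun j => Real.sqrt_nonneg _
  have hzn : ∀ j s, ‖z j s‖ ≤ δ * m j := by
    intro j s
    have h1 : ‖z j s‖ ^ 2 ≤ (δ * m j) ^ 2 := by
      rw [PiLp.norm_sq_eq_of_L2, mul_pow, Real.sq_sqrt (Finset.sum_nonneg fun _ _ => sq_nonneg _),
        Finset.mul_sum]
      refine Finset.sum_le_sum fun p _ => ?_
      change ‖star h (Q.e j ((q s).E (x p.2) (Q.e j (h p.1))))‖ ^ 2 ≤ _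
      calc ‖star h (Q.e j ((q s).E (x p.2) (Q.e j (h p.1))))‖ ^ 2
          ≤ (δ * ‖(q s).E (x p.2) (Q.e j (h p.1))‖) ^ 2 :=
            pow_le_pow_left₀ (norm_nonneg _) (norm_star_mul_le (Q.proj j) (hQ j) _) 2
        _ ≤ (δ * ‖Q.e j (h p.1)‖) ^ 2 := by
            apply pow_le_pow_left₀ (mul_nonneg hδ (norm_nonneg _))
            apply mul_le_mul_of_nonneg_left _ hδ
            calc ‖(q s).E (x p.2) (Q.e j (h p.1))‖ ≤ ‖(q s).E (x p.2)‖ * ‖Q.e j (h p.1)‖ :=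
                  ((q s).E (x p.2)).le_opNorm _
              _ ≤ 1 * ‖Q.e j (h p.1)‖ :=
                  mul_le_mul_of_nonneg_right (((q s).norm_E_le (x p.2)).trans (hx1 _))
                    (norm_nonneg _)
              _ = _ := one_mul _
        _ = _ := by ring
    exact (sq_le_sq₀ (norm_nonneg _) (mul_nonneg hδ (hm0 j))).mp h1
  have hmean : ∀ j, ‖∑ s', (w s' : ℂ) • z j s'‖ ≤ δ * m j := by
    intro j
    calc ‖∑ s', (w s' : ℂ) • z j s'‖ ≤ ∑ s', ‖(w s' : ℂ) • z j s'‖ := norm_sum_le _ _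
      _ ≤ ∑ s', w s' * (δ * m j) := by
          refine Finset.sum_le_sum fun s' _ => ?_
          rw [norm_smul, Complex.norm_real, Real.norm_of_nonneg (hw0 s')]
          exact mul_le_mul_of_nonneg_left (hzn j s') (hw0 s')
      _ = δ * m j := by rw [← Finset.sum_mul, hw1, one_mul]
  have hC : ∀ j s, ‖z j s - ∑ s', (w s' : ℂ) • z j s'‖ ≤ 2 * (δ * m j) := by
    intro j s
    calc ‖z j s - ∑ s', (w s' : ℂ) • z j s'‖ ≤ ‖z j s‖ + ‖∑ s', (w s' : ℂ) • z j s'‖ :=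
          norm_sub_le _ _
      _ ≤ _ := by linarith only [hzn j s, hmean j]
  obtain ⟨ρ, hρ⟩ := greedy_selection w hw0 hw1 z (fun j => 2 * (δ * m j)) hC Finset.univ
  refine ⟨fun j => q (ρ j), fun ξ hξ l => ?_⟩
  set L : ℝ := ∑ p : F × Fin n, ‖(p.1 : H)‖ ^ 2 with hL
  have hL0 : 0 ≤ L := Finset.sum_nonneg fun _ _ => sq_nonneg _
  have hsum : ∑ j, (2 * (δ * m j)) ^ 2 ≤ (2 * δ * √L) ^ 2 := by
    have h1 : ∀ j, (2 * (δ * m j)) ^ 2 =
        4 * δ ^ 2 * ∑ p : F × Fin n, ‖Q.e j (h p.1)‖ ^ 2 := by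
      intro j
      have : (m j) ^ 2 = ∑ p : F × Fin n, ‖Q.e j (h p.1)‖ ^ 2 :=
        Real.sq_sqrt (Finset.sum_nonneg fun _ _ => sq_nonneg _)
      rw [← this]; ring
    simp_rw [h1]
    rw [← Finset.mul_sum, Finset.sum_comm]
    simp_rw [Q.sum_norm_sq]
    rw [mul_pow, Real.sq_sqrt hL0]
    have h2 : ∑ p : F × Fin n, ‖h p.1‖ ^ 2 ≤ L := by
      rw [hL]
      refine Finset.sum_le_sum fun p _ => ?_
      apply pow_le_pow_left₀ (norm_nonneg _)
      calc ‖h p.1‖ ≤ ‖h‖ * ‖(p.1 : H)‖ := h.le_opNorm _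
        _ ≤ 1 * ‖(p.1 : H)‖ := mul_le_mul_of_nonneg_right hh1 (norm_nonneg _)
        _ = _ := one_mul _
    calc 4 * δ ^ 2 * ∑ p : F × Fin n, ‖h p.1‖ ^ 2 ≤ 4 * δ ^ 2 * L :=
          mul_le_mul_of_nonneg_left h2 (by (clear * -; positivity))
      _ = _ := by ring
  have hTmix : T (Part.mix hc Q fun j => q (ρ j)) = ∑ j, z j (ρ j) := by
    ext p
    rw [WithLp.ofLp_sum, Finset.sum_apply]
    change star h ((Part.mix hc Q fun j => q (ρ j)).E (x p.2) (h p.1)) = _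
    rw [Part.mix_E, _root_.sum_apply, map_sum]
    rfl
  have hTq : ∀ s, T (q s) = ∑ j, z j s := by
    intro s
    ext p
    rw [WithLp.ofLp_sum, Finset.sum_apply]
    change star h ((q s).E (x p.2) (h p.1)) = _
    have h1 : (q s).E (x p.2) = Q.E ((q s).E (x p.2)) :=
      ((hqS s : Q.Finer (q s)).E_E hc (x p.2)).symm
    rw [h1, Part.E_apply_apply, map_sum]
  have hdiff : T (Part.mix hc Q fun j => q (ρ j)) - T₀ =
      ∑ j, (z j (ρ j) - ∑ s', (w s' : ℂ) • z j s') + (∑ s, (w s : ℂ) • T (q s) - T₀) := by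
    rw [hTmix, Finset.sum_sub_distrib]
    have h1 : ∑ j, ∑ s', (w s' : ℂ) • z j s' = ∑ s, (w s : ℂ) • T (q s) := by
      rw [Finset.sum_comm]
      refine Finset.sum_congr rfl fun s _ => ?_
      rw [hTq, Finset.smul_sum]
    rw [h1]; abel
  have hnorm : ‖T (Part.mix hc Q fun j => q (ρ j)) - T₀‖ ≤ η + 2 * δ * √L := by
    rw [hdiff]
    have h1 : ‖∑ j, (z j (ρ j) - ∑ s', (w s' : ℂ) • z j s')‖ ≤ 2 * δ * √L :=
      (sq_le_sq₀ (norm_nonneg _) (by (clear * - hδ; positivity))).mp (hρ.trans hsum)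
    calc _ ≤ ‖∑ j, (z j (ρ j) - ∑ s', (w s' : ℂ) • z j s')‖ +
          ‖∑ s, (w s : ℂ) • T (q s) - T₀‖ := norm_add_le _ _
      _ ≤ _ := by linarith only [happ, h1]
  have hcomp : star h (((Part.mix hc Q fun j => q (ρ j)).E (x l) - a₀ l) (h ξ)) =
      (T (Part.mix hc Q fun j => q (ρ j)) - T₀) (⟨ξ, hξ⟩, l) := by
    rw [_root_.sub_apply, map_sub]
    rfl
  rw [hcomp]
  exact (PiLp.norm_apply_le _ _).trans hnorm

/-- the null corner, for a family of contractions -/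
theorem SmallProp.jPav_aux (hA : IsMASA A M) {w : H →L[ℂ] H} (hw : w ∈ A)
    (hwp : IsStarProjection w) (hS : SmallProp M A w) {n : ℕ} {x : Fin n → (H →L[ℂ] H)}
    (hx : ∀ j, x j ∈ M) (hxs : ∀ j, IsSelfAdjoint (x j)) (hwx : ∀ j, w * x j * w = x j)
    (hx1 : ∀ j, ‖x j‖ ≤ 1) {ε : ℝ} {r : ℕ} (hr : 0 < r) (hε : 1 / (r : ℝ) < ε)
    (F : Finset H) (hF : ∀ ξ ∈ F, w ξ = ξ) {δ : ℝ} (hδ : 0 < δ) :
    ∃ (p : Fin r → (H →L[ℂ] H)) (a : Fin n → (H →L[ℂ] H)) (q : H →L[ℂ] H),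
      (∀ i, p i ∈ A ∧ IsStarProjection (p i)) ∧ (∀ i j, i ≠ j → p i * p j = 0) ∧
      ∑ i, p i = w ∧
      (∀ j, a j ∈ A ∧ w * a j = a j ∧ IsSelfAdjoint (a j) ∧ ‖a j‖ ≤ ‖x j‖) ∧
      q ∈ M ∧ w * q = q ∧ IsStarProjection q ∧
      (∀ ξ ∈ F, ‖ξ - q ξ‖ < δ) ∧
      ∀ j, ‖q * (∑ i, p i * x j * p i - a j) * q‖ ≤ ε := by
  classical
  have hc := hA.2.1
  have hAM : ∀ a ∈ A, a ∈ M := fun a ha => hA.1 ha
  have hww : w * w = w := hwp.isIdempotentElem.eq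
  have hrpos : (0 : ℝ) < r := by exact_mod_cast hr
  have hr1 : (1 : ℝ) / r ≤ 1 := by
    rw [div_le_one hrpos]
    exact_mod_cast hr
  have hr0 : (0 : ℝ) ≤ 1 / r := by (clear * - hr; positivity)
  have : (Part.filter A).NeBot := Part.filter_neBot hc
  set U : Ultrafilter (Part A) := Ultrafilter.of (Part.filter A) with hUdef
  have hU : (U : Filter (Part A)) ≤ Part.filter A := Ultrafilter.of_le _
  obtain ⟨E, hEt, hEn, hEA, hEpos, hEsa, hEbim, hEid⟩ := exists_limit_expectation hA U hU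
  set a₀ : Fin n → (H →L[ℂ] H) := fun l => E (x l) with ha₀
  have ha₀A : ∀ l, a₀ l ∈ A := fun l => hEA _ (hx l)
  have ha₀sa : ∀ l, IsSelfAdjoint (a₀ l) := fun l => hEsa _ (hxs l)
  have hwx1 : ∀ l, w * x l = x l := by
    intro l
    calc w * x l = w * (w * x l * w) := by rw [hwx]
      _ = (w * w) * x l * w := by simp only [mul_assoc]
      _ = x l := by rw [hww, hwx]
  have hwa₀ : ∀ l, w * a₀ l = a₀ l := by
    intro l
    have := (hEbim w hw (x l)).1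
    rw [hwx1] at this
    exact this.symm
  set ρ : ℝ := 1 - 1 / (r : ℝ) with hρ
  have hρ0 : 0 ≤ ρ := by linarith only [hr1]
  have hρ1 : ρ ≤ 1 := by linarith only [hr0]
  -- parameters
  set κ : ℝ := ε - 1 / (r : ℝ) with hκ
  have hκpos : 0 < κ := by linarith only [hε]
  set B : ℝ := ∑ ξ ∈ F, ‖ξ‖ + 1 with hB
  have hBpos : 0 < B := by
    have : 0 ≤ ∑ ξ ∈ F, ‖ξ‖ := Finset.sum_nonneg fun _ _ => norm_nonneg _
    linarith only [this]
  have hBle : ∀ ξ ∈ F, ‖ξ‖ ≤ B := by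
    intro ξ hξ
    have : ‖ξ‖ ≤ ∑ ξ ∈ F, ‖ξ‖ :=
      Finset.single_le_sum (f := fun ξ : H => ‖ξ‖) (fun _ _ => norm_nonneg _) hξ
    linarith only [this]
  set s : ℝ := (δ / (4 * B)) ^ 2 with hs
  have hspos : 0 < s := by
    rw [hs]
    exact pow_pos (div_pos hδ (mul_pos (by norm_num) hBpos)) 2
  have hsqrt : √s = δ / (4 * B) :=
    Real.sqrt_sq (div_pos hδ (mul_pos (by norm_num) hBpos)).le
  set t : ℝ := κ * s with ht
  have htpos : 0 < t := mul_pos hκpos hspos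
  have hts : t / s = κ := by rw [ht]; (clear * - hspos hκpos; field_simp)
  set L : ℝ := √(∑ p : F × Fin n, ‖(p.1 : H)‖ ^ 2) with hL
  have hL0 : 0 ≤ L := Real.sqrt_nonneg _
  -- the target for the vectors: `√n · (small)`
  set N : ℝ := √(n : ℝ) + 1 with hN
  have hN0 : 0 ≤ √(n : ℝ) := Real.sqrt_nonneg _
  have hNpos : 0 < N := by linarith only [hN0]
  set τ : ℝ := t * δ / (8 * N) with hτ
  have hτpos : 0 < τ := div_pos (mul_pos htpos hδ) (mul_pos (by norm_num) hNpos)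
  set δ' : ℝ := min (δ / 4) (τ / (4 * L + 1)) with hδ'
  have hden : 0 < 4 * L + 1 := by linarith only [hL0]
  have hδ'pos : 0 < δ' := lt_min (by (clear * - hδ; positivity)) (div_pos hτpos hden)
  have hδ'1 : δ' ≤ δ / 4 := min_le_left _ _
  have hδ'2 : 4 * δ' * L ≤ τ := by
    have h1 : δ' ≤ τ / (4 * L + 1) := min_le_right _ _
    rw [le_div_iff₀ hden] at h1
    linarith only [hδ'pos, h1]
  obtain ⟨h, hhM, hh1, hwh, hhF, Q, hQ⟩ := hS F hF δ' hδ'pos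
  have hQU : {Q' : Part A | Q.Finer Q'} ∈ (U : Filter (Part A)) := by
    apply hU
    exact Filter.mem_iInf_of_mem Q (Filter.mem_principal_self _)
  obtain ⟨R, hR⟩ := mixing_step_fam (h := h) (η := τ) hc hx1 (U : Filter (Part A))
    (a₀ := a₀) (fun l ξ η => hEt (x l) ξ η) hh1 F hδ'pos.le hτpos Q hQU hQ
  set Q' := Part.mix hc Q R with hQ'
  have hQ's : ∀ i, ‖Q'.e i * h‖ ≤ δ' := Part.mix_small hc Q R hQ
  obtain ⟨c, hcol⟩ := coloring_step_fam (x := x) F hx1 hh1 hδ'pos.le Q' hQ's r hr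
  set W : Fin n → (H →L[ℂ] H) := fun l => ∑ j, ∑ k, (if j = k then (0 : H →L[ℂ] H) else
        (cind r c j k : ℂ) • (Q'.e j * x l * Q'.e k)) with hW
  set G : Fin r → (H →L[ℂ] H) := Q'.group c with hG
  set p : Fin r → (H →L[ℂ] H) := fun i => w * G i with hp
  have hGA : ∀ i, G i ∈ A := Q'.group_mem c
  have hwG : ∀ i, w * G i = G i * w := fun i => hc _ hw _ (hGA i)
  have hpp : ∀ i, IsStarProjection (p i) := fun i => hwp.mul (Q'.group_proj c i) (hwG i)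
  have hsumconj : ∀ l, ∑ i, p i * x l * p i =
      ((1 / (r : ℝ) : ℝ) : ℂ) • x l + (ρ : ℂ) • Q'.E (x l) + W l := by
    intro l
    rw [hρ, hW]
    simp only
    rw [← Q'.sum_group_conj c (x l)]
    refine Finset.sum_congr rfl fun i _ => ?_
    calc p i * x l * p i = (w * G i) * x l * (w * G i) := rfl
      _ = (G i * w) * x l * (w * G i) := by rw [hwG i]
      _ = G i * (w * x l * w) * G i := by simp only [mul_assoc]
      _ = G i * x l * G i := by rw [hwx]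
  set a : Fin n → (H →L[ℂ] H) := fun l => (ρ : ℂ) • a₀ l with ha
  have haA : ∀ l, a l ∈ A := fun l => A.smul_mem (ha₀A l) _
  have hasa : ∀ l, IsSelfAdjoint (a l) := by
    intro l
    rw [ha]
    simp only
    rw [IsSelfAdjoint, star_smul, (ha₀sa l).star_eq]
    simp
  set Y : Fin n → (H →L[ℂ] H) := fun l =>
    ∑ i, p i * x l * p i - ((1 / (r : ℝ) : ℝ) : ℂ) • x l - a l with hY
  have hYeq : ∀ l, Y l = W l + (ρ : ℂ) • (Q'.E (x l) - a₀ l) := by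
    intro l
    rw [hY]
    simp only
    rw [hsumconj, ha, smul_sub]; abel
  have hpA : ∀ i, p i ∈ A := fun i => mul_mem hw (hGA i)
  have hsumM : ∀ l, ∑ i, p i * x l * p i ∈ M :=
    fun l => sum_mem fun i _ => mul_mem (mul_mem (hAM _ (hpA i)) (hx l)) (hAM _ (hpA i))
  have hYM : ∀ l, Y l ∈ M := by
    intro l
    refine sub_mem (sub_mem (hsumM l) ?_) (hAM _ (haA l))
    exact M.toStarSubalgebra.smul_mem (hx l) _
  have hsumsa : ∀ l, IsSelfAdjoint (∑ i, p i * x l * p i) := by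
    intro l
    rw [IsSelfAdjoint, star_sum]
    exact Finset.sum_congr rfl fun i _ => star_conj_sa (hpp i).isSelfAdjoint (hxs l)
  have hYsa : ∀ l, IsSelfAdjoint (Y l) := by
    intro l
    refine ((hsumsa l).sub ?_).sub (hasa l)
    rw [IsSelfAdjoint, star_smul, (hxs l).star_eq]
    simp only [one_div, Complex.ofReal_inv, Complex.ofReal_natCast, star_inv₀, star_natCast]
  obtain ⟨q, hqM, hqp, hqY, hqw, hqF⟩ := exists_corner_fam M hYM hYsa hhM hh1 hspos htpos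
  refine ⟨p, a, q, fun i => ⟨hpA i, hpp i⟩, ?_, ?_, fun l => ⟨haA l, ?_, hasa l, ?_⟩, hqM,
    hqw w hwh, hqp, ?_, ?_⟩
  · intro i j hij
    calc p i * p j = (w * G i) * (w * G j) := rfl
      _ = (w * G i) * (G j * w) := by rw [hwG j]
      _ = w * (G i * G j) * w := by simp only [mul_assoc]
      _ = 0 := by
          rw [Q'.group_mul c i j, if_neg hij]; simp
  · rw [hp]
    simp only
    rw [← Finset.mul_sum, Q'.sum_group c, mul_one]
  · rw [ha]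
    simp only
    rw [mul_smul_comm, hwa₀]
  · rw [ha]
    simp only
    rw [norm_smul, Complex.norm_real, Real.norm_of_nonneg hρ0]
    calc ρ * ‖a₀ l‖ ≤ 1 * ‖a₀ l‖ := mul_le_mul_of_nonneg_right hρ1 (norm_nonneg _)
      _ = ‖a₀ l‖ := one_mul _
      _ ≤ ‖x l‖ := hEn (x l)
  · intro ξ hξ
    have h1 := hqF ξ
    have h2 : ‖ξ - h ξ‖ < δ / 4 := by
      rw [norm_sub_rev]
      exact (hhF ξ hξ).trans_le hδ'1
    have h3 : ∀ l, ‖(star h * Y l * h) ξ‖ ≤ 2 * τ := by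
      intro l
      have h4 : (star h * Y l * h) ξ = star h (W l (h ξ)) +
          (ρ : ℂ) • star h ((Q'.E (x l) - a₀ l) (h ξ)) := by
        change star h (Y l (h ξ)) = _
        rw [hYeq, _root_.add_apply, _root_.smul_apply, map_add, map_smul]
      rw [h4]
      have h5 : ‖star h (W l (h ξ))‖ ≤ 2 * δ' * L := hcol ξ hξ l
      have h6 : ‖star h ((Q'.E (x l) - a₀ l) (h ξ))‖ ≤ τ + 2 * δ' * L := hR ξ hξ l
      calc ‖star h (W l (h ξ)) + (ρ : ℂ) • star h ((Q'.E (x l) - a₀ l) (h ξ))‖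
          ≤ ‖star h (W l (h ξ))‖ + ‖(ρ : ℂ) • star h ((Q'.E (x l) - a₀ l) (h ξ))‖ :=
            norm_add_le _ _
        _ = ‖star h (W l (h ξ))‖ + ρ * ‖star h ((Q'.E (x l) - a₀ l) (h ξ))‖ := by
            rw [norm_smul, Complex.norm_real, Real.norm_of_nonneg hρ0]
        _ ≤ ‖star h (W l (h ξ))‖ + 1 * ‖star h ((Q'.E (x l) - a₀ l) (h ξ))‖ := by
            have := mul_le_mul_of_nonneg_right hρ1
              (norm_nonneg (star h ((Q'.E (x l) - a₀ l) (h ξ))))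
            linarith only [this]
        _ ≤ 2 * τ := by linarith only [h5, h6, hδ'2]
    have h3' : √(∑ l, ‖(star h * Y l * h) ξ‖ ^ 2) ≤ t * δ / 4 := by
      have e1 : ∑ l, ‖(star h * Y l * h) ξ‖ ^ 2 ≤ (√(n : ℝ) * (2 * τ)) ^ 2 := by
        calc ∑ l, ‖(star h * Y l * h) ξ‖ ^ 2 ≤ ∑ _l : Fin n, (2 * τ) ^ 2 :=
              Finset.sum_le_sum fun l _ => pow_le_pow_left₀ (norm_nonneg _) (h3 l) 2
          _ = (√(n : ℝ) * (2 * τ)) ^ 2 := by
              rw [Finset.sum_const, Finset.card_univ, Fintype.card_fin, nsmul_eq_mul, mul_pow √_,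
                Real.sq_sqrt (Nat.cast_nonneg n)]
      refine (Real.sqrt_le_sqrt e1).trans ?_
      rw [Real.sqrt_sq (mul_nonneg hN0 (by linarith only [hτpos]))]
      have e2 : τ * N = t * δ / 8 := by
        rw [hτ]; (clear * - hNpos; field_simp)
      have e3 : √(n : ℝ) * τ ≤ t * δ / 8 := by
        rw [← e2, hN]
        linarith only [hτpos]
      linarith only [e3]
    have h7 : √(∑ l, ‖(star h * Y l * h) ξ‖ ^ 2) / t ≤ δ / 4 := by
      rw [div_le_iff₀ htpos]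
      linarith only [h3']
    have h8 : √s * ‖ξ‖ ≤ δ / 4 := by
      rw [hsqrt]
      calc δ / (4 * B) * ‖ξ‖ ≤ δ / (4 * B) * B :=
            mul_le_mul_of_nonneg_left (hBle ξ hξ)
              (div_pos hδ (mul_pos (by norm_num) hBpos)).le
        _ = δ / 4 := by (clear * - hBpos hδ; field_simp)
    linarith only [hδ'pos, hδ'1, h1, h2, h7, h8]
  · intro l
    have h1 : q * (∑ i, p i * x l * p i - a l) * q =
        q * Y l * q + ((1 / (r : ℝ) : ℝ) : ℂ) • (q * x l * q) := by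
      rw [hY]
      simp only [mul_sub, sub_mul, mul_smul_comm, smul_mul_assoc]
      abel
    rw [h1]
    have h2 : ‖q * x l * q‖ ≤ 1 := (norm_corner_le hqp (x l)).trans (hx1 l)
    calc ‖q * Y l * q + ((1 / (r : ℝ) : ℝ) : ℂ) • (q * x l * q)‖
        ≤ ‖q * Y l * q‖ + ‖((1 / (r : ℝ) : ℝ) : ℂ) • (q * x l * q)‖ := norm_add_le _ _
      _ = ‖q * Y l * q‖ + 1 / (r : ℝ) * ‖q * x l * q‖ := by
          rw [norm_smul, Complex.norm_real, Real.norm_of_nonneg hr0]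
      _ ≤ κ + 1 / (r : ℝ) * 1 := by
          have := mul_le_mul_of_nonneg_left h2 hr0
          have h3 := hqY l
          rw [hts] at h3
          linarith only [h3, this]
      _ = ε := by rw [hκ]; ring

/-- joint so-paving in the null corner -/
theorem SmallProp.jPav (hA : IsMASA A M) {w : H →L[ℂ] H} (hw : w ∈ A)
    (hwp : IsStarProjection w) (hS : SmallProp M A w) {k : ℕ} {x : Fin k → (H →L[ℂ] H)}
    (hx : ∀ j, x j ∈ M) (hxs : ∀ j, IsSelfAdjoint (x j)) (hwx : ∀ j, w * x j * w = x j)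
    {ε : ℝ} {r : ℕ} (hr : 0 < r) (hε : 1 / (r : ℝ) < ε) : JPav M A w x ε r := by
  classical
  intro F hF δ hδ
  -- normalise
  set y : Fin k → (H →L[ℂ] H) := fun j => ((‖x j‖⁻¹ : ℝ) : ℂ) • x j with hy
  have hyx : ∀ j, ((‖x j‖ : ℝ) : ℂ) • y j = x j := by
    intro j
    rw [hy]
    simp only
    rw [smul_smul, ← Complex.ofReal_mul]
    by_cases h0 : ‖x j‖ = 0
    · rw [norm_eq_zero.mp h0, smul_zero]
    · rw [mul_inv_cancel₀ h0, Complex.ofReal_one, one_smul]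
  have hynorm : ∀ j, ‖x j‖ * ‖y j‖ = ‖x j‖ := by
    intro j
    calc ‖x j‖ * ‖y j‖ = ‖((‖x j‖ : ℝ) : ℂ) • y j‖ := by
          rw [norm_smul ((‖x j‖ : ℝ) : ℂ) (y j), Complex.norm_real, norm_norm]
      _ = ‖x j‖ := by rw [hyx]
  have hy1 : ∀ j, ‖y j‖ ≤ 1 := by
    intro j
    rw [hy]
    simp only
    rw [norm_smul, Complex.norm_real, Real.norm_of_nonneg (inv_nonneg.mpr (norm_nonneg _))]
    exact inv_mul_le_one_of_le₀ le_rfl (norm_nonneg _)
  obtain ⟨p, a, q, hp, ho, hs, ha, hqM, hwq, hqp, hqF, hq⟩ :=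
    hS.jPav_aux hA hw hwp (x := y) (fun j => M.toStarSubalgebra.smul_mem (hx j) _)
      (fun j => by
        rw [hy]
        simp only
        rw [IsSelfAdjoint, star_smul, (hxs j).star_eq]
        simp)
      (fun j => by
        rw [hy]
        simp only
        rw [mul_smul_comm, smul_mul_assoc, hwx]) hy1 hr hε F hF hδ
  refine ⟨p, fun j => ((‖x j‖ : ℝ) : ℂ) • a j, q, hp, ho, hs, fun j => ⟨?_, ?_, ?_, ?_⟩, hqM,
    hwq, hqp, hqF, fun j => ?_⟩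
  · exact A.smul_mem (ha j).1 _
  · rw [mul_smul_comm, (ha j).2.1]
  · rw [IsSelfAdjoint, star_smul, (ha j).2.2.1.star_eq]
    simp
  · rw [norm_smul, Complex.norm_real, norm_norm]
    calc ‖x j‖ * ‖a j‖ ≤ ‖x j‖ * ‖y j‖ :=
          mul_le_mul_of_nonneg_left (ha j).2.2.2 (norm_nonneg _)
      _ = ‖x j‖ := hynorm j
  · have h1 : q * (∑ i, p i * x j * p i - ((‖x j‖ : ℝ) : ℂ) • a j) * q =
        ((‖x j‖ : ℝ) : ℂ) • (q * (∑ i, p i * y j * p i - a j) * q) := by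
      have h2 : ∑ i, p i * x j * p i = ((‖x j‖ : ℝ) : ℂ) • ∑ i, p i * y j * p i := by
        rw [Finset.smul_sum]
        refine Finset.sum_congr rfl fun i _ => ?_
        conv_lhs => rw [← hyx j]
        rw [mul_smul_comm, smul_mul_assoc]
      rw [h2, ← smul_sub, mul_smul_comm, smul_mul_assoc]
    rw [h1, norm_smul, Complex.norm_real, norm_norm, mul_comm ε]
    exact mul_le_mul_of_nonneg_left (hq j) (norm_nonneg _)

/-- gluing joint so-pavings of two complementary corners -/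
theorem JPav.glue (hA : IsMASA A M) {z : H →L[ℂ] H} (hzA : z ∈ A) (hz : IsStarProjection z)
    {k : ℕ} {x : Fin k → (H →L[ℂ] H)} {ε : ℝ} (hε : 0 ≤ ε) {r₁ r₂ : ℕ}
    (h₁ : JPav M A z (fun j => z * x j * z) ε r₁)
    (h₂ : JPav M A (1 - z) (fun j => (1 - z) * x j * (1 - z)) ε r₂) :
    JPav M A 1 x ε (r₁ + r₂) := by
  classical
  intro F _ δ hδ
  obtain ⟨w, hw⟩ : ∃ w, w = 1 - z := ⟨_, rfl⟩
  rw [← hw] at h₂
  have hwp : IsStarProjection w := by rw [hw]; exact hz.one_sub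
  have hwA : w ∈ A := by rw [hw]; exact sub_mem (one_mem A) hzA
  have hzz : z * z = z := hz.isIdempotentElem
  have hww : w * w = w := hwp.isIdempotentElem
  have hzw : z * w = 0 := by rw [hw, mul_sub, mul_one, hzz, sub_self]
  have hwz : w * z = 0 := by rw [hw, sub_mul, one_mul, hzz, sub_self]
  have hsum : z + w = 1 := by rw [hw]; abel
  obtain ⟨p₁, a₁, q₁, hp₁, ho₁, hs₁, ha₁, hq₁, hzq₁, hqp₁, hd₁, he₁⟩ :=
    h₁ (F.image z) (by
      intro ξ hξ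
      obtain ⟨η, _, rfl⟩ := Finset.mem_image.1 hξ
      exact proj_apply_apply hz η) (δ / 2) (by (clear * - hδ; positivity))
  obtain ⟨p₂, a₂, q₂, hp₂, ho₂, hs₂, ha₂, hq₂, hzq₂, hqp₂, hd₂, he₂⟩ :=
    h₂ (F.image w) (by
      intro ξ hξ
      obtain ⟨η, _, rfl⟩ := Finset.mem_image.1 hξ
      exact proj_apply_apply hwp η) (δ / 2) (by (clear * - hδ; positivity))
  -- basic relations
  have hp₁z : ∀ i, p₁ i * z = p₁ i := by
    intro i
    rw [← hs₁, Finset.mul_sum, Finset.sum_eq_single i]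
    · exact (hp₁ i).2.isIdempotentElem
    · intro j _ hj; exact ho₁ i j hj.symm
    · intro h; exact absurd (Finset.mem_univ i) h
  have hp₂w : ∀ i, p₂ i * w = p₂ i := by
    intro i
    rw [← hs₂, Finset.mul_sum, Finset.sum_eq_single i]
    · exact (hp₂ i).2.isIdempotentElem
    · intro j _ hj; exact ho₂ i j hj.symm
    · intro h; exact absurd (Finset.mem_univ i) h
  have hzp₁ : ∀ i, z * p₁ i = p₁ i := fun i => by rw [hA.2.1 z hzA _ (hp₁ i).1, hp₁z]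
  have hwp₂ : ∀ i, w * p₂ i = p₂ i := fun i => by rw [hA.2.1 w hwA _ (hp₂ i).1, hp₂w]
  have hq₁z : q₁ * z = q₁ := by
    have := congrArg star hzq₁
    rwa [star_mul, hqp₁.isSelfAdjoint.star_eq, hz.isSelfAdjoint.star_eq] at this
  have hq₂w : q₂ * w = q₂ := by
    have := congrArg star hzq₂
    rwa [star_mul, hqp₂.isSelfAdjoint.star_eq, hwp.isSelfAdjoint.star_eq] at this
  have ha₁z : ∀ l, a₁ l * z = a₁ l := fun l => by
    rw [hA.2.1 _ (ha₁ l).1 _ hzA, (ha₁ l).2.1]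
  have ha₂w : ∀ l, a₂ l * w = a₂ l := fun l => by
    rw [hA.2.1 _ (ha₂ l).1 _ hwA, (ha₂ l).2.1]
  have hq₁q₂ : q₁ * q₂ = 0 := by rw [← hq₁z, ← hzq₂, mul_assoc, ← mul_assoc z, hzw, zero_mul,
    mul_zero]
  have hx₁ : ∀ l, ∑ i, p₁ i * (z * x l * z) * p₁ i = ∑ i, p₁ i * x l * p₁ i := by
    intro l
    refine Finset.sum_congr rfl fun i _ => ?_
    have : p₁ i * (z * x l * z) * p₁ i = (p₁ i * z) * x l * (z * p₁ i) := by noncomm_ring
    rw [this, hp₁z, hzp₁]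
  have hx₂ : ∀ l, ∑ i, p₂ i * (w * x l * w) * p₂ i = ∑ i, p₂ i * x l * p₂ i := by
    intro l
    refine Finset.sum_congr rfl fun i _ => ?_
    have : p₂ i * (w * x l * w) * p₂ i = (p₂ i * w) * x l * (w * p₂ i) := by noncomm_ring
    rw [this, hp₂w, hwp₂]
  simp only [hx₁] at he₁
  simp only [hx₂] at he₂
  obtain ⟨Y₁, hY₁⟩ : ∃ Y : Fin k → (H →L[ℂ] H), ∀ l, Y l = ∑ i, p₁ i * x l * p₁ i - a₁ l :=
    ⟨_, fun _ => rfl⟩
  obtain ⟨Y₂, hY₂⟩ : ∃ Y : Fin k → (H →L[ℂ] H), ∀ l, Y l = ∑ i, p₂ i * x l * p₂ i - a₂ l :=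
    ⟨_, fun _ => rfl⟩
  simp only [← hY₁] at he₁
  simp only [← hY₂] at he₂
  have hzY₁ : ∀ l, z * Y₁ l = Y₁ l := by
    intro l
    rw [hY₁, mul_sub, (ha₁ l).2.1, Finset.mul_sum]
    congr 1
    refine Finset.sum_congr rfl fun i _ => ?_
    rw [← mul_assoc, ← mul_assoc, hzp₁]
  have hY₁z : ∀ l, Y₁ l * z = Y₁ l := by
    intro l
    rw [hY₁, sub_mul, ha₁z, Finset.sum_mul]
    congr 1
    refine Finset.sum_congr rfl fun i _ => ?_
    rw [mul_assoc, hp₁z]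
  have hwY₂ : ∀ l, w * Y₂ l = Y₂ l := by
    intro l
    rw [hY₂, mul_sub, (ha₂ l).2.1, Finset.mul_sum]
    congr 1
    refine Finset.sum_congr rfl fun i _ => ?_
    rw [← mul_assoc, ← mul_assoc, hwp₂]
  have hY₂w : ∀ l, Y₂ l * w = Y₂ l := by
    intro l
    rw [hY₂, sub_mul, ha₂w, Finset.sum_mul]
    congr 1
    refine Finset.sum_congr rfl fun i _ => ?_
    rw [mul_assoc, hp₂w]
  refine ⟨Fin.append p₁ p₂, fun l => a₁ l + a₂ l, q₁ + q₂, ?_, ?_, ?_,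
    fun l => ⟨add_mem (ha₁ l).1 (ha₂ l).1, one_mul _, (ha₁ l).2.2.1.add (ha₂ l).2.2.1, ?_⟩,
    add_mem hq₁ hq₂, one_mul _, hqp₁.add hqp₂ hq₁q₂, ?_, fun l => ?_⟩
  · intro i
    refine Fin.addCases (fun i => ?_) (fun i => ?_) i
    · rw [Fin.append_left]; exact hp₁ i
    · rw [Fin.append_right]; exact hp₂ i
  · intro i j
    refine Fin.addCases (fun i => ?_) (fun i => ?_) i <;>
      refine Fin.addCases (fun j => ?_) (fun j => ?_) j
    · intro h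
      rw [Fin.append_left, Fin.append_left]
      exact ho₁ i j fun h' => h (by rw [h'])
    · intro _
      rw [Fin.append_left, Fin.append_right, ← hp₁z, ← hwp₂, mul_assoc, ← mul_assoc z, hzw,
        zero_mul, mul_zero]
    · intro _
      rw [Fin.append_left, Fin.append_right, ← hp₂w, ← hzp₁, mul_assoc, ← mul_assoc w, hwz,
        zero_mul, mul_zero]
    · intro h
      rw [Fin.append_right, Fin.append_right]
      exact ho₂ i j fun h' => h (by rw [h'])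
  · rw [Fin.sum_univ_add]
    simp only [Fin.append_left, Fin.append_right]
    rw [hs₁, hs₂, hsum]
  · refine norm_add_le_of_orth hz (norm_nonneg _) ?_ ?_
      ((ha₁ l).2.2.2.trans (norm_corner_le hz (x l)))
      ((ha₂ l).2.2.2.trans (norm_corner_le hwp (x l)))
    · rw [(ha₁ l).2.1, ha₁z]
    · rw [← hw, (ha₂ l).2.1, ha₂w]
  · intro ξ hξ
    have h1 := hd₁ (z ξ) (Finset.mem_image_of_mem _ hξ)
    have h2 := hd₂ (w ξ) (Finset.mem_image_of_mem _ hξ)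
    have h3 : ξ - (q₁ + q₂) ξ = (z ξ - q₁ (z ξ)) + (w ξ - q₂ (w ξ)) := by
      have e1 : q₁ (z ξ) = q₁ ξ := DFunLike.congr_fun hq₁z ξ
      have e2 : q₂ (w ξ) = q₂ ξ := DFunLike.congr_fun hq₂w ξ
      have e3 : z ξ + w ξ = ξ := DFunLike.congr_fun hsum ξ
      rw [e1, e2, _root_.add_apply]
      nth_rewrite 1 [← e3]
      abel
    rw [h3]
    exact lt_of_le_of_lt (norm_add_le _ _) (by linarith only [h1, h2])
  · have h1 : ∑ i, Fin.append p₁ p₂ i * x l * Fin.append p₁ p₂ i - (a₁ l + a₂ l) =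
        Y₁ l + Y₂ l := by
      rw [Fin.sum_univ_add]
      simp only [Fin.append_left, Fin.append_right]
      rw [hY₁, hY₂]; abel
    have h2 : (q₁ + q₂) * (Y₁ l + Y₂ l) * (q₁ + q₂) = q₁ * Y₁ l * q₁ + q₂ * Y₂ l * q₂ := by
      have e1 : q₁ * Y₂ l = 0 := by
        rw [← hq₁z, ← hwY₂, mul_assoc, ← mul_assoc z, hzw, zero_mul, mul_zero]
      have e2 : q₂ * Y₁ l = 0 := by
        rw [← hq₂w, ← hzY₁, mul_assoc, ← mul_assoc w, hwz, zero_mul, mul_zero]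
      have e3 : Y₁ l * q₂ = 0 := by
        rw [← hY₁z, ← hzq₂, mul_assoc, ← mul_assoc z, hzw, zero_mul, mul_zero]
      have e4 : Y₂ l * q₁ = 0 := by
        rw [← hY₂w, ← hzq₁, mul_assoc, ← mul_assoc w, hwz, zero_mul, mul_zero]
      have e5 : (q₁ + q₂) * (Y₁ l + Y₂ l) = q₁ * Y₁ l + q₂ * Y₂ l := by
        rw [add_mul, mul_add, mul_add, e1, e2, add_zero, zero_add]
      rw [e5, add_mul, mul_add, mul_add, mul_assoc q₁ (Y₁ l) q₂, e3, mul_zero, add_zero,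
        mul_assoc q₂ (Y₂ l) q₁, e4, mul_zero, zero_add]
    rw [h1, h2]
    refine norm_add_le_of_orth hz (mul_nonneg hε (norm_nonneg _)) ?_ ?_ ?_ ?_
    · rw [← mul_assoc, ← mul_assoc, hzq₁, mul_assoc, hq₁z]
    · rw [← hw, ← mul_assoc, ← mul_assoc, hzq₂, mul_assoc, hq₂w]
    · exact (he₁ l).trans (mul_le_mul_of_nonneg_left (norm_corner_le hz (x l)) hε)
    · exact (he₂ l).trans (mul_le_mul_of_nonneg_left (norm_corner_le hwp (x l)) hε)

/-- from the finite corner to the whole space -/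
theorem jPav_one (hA : IsMASA A M) {z : H →L[ℂ] H} (hzA : z ∈ A) (hzp : IsStarProjection z)
    (hψ : ∀ ψ : (H →L[ℂ] H) →ₗ[ℂ] ℂ, CentralNormal M A ψ → ψ (1 - z) = 0)
    {ε : ℝ} (hε : 0 < ε) {k : ℕ} {x : Fin k → (H →L[ℂ] H)} (hx : ∀ j, x j ∈ M)
    (hxs : ∀ j, IsSelfAdjoint (x j)) {r : ℕ} (h : JPav M A z (fun j => z * x j * z) ε r) :
    JPav M A 1 x ε (r + (⌊1 / ε⌋₊ + 1)) := by
  have hwA : 1 - z ∈ A := sub_mem (one_mem A) hzA
  have hS := smallProp_of_null hA hwA hzp.one_sub hψ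
  have hwM : 1 - z ∈ M := hA.1 hwA
  have hww : (1 - z) * (1 - z) = 1 - z := hzp.one_sub.isIdempotentElem
  refine JPav.glue hA hzA hzp hε.le h
    (hS.jPav hA hwA hzp.one_sub (fun j => mul_mem (mul_mem hwM (hx j)) hwM) (fun j => ?_)
      (fun j => ?_) (Nat.succ_pos _) (one_div_floor_lt hε))
  · rw [IsSelfAdjoint, star_mul, star_mul, hzp.one_sub.isSelfAdjoint.star_eq, (hxs j).star_eq,
      mul_assoc]
  · exact corner_corner hww (x j)

end Vale.Agent.P078
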