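import Vale.Agent.P078.H598.Fin
import Vale.Agent.P078.Bdl.Fast

set_option linter.all false
attribute [local instance] Vale.Agent.P078.Fast.a01 Vale.Agent.P078.Fast.a02
  Vale.Agent.P078.Fast.a03 Vale.Agent.P078.Fast.a04 Vale.Agent.P078.Fast.a05
  Vale.Agent.P078.Fast.a06 Vale.Agent.P078.Fast.a07 Vale.Agent.P078.Fast.a08
  Vale.Agent.P078.Fast.a09 Vale.Agent.P078.Fast.a10 Vale.Agent.P078.Fast.a11
  Vale.Agent.P078.Fast.a12 Vale.Agent.P078.Fast.a13 Vale.Agent.P078.Fast.a14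
  Vale.Agent.P078.Fast.a15 Vale.Agent.P078.Fast.a16 Vale.Agent.P078.Fast.a17
  Vale.Agent.P078.Fast.a18 Vale.Agent.P078.Fast.a19 Vale.Agent.P078.Fast.a20
  Vale.Agent.P078.Fast.a21 Vale.Agent.P078.Fast.a22 Vale.Agent.P078.Fast.a23
  Vale.Agent.P078.Fast.a24 Vale.Agent.P078.Fast.a25 Vale.Agent.P078.Fast.a26
  Vale.Agent.P078.Fast.a27 Vale.Agent.P078.Fast.a28 Vale.Agent.P078.Fast.a29
  Vale.Agent.P078.Fast.a30 Vale.Agent.P078.Fast.a31 Vale.Agent.P078.Fast.a32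
  Vale.Agent.P078.Fast.a33 Vale.Agent.P078.Fast.a34 Vale.Agent.P078.Fast.a35
  Vale.Agent.P078.Fast.a36 Vale.Agent.P078.Fast.a37 Vale.Agent.P078.Fast.a38
  Vale.Agent.P078.Fast.a39 Vale.Agent.P078.Fast.a40 Vale.Agent.P078.Fast.a41
  Vale.Agent.P078.Fast.a42 Vale.Agent.P078.Fast.a43 Vale.Agent.P078.Fast.a44
  Vale.Agent.P078.Fast.a45 Vale.Agent.P078.Fast.a46 Vale.Agent.P078.Fast.a47
  Vale.Agent.P078.Fast.a48 Vale.Agent.P078.Fast.a49 Vale.Agent.P078.Fast.a50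
  Vale.Agent.P078.Fast.a51 Vale.Agent.P078.Fast.a52 Vale.Agent.P078.Fast.a53
  Vale.Agent.P078.Fast.a54

/-! Rates of growth of the so-paving number: the lower bound `1/ε` outside the expected part, and
diffuse corners of `B(H)`. -/

namespace Vale.Agent.P078

open Filter Topology
open scoped InnerProductSpace

variable {H : Type*} [NormedAddCommGroup H] [InnerProductSpace ℂ H] [CompleteSpace H]
variable {M : VonNeumannAlgebra H} {A : StarSubalgebra ℂ (H →L[ℂ] H)}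

theorem exists_unit_of_proj {w : H →L[ℂ] H} (hwp : IsStarProjection w) (hw0 : w ≠ 0) :
    ∃ ξ : H, w ξ = ξ ∧ ‖ξ‖ = 1 := by
  obtain ⟨v, hv⟩ : ∃ v, w v ≠ 0 := by
    by_contra hcon
    push Not at hcon
    exact hw0 (ContinuousLinearMap.ext hcon)
  refine ⟨((‖w v‖⁻¹ : ℝ) : ℂ) • w v, ?_, ?_⟩
  · rw [map_smul, proj_apply_apply hwp]
  · rw [norm_smul, Complex.norm_real, norm_inv, norm_norm, inv_mul_cancel₀ (norm_ne_zero_iff.2 hv)]

/-- a nonzero corner with small partitions forces paving numbers at least `1/ε` -/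
theorem SmallProp.lower' (hA : IsMASA A M) {w : H →L[ℂ] H} (hwp : IsStarProjection w)
    (hw0 : w ≠ 0) (hS : SmallProp M A w) {ε : ℝ} (hε : 0 < ε) {r : ℕ} (hr : 0 < r)
    (h : ∀ x ∈ M, IsSelfAdjoint x → SOPavable M A 1 x ε r) : 1 / (r : ℝ) ≤ ε := by
  classical
  have hc := hA.2.1
  have hrpos : (0 : ℝ) < r := by exact_mod_cast hr
  have hr1 : (1 : ℝ) / r ≤ 1 := by
    rw [div_le_one hrpos]
    exact_mod_cast hr
  obtain ⟨ξ, hwξ, hξ⟩ : ∃ ξ : H, w ξ = ξ ∧ ‖ξ‖ = 1 := exists_unit_of_proj hwp hw0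
  have key : ∀ δ : ℝ, 0 < δ → δ ≤ 1 → (1 - 2 * δ) / r ≤ ε + 2 * δ := by
    intro δ hδ hδ1
    obtain ⟨g, hgM, hg1, -, hgF, Q, hQ⟩ := hS {ξ} (by simpa using hwξ) δ hδ
    have hgξ : ‖g ξ - ξ‖ < δ := hgF ξ (by simp)
    set x : H →L[ℂ] H := (2 : ℂ) • (g * star g) - 1 with hx
    have hxM : x ∈ M := by
      refine sub_mem ?_ (one_mem _)
      exact M.toStarSubalgebra.smul_mem (mul_mem hgM (star_mem hgM)) _
    have hxsa : IsSelfAdjoint x := by
      rw [hx, IsSelfAdjoint, star_sub, star_smul, star_mul, star_star, star_one]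
      simp only [star_ofNat]
    have hxre : ∀ v, RCLike.re ⟪x v, v⟫_ℂ = 2 * ‖star g v‖ ^ 2 - ‖v‖ ^ 2 := by
      intro v
      have h1 : x v = (2 : ℂ) • (g (star g v)) - v := by
        rw [hx]; rfl
      have h2 : ⟪g (star g v), v⟫_ℂ = ⟪star g v, star g v⟫_ℂ := by
        conv_rhs => rw [ContinuousLinearMap.star_eq_adjoint]
        rw [ContinuousLinearMap.adjoint_inner_right]
        rfl
      rw [h1, inner_sub_left, inner_smul_left, map_sub, h2, inner_self_eq_norm_sq]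
      have h3 : (starRingEnd ℂ) 2 = ((2 : ℝ) : ℂ) := by
        have h5 : (2 : ℂ) = ((2 : ℝ) : ℂ) := by simp
        rw [h5, Complex.conj_ofReal]
      rw [h3]
      have h4 : RCLike.re (((2 : ℝ) : ℂ) * ⟪star g v, star g v⟫_ℂ) =
          2 * RCLike.re ⟪star g v, star g v⟫_ℂ := RCLike.re_ofReal_mul (K := ℂ) _ _
      rw [h4, inner_self_eq_norm_sq]
    have hsg1 : ‖star g‖ ≤ 1 := by rw [norm_star]; exact hg1
    have hsg : ∀ v, ‖star g v‖ ≤ ‖v‖ := by
      intro v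
      calc ‖star g v‖ ≤ ‖star g‖ * ‖v‖ := (star g).le_opNorm v
        _ ≤ 1 * ‖v‖ := mul_le_mul_of_nonneg_right hsg1 (norm_nonneg _)
        _ = _ := one_mul _
    have hxn : ‖x‖ ≤ 1 := by
      apply norm_le_of_rayleigh hxsa zero_le_one
      intro v
      rw [hxre, abs_le]
      have h1 := hsg v
      have h2 : ‖star g v‖ ^ 2 ≤ ‖v‖ ^ 2 := pow_le_pow_left₀ (norm_nonneg _) h1 2
      constructor
      · linarith only [sq_nonneg ‖star g v‖]
      · linarith only [h2]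
    set N : ℕ := Fintype.card Q.ι with hN
    set δ₂ : ℝ := δ / (4 * (N + 1)) with hδ₂
    have hδ₂pos : 0 < δ₂ := by (clear * - hδ; (clear * - hδ; positivity))
    set F : Finset H := insert ξ (Finset.univ.image fun j => Q.e j ξ) with hF
    obtain ⟨p, a, q, hpA, hporth, hpsum, haA, -, hasa, han, hqM, -, hqp, hqF, hqS⟩ :=
      h x hxM hxsa F (by simp) δ₂ hδ₂pos
    let P : Part A := ⟨Fin r, p, fun i => (hpA i).1, fun i => (hpA i).2, hporth, hpsum⟩
    have hPE : ∑ i, p i * x * p i = P.E x := rfl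
    rw [hPE] at hqS
    set S : H →L[ℂ] H := P.E x - a with hSdef
    have hS2 : ‖S‖ ≤ 2 := by
      calc ‖S‖ ≤ ‖P.E x‖ + ‖a‖ := norm_sub_le _ _
        _ ≤ ‖x‖ + ‖x‖ := add_le_add (P.norm_E_le x) han
        _ ≤ 2 := by linarith only [hxn]
    have hqS' : ‖q * S * q‖ ≤ ε := by
      refine hqS.trans ?_
      calc ε * ‖x‖ ≤ ε * 1 := mul_le_mul_of_nonneg_left hxn hε.le
        _ = ε := mul_one _
    have hSre : ∀ v, RCLike.re ⟪S v, v⟫_ℂ =
        2 * ∑ i : Fin r, ‖star g (p i v)‖ ^ 2 - ‖v‖ ^ 2 - RCLike.re ⟪a v, v⟫_ℂ := by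
      intro v
      have h1 : RCLike.re ⟪P.E x v, v⟫_ℂ = ∑ i : Fin r, RCLike.re ⟪x (p i v), p i v⟫_ℂ := by
        rw [P.E_apply_apply, sum_inner, map_sum]
        refine Finset.sum_congr rfl fun i _ => ?_
        rw [sproj_inner (P.proj i)]
      rw [hSdef, _root_.sub_apply, inner_sub_left, map_sub, h1]
      simp_rw [hxre]
      rw [Finset.sum_sub_distrib, ← Finset.mul_sum]
      have h2 : ∑ i : Fin r, ‖p i v‖ ^ 2 = ‖v‖ ^ 2 := P.sum_norm_sq v
      rw [h2]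
    have hae : ∀ j, a * Q.e j = Q.e j * a := fun j => hc a haA _ (Q.mem j)
    -- the blocks
    have hblock : ∀ j, |RCLike.re ⟪S (Q.e j ξ), Q.e j ξ⟫_ℂ| ≤ ε * ‖Q.e j ξ‖ ^ 2 + 4 * δ₂ := by
      intro j
      apply re_inner_compress hqp hS2 hqS'
      · exact (proj_norm_le (Q.proj j) ξ).trans hξ.le
      · refine (hqF _ ?_).le
        rw [hF]
        exact Finset.mem_insert_of_mem (Finset.mem_image_of_mem _ (Finset.mem_univ j))
    have hself : |RCLike.re ⟪S ξ, ξ⟫_ℂ| ≤ ε * ‖ξ‖ ^ 2 + 4 * δ₂ := by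
      apply re_inner_compress hqp hS2 hqS' hξ.le
      refine (hqF _ ?_).le
      rw [hF]
      exact Finset.mem_insert_self _ _
    have hasum : ∑ j, RCLike.re ⟪a (Q.e j ξ), Q.e j ξ⟫_ℂ = RCLike.re ⟪a ξ, ξ⟫_ℂ := by
      have h1 : ∀ j, ⟪a (Q.e j ξ), Q.e j ξ⟫_ℂ = ⟪a ξ, Q.e j ξ⟫_ℂ := by
        intro j
        have h2 : a (Q.e j ξ) = Q.e j (a ξ) := by
          have := congrArg (fun S : H →L[ℂ] H => S ξ) (hae j)
          simpa only [mul_apply_eq_comp] using this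
        rw [h2, sproj_inner (Q.proj j), sproj_apply_apply (Q.proj j)]
      simp_rw [h1]
      rw [← map_sum, ← inner_sum, Q.sum_apply]
    have hsmall : ∑ j, ∑ i : Fin r, ‖star g (p i (Q.e j ξ))‖ ^ 2 ≤ δ ^ 2 := by
      rw [Finset.sum_comm]
      have h1 : ∀ i : Fin r, ∑ j, ‖star g (p i (Q.e j ξ))‖ ^ 2 ≤ δ ^ 2 * ‖p i ξ‖ ^ 2 := by
        intro i
        rw [← Q.sum_norm_sq (p i ξ), Finset.mul_sum]
        refine Finset.sum_le_sum fun j _ => ?_
        have h2 : p i (Q.e j ξ) = Q.e j (p i ξ) := by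
          have := congrArg (fun S : H →L[ℂ] H => S ξ) (hc _ (hpA i).1 _ (Q.mem j))
          simpa only [mul_apply_eq_comp] using this
        rw [h2]
        have h3 := norm_star_mul_le (Q.proj j) (hQ j) (Q.e j (p i ξ))
        rw [sproj_apply_apply (Q.proj j)] at h3
        calc ‖star g (Q.e j (p i ξ))‖ ^ 2 ≤ (δ * ‖Q.e j (p i ξ)‖) ^ 2 :=
              pow_le_pow_left₀ (norm_nonneg _) h3 2
          _ = _ := by ring
      calc ∑ i : Fin r, ∑ j, ‖star g (p i (Q.e j ξ))‖ ^ 2 ≤ ∑ i : Fin r, δ ^ 2 * ‖p i ξ‖ ^ 2 :=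
            Finset.sum_le_sum fun i _ => h1 i
        _ = δ ^ 2 * ‖ξ‖ ^ 2 := by
            rw [← Finset.mul_sum]
            congr 1
            exact P.sum_norm_sq ξ
        _ = δ ^ 2 := by rw [hξ]; ring
    have hsumblock : 1 + RCLike.re ⟪a ξ, ξ⟫_ℂ ≤ 2 * δ ^ 2 + ε + 4 * N * δ₂ := by
      have h1 : ∑ j, RCLike.re ⟪S (Q.e j ξ), Q.e j ξ⟫_ℂ ≥ -(ε + 4 * N * δ₂) := by
        have h2 : ∑ j, -(ε * ‖Q.e j ξ‖ ^ 2 + 4 * δ₂) ≤
            ∑ j, RCLike.re ⟪S (Q.e j ξ), Q.e j ξ⟫_ℂ :=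
          Finset.sum_le_sum fun j _ => (abs_le.mp (hblock j)).1
        rw [Finset.sum_neg_distrib, Finset.sum_add_distrib, ← Finset.mul_sum, Q.sum_norm_sq,
          Finset.sum_const, Finset.card_univ, ← hN, hξ] at h2
        have h3 : (N • (4 * δ₂) : ℝ) = 4 * N * δ₂ := by
          rw [nsmul_eq_mul]; ring
        rw [h3] at h2
        linarith only [h2]
      have h4 : ∑ j, RCLike.re ⟪S (Q.e j ξ), Q.e j ξ⟫_ℂ =
          2 * ∑ j, ∑ i : Fin r, ‖star g (p i (Q.e j ξ))‖ ^ 2 - 1 - RCLike.re ⟪a ξ, ξ⟫_ℂ := by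
        simp_rw [hSre]
        rw [Finset.sum_sub_distrib, Finset.sum_sub_distrib, hasum, Q.sum_norm_sq, hξ,
          ← Finset.mul_sum]
        ring
      rw [h4] at h1
      linarith only [hsmall, h1]
    have hpinch : ‖star g ξ‖ ^ 2 ≤ r * ∑ i : Fin r, ‖star g (p i ξ)‖ ^ 2 := by
      have h1 : star g ξ = ∑ i : Fin r, star g (p i ξ) := by
        rw [← map_sum]
        congr 1
        exact (P.sum_apply ξ).symm
      have h2 : ‖star g ξ‖ ≤ ∑ i : Fin r, ‖star g (p i ξ)‖ := by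
        conv_lhs => rw [h1]
        exact norm_sum_le _ _
      calc ‖star g ξ‖ ^ 2 ≤ (∑ i : Fin r, ‖star g (p i ξ)‖) ^ 2 :=
            pow_le_pow_left₀ (norm_nonneg _) h2 2
        _ ≤ (Finset.univ : Finset (Fin r)).card * ∑ i : Fin r, ‖star g (p i ξ)‖ ^ 2 :=
            sq_sum_le_card_mul_sum_sq
        _ = _ := by rw [Finset.card_univ, Fintype.card_fin]
    have hglow : 1 - 2 * δ ≤ ‖star g ξ‖ ^ 2 := by
      have h1 : 1 - δ ≤ ‖star g ξ‖ := by
        have h2 : ‖⟪star g ξ, ξ⟫_ℂ‖ ≤ ‖star g ξ‖ := by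
          have := norm_inner_le_norm (𝕜 := ℂ) (star g ξ) ξ
          rwa [hξ, mul_one] at this
        have h3 : ⟪star g ξ, ξ⟫_ℂ = ⟪ξ, ξ⟫_ℂ + ⟪ξ, g ξ - ξ⟫_ℂ := by
          rw [ContinuousLinearMap.star_eq_adjoint, ContinuousLinearMap.adjoint_inner_left,
            inner_sub_right]
          ring
        have h4 : ‖⟪ξ, ξ⟫_ℂ‖ = 1 := by
          rw [inner_self_eq_norm_sq_to_K, hξ]; simp only [Complex.coe_algebraMap, Complex.ofReal_one, one_pow, norm_one]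
        have h5 : ‖⟪ξ, g ξ - ξ⟫_ℂ‖ ≤ δ := by
          calc ‖⟪ξ, g ξ - ξ⟫_ℂ‖ ≤ ‖ξ‖ * ‖g ξ - ξ‖ := norm_inner_le_norm _ _
            _ ≤ δ := by rw [hξ, one_mul]; exact hgξ.le
        have h6 : 1 - δ ≤ ‖⟪ξ, ξ⟫_ℂ + ⟪ξ, g ξ - ξ⟫_ℂ‖ := by
          have h7 := norm_sub_norm_le (⟪ξ, ξ⟫_ℂ) (-⟪ξ, g ξ - ξ⟫_ℂ)
          rw [sub_neg_eq_add, norm_neg] at h7
          linarith only [h4, h5, h7]
        rw [h3] at h2
        linarith only [h2, h6]
      have h8 : (1 - δ) ^ 2 ≤ ‖star g ξ‖ ^ 2 := pow_le_pow_left₀ (by linarith only [hδ1]) h1 2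
      nlinarith
    have hup : 2 * ∑ i : Fin r, ‖star g (p i ξ)‖ ^ 2 ≤
        2 * δ ^ 2 + 2 * ε + 4 * (N + 1) * δ₂ := by
      have h1 := (abs_le.mp hself).2
      rw [hSre, hξ] at h1
      linarith only [hsumblock, h1]
    have h4δ : 4 * (N + 1) * δ₂ = δ := by rw [hδ₂]; (clear * - hδ; field_simp)
    rw [h4δ] at hup
    have hfin : (1 - 2 * δ) / r ≤ ∑ i : Fin r, ‖star g (p i ξ)‖ ^ 2 := by
      rw [div_le_iff₀ hrpos]
      linarith only [hpinch, hglow, hglow.trans hpinch]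
    nlinarith only [hδ, hδ1, hδ₂pos, hup, h4δ, hfin]
  refine le_of_forall_pos_le_add fun η hη => ?_
  have hmin : 0 < min 1 (η / 4) := lt_min one_pos (by (clear * - hη; positivity))
  have h1 := key (min 1 (η / 4)) hmin (min_le_left _ _)
  set δ := min 1 (η / 4) with hδ
  have h2 : δ ≤ η / 4 := min_le_right _ _
  have h3 : (1 - 2 * δ) / r = 1 / r - 2 * δ * (1 / r) := by ring
  rw [h3] at h1
  have h4 : 2 * δ * (1 / (r : ℝ)) ≤ 2 * δ * 1 :=
    mul_le_mul_of_nonneg_left hr1 (by (clear * - hη; positivity))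
  linarith only [h1, h2, h4]

theorem SmallProp.le_paving (hA : IsMASA A M) {w : H →L[ℂ] H} (hwp : IsStarProjection w)
    (hw0 : w ≠ 0) (hS : SmallProp M A w) {ε : ℝ} (hε : 0 < ε) :
    (⌈1 / ε⌉₊ : ℕ∞) ≤ pavingNumber M A 1 ε := by
  refine le_pavingNumber fun r hr hpave => ?_
  have h3 := hS.lower' hA hwp hw0 hε (by omega) fun x hx hxs => hpave x hx hxs (by simp)
  rw [Nat.cast_le, Nat.ceil_le]
  have hr0 : (0 : ℝ) < r := by exact_mod_cast hr
  rw [div_le_iff₀ hr0] at h3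
  rw [div_le_iff₀ hε]
  linarith only [h3]

/-- a diffuse corner of a MASA of `B(H)` has small partitions -/
theorem smallProp_of_diffuse_corner (hM : ∀ x : H →L[ℂ] H, x ∈ M) (hA : IsMASA A M)
    {e0 : H →L[ℂ] H} (he0A : e0 ∈ A) (he0p : IsStarProjection e0)
    (hdiff : ∀ e ∈ A, IsStarProjection e → e0 * e = e → e ≠ 0 →
      ∃ f ∈ A, IsStarProjection f ∧ e * f = f ∧ f ≠ 0 ∧ f ≠ e) : SmallProp M A e0 := by
  classical
  intro F hF δ hδ
  set K : Submodule ℂ H := Submodule.span ℂ (F : Set H) with hK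
  have : FiniteDimensional ℂ K := FiniteDimensional.span_finset ℂ F
  have hKe : ∀ v ∈ K, e0 v = v := by
    intro v hv
    have h1 : K ≤ LinearMap.ker ((e0 - 1 : H →L[ℂ] H) : H →ₗ[ℂ] H) := by
      rw [hK, Submodule.span_le]
      intro ξ hξ
      change (e0 - 1 : H →L[ℂ] H) ξ = 0
      rw [_root_.sub_apply, hF ξ hξ]
      exact sub_self _
    have h2 : (e0 - 1 : H →L[ℂ] H) v = 0 := h1 hv
    rw [_root_.sub_apply] at h2
    exact sub_eq_zero.1 h2
  set b := stdOrthonormalBasis ℂ K with hb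
  obtain ⟨Q, hQ⟩ := exists_part_small_corner hA he0A he0p hdiff (fun k => (b k : H))
    (fun k => hKe _ (b k).2) hδ
  refine ⟨K.starProjection, hM _, Submodule.starProjection_norm_le _, ?_, ?_, Q, ?_⟩
  · ext v
    exact hKe _ (Submodule.starProjection_apply_mem K v)
  · intro ξ hξ
    have : K.starProjection ξ = ξ := Submodule.starProjection_eq_self_iff.mpr
      (Submodule.subset_span hξ)
    rw [this, sub_self, norm_zero]
    exact hδ
  · intro i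
    refine ContinuousLinearMap.opNorm_le_bound _ hδ.le fun v => ?_
    have h1 : K.starProjection v = ∑ k, ⟪(b k : H), v⟫_ℂ • (b k : H) := by
      have h2 := b.sum_repr (K.orthogonalProjectionOnto v)
      have h3 : (K.starProjection v : H) = ((K.orthogonalProjectionOnto v : K) : H) := rfl
      rw [h3, ← h2]
      push_cast
      refine Finset.sum_congr rfl fun k _ => ?_
      congr 1
      rw [b.repr_apply_apply]
      have h5 : ⟪b k, K.orthogonalProjectionOnto v⟫_ℂ = ⟪(b k : H), K.starProjection v⟫_ℂ := rfl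
      rw [h5, ← Submodule.inner_starProjection_left_eq_right,
        Submodule.starProjection_eq_self_iff.mpr (b k).2]
    rw [mul_apply_eq_comp, h1, map_sum]
    calc ‖∑ k, Q.e i (⟪(b k : H), v⟫_ℂ • (b k : H))‖
        ≤ ∑ k, ‖Q.e i (⟪(b k : H), v⟫_ℂ • (b k : H))‖ := norm_sum_le _ _
      _ ≤ ∑ k, ‖Q.e i (b k : H)‖ * ‖v‖ := by
          refine Finset.sum_le_sum fun k _ => ?_
          rw [map_smul, norm_smul, mul_comm]
          apply mul_le_mul_of_nonneg_left _ (norm_nonneg _)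
          have h4 : ‖(b k : H)‖ = 1 := b.orthonormal.1 k
          calc ‖⟪(b k : H), v⟫_ℂ‖ ≤ ‖(b k : H)‖ * ‖v‖ := norm_inner_le_norm _ _
            _ = ‖v‖ := by rw [h4, one_mul]
      _ = (∑ k, ‖Q.e i (b k : H)‖) * ‖v‖ := by rw [Finset.sum_mul]
      _ ≤ δ * ‖v‖ := mul_le_mul_of_nonneg_right (hQ i) (norm_nonneg _)

end Vale.Agent.P078
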