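import Vale.Agent.P078.H598.Rate9
import Vale.Agent.P078.Bdl.Fast

set_option linter.all false
attribute [local instance] Vale.Agent.P078.Fast.a01 Vale.Agent.P078.Fast.a02
  Vale.Agent.P078.Fast.a03 Vale.Agent.P078.Fast.a04 Vale.Agent.P078.Fast.a05
  Vale.Agent.P078.Fast.a06 Vale.Agent.P078.Fast.a07 Vale.Agent.P078.Fast.a08
  Vale.Agent.P078.Fast.a09 Vale.Agent.P078.Fast.a10 Vale.Agent.P078.Fast.a11
  Vale.Agent.P078.Fast.a12 Vale.Agent.P078.Fast.a13 Vale.Agent.P078.Fast.a14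
  Vale.Agent.P078.Fast.a15 Vale.Agent.P078.Fast.a16 Vale.Agent.P078.Fast.a17
  Vale.Agent.P078.Fast.a18 Vale.Agent.P078.Fast.a19 Vale.Agent.P078.Fast.a20
  Vale.Agent.P078.Fast.a21 Vale.Agent.P078.Fast.a22 Vale.Agent.P078.Fast.a23
  Vale.Agent.P078.Fast.a24 Vale.Agent.P078.Fast.a25 Vale.Agent.P078.Fast.a26
  Vale.Agent.P078.Fast.a27 Vale.Agent.P078.Fast.a28 Vale.Agent.P078.Fast.a29
  Vale.Agent.P078.Fast.a30 Vale.Agent.P078.Fast.a31 Vale.Agent.P078.Fast.a32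
  Vale.Agent.P078.Fast.a33 Vale.Agent.P078.Fast.a34 Vale.Agent.P078.Fast.a35
  Vale.Agent.P078.Fast.a36 Vale.Agent.P078.Fast.a37 Vale.Agent.P078.Fast.a38
  Vale.Agent.P078.Fast.a39 Vale.Agent.P078.Fast.a40 Vale.Agent.P078.Fast.a41
  Vale.Agent.P078.Fast.a42 Vale.Agent.P078.Fast.a43 Vale.Agent.P078.Fast.a44
  Vale.Agent.P078.Fast.a45 Vale.Agent.P078.Fast.a46 Vale.Agent.P078.Fast.a47
  Vale.Agent.P078.Fast.a48 Vale.Agent.P078.Fast.a49 Vale.Agent.P078.Fast.a50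
  Vale.Agent.P078.Fast.a51 Vale.Agent.P078.Fast.a52 Vale.Agent.P078.Fast.a53
  Vale.Agent.P078.Fast.a54

/-! Rates of growth of the so-paving number: halving projections of `A` over the centre. -/

namespace Vale.Agent.P078

open Filter Topology Vale.Agent.P078.C Vale.Agent.P078.G
open scoped InnerProductSpace ENNReal

universe u

variable {H : Type u} [NormedAddCommGroup H] [InnerProductSpace ℂ H] [CompleteSpace H]
variable {M A : VonNeumannAlgebra H} {e0 : H →L[ℂ] H} {ξ : ℕ → H}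

/-- the positive contractions of `A` below `f` which are half of `f` over the centre -/
def halfSet (M A : VonNeumannAlgebra H) (τ : (H →L[ℂ] H) →ₗ[ℂ] ℂ) (f : H →L[ℂ] H) :
    Set (H →WOT[ℂ] H) :=
  {v | v.toCLM ∈ A ∧ IsSelfAdjoint v.toCLM ∧ f * v.toCLM = v.toCLM ∧ ‖v.toCLM‖ ≤ 1 ∧
    (∀ ζ, 0 ≤ (⟪ζ, v.toCLM ζ⟫_ℂ).re ∧ (⟪ζ, v.toCLM ζ⟫_ℂ).re ≤ ‖f ζ‖ ^ 2) ∧
    ∀ c ∈ M, (∀ y ∈ M, c * y = y * c) → τ (v.toCLM * c) = (1 / 2) * τ (f * c)}

theorem CornerTrace.isCompact_halfSet (T : CornerTrace M e0 ξ) (hA : SO.IsMASA A M)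
    (f : H →L[ℂ] H) : IsCompact (halfSet M A T.tr f) := by
  rw [isCompact_iff_ultrafilter_le_nhds]
  intro U hU
  have hmem : ∀ᶠ v in (U : Filter (H →WOT[ℂ] H)), v ∈ halfSet M A T.tr f :=
    Filter.le_principal_iff.mp hU
  obtain ⟨t, ht1, ht⟩ := exists_wot_limit U (fun v : H →WOT[ℂ] H => v.toCLM) 1
    (hmem.mono fun v hv => hv.2.2.2.1) zero_le_one
  have hleft : ∀ (y : H →L[ℂ] H) (ξ η : H),
      Tendsto (fun v : H →WOT[ℂ] H => ⟪ξ, (y * v.toCLM) η⟫_ℂ) U (𝓝 ⟪ξ, (y * t) η⟫_ℂ) := by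
    intro y ξ η
    have := ht (star y ξ) η
    simp only [star_apply_inner] at this
    exact this
  have htA : t ∈ A := mem_of_tendsto' (M := A) (hmem.mono fun v hv => hv.1) ht
  refine ⟨ContinuousLinearMapWOT.ofCLM t, ⟨htA, ?_, ?_, ht1, fun ζ => ⟨?_, ?_⟩, ?_⟩, ?_⟩
  · change star t = t
    refine inner_ext fun ξ η => ?_
    have h1 : Tendsto (fun v : H →WOT[ℂ] H => (starRingEnd ℂ) ⟪η, v.toCLM ξ⟫_ℂ) U
        (𝓝 ((starRingEnd ℂ) ⟪η, t ξ⟫_ℂ)) :=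
      (Complex.continuous_conj.tendsto _).comp (ht η ξ)
    have h2 : ⟪ξ, star t η⟫_ℂ = (starRingEnd ℂ) ⟪η, t ξ⟫_ℂ := by
      rw [inner_conj_symm, ← star_apply_inner (star t), star_star]
    rw [h2]
    refine tendsto_nhds_unique h1 ((ht ξ η).congr' ?_)
    filter_upwards [hmem] with v hv
    have h3 : star v.toCLM = v.toCLM := hv.2.1
    rw [inner_conj_symm, ← star_apply_inner v.toCLM, h3]
  · refine inner_ext fun ξ η => ?_
    refine tendsto_nhds_unique (hleft f ξ η) ((ht ξ η).congr' ?_)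
    filter_upwards [hmem] with v hv
    rw [hv.2.2.1]
  · refine ge_of_tendsto ((Complex.continuous_re.tendsto _).comp (ht ζ ζ)) ?_
    filter_upwards [hmem] with v hv
    exact (hv.2.2.2.2.1 ζ).1
  · refine le_of_tendsto ((Complex.continuous_re.tendsto _).comp (ht ζ ζ)) ?_
    filter_upwards [hmem] with v hv
    exact (hv.2.2.2.2.1 ζ).2
  · intro c hcM hc
    have hw := (T.wcont.mul_right hcM) 1 t
      (Filter.map (fun v : H →WOT[ℂ] H => v.toCLM) (U : Filter (H →WOT[ℂ] H)))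
      (hA.1 _ htA) (by
        rw [eventually_map]
        filter_upwards [hmem] with v hv
        exact ⟨hA.1 _ hv.1, hv.2.2.2.1⟩) (by
        intro ξ' η'
        rw [tendsto_map'_iff]
        exact ht ξ' η')
    rw [tendsto_map'_iff] at hw
    refine tendsto_nhds_unique hw (tendsto_const_nhds.congr' ?_)
    filter_upwards [hmem] with v hv
    exact (hv.2.2.2.2.2 c hcM hc).symm
  · rw [ContinuousLinearMapWOT.le_nhds_iff_forall_inner_apply_le_nhds]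
    intro x y
    exact ht y x

/-- the positive operator `a - a²` dominates a multiple of a nonzero projection -/
theorem exists_spectral_below {b : H →L[ℂ] H} (hbs : IsSelfAdjoint b)
    (hb0 : ∀ ζ, 0 ≤ (⟪ζ, b ζ⟫_ℂ).re) (hb : b ≠ 0) :
    ∃ (g : H →L[ℂ] H) (t : ℝ), 0 < t ∧ IsStarProjection g ∧ g ≠ 0 ∧
      (∀ y : H →L[ℂ] H, y * b = b * y → y * g = g * y) ∧
      ∀ ζ, t * ‖g ζ‖ ^ 2 ≤ (⟪ζ, b ζ⟫_ℂ).re := by
  obtain ⟨ζ0, hζ0⟩ : ∃ ζ0, 0 < (⟪ζ0, b ζ0⟫_ℂ).re := by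
    by_contra hcon
    push Not at hcon
    apply hb
    have h1 : 0 ≤ b := nonneg_of_inner hbs hb0
    have h2 : 0 ≤ -b := nonneg_of_inner hbs.neg fun ζ => by
      rw [neg_apply, inner_neg_right, Complex.neg_re]
      linarith only [hcon ζ]
    exact le_antisymm (neg_nonneg.1 h2) h1
  have hn : 0 < ‖ζ0‖ ^ 2 := by
    have : ζ0 ≠ 0 := by
      rintro rfl
      rw [inner_zero_left, Complex.zero_re] at hζ0
      exact lt_irrefl _ hζ0
    have := norm_pos_iff.2 this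
    positivity
  obtain ⟨t, ht⟩ : ∃ t : ℝ, t = (⟪ζ0, b ζ0⟫_ℂ).re / (2 * ‖ζ0‖ ^ 2) := ⟨_, rfl⟩
  have ht0 : 0 < t := by rw [ht]; positivity
  obtain ⟨g, hgp, hgc, hg1, hg2⟩ := exists_spectral_proj b hbs t
  refine ⟨g, t, ht0, hgp, fun h0 => ?_, hgc, fun ζ => ?_⟩
  · have h1 := hg2 ζ0 (by rw [h0]; rfl)
    rw [ht, div_mul_eq_mul_div, le_div_iff₀ (by positivity)] at h1
    nlinarith only [h1, hn, hζ0, mul_pos hn hζ0]
  · have hgb : b * g = g * b := hgc b rfl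
    have h1 : (⟪ζ, b ζ⟫_ℂ).re = (⟪g ζ, b (g ζ)⟫_ℂ).re + (⟪ζ - g ζ, b (ζ - g ζ)⟫_ℂ).re := by
      have e1 : ⟪g ζ, b (ζ - g ζ)⟫_ℂ = 0 := by
        rw [proj_inner hgp]
        have : g (b (ζ - g ζ)) = b (g (ζ - g ζ)) := (DFunLike.congr_fun hgb (ζ - g ζ)).symm
        rw [this, map_sub, proj_apply_apply hgp, sub_self, map_zero, inner_zero_right]
      have e2 : ⟪ζ - g ζ, b (g ζ)⟫_ℂ = 0 := by
        have : b (g ζ) = g (b ζ) := DFunLike.congr_fun hgb ζ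
        rw [this, ← proj_inner hgp, map_sub, proj_apply_apply hgp, sub_self, inner_zero_left]
      have e3 : ⟪ζ, b ζ⟫_ℂ = ⟪g ζ, b (g ζ)⟫_ℂ + ⟪g ζ, b (ζ - g ζ)⟫_ℂ + ⟪ζ - g ζ, b (g ζ)⟫_ℂ +
          ⟪ζ - g ζ, b (ζ - g ζ)⟫_ℂ := by
        simp only [map_sub, inner_sub_left, inner_sub_right]
        ring
      rw [e3, e1, e2, add_zero, add_zero, Complex.add_re]
    rw [h1]
    have h2 := hg1 (g ζ) (proj_apply_apply hgp ζ)
    have h3 := hb0 (ζ - g ζ)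
    linarith only [h2, h3]

/-- the halving lemma -/
theorem CornerTrace.exists_half (T : CornerTrace M e0 ξ)
    (hfa : ∀ x ∈ M, (∀ n, x (ξ n) = 0) → x * e0 = 0) (hA : SO.IsMASA A M) (he0 : e0 ∈ A)
    {f : H →L[ℂ] H} (hf : f ∈ A) (hfp : IsStarProjection f) (he0f : e0 * f = f)
    (hnab : ∀ g ∈ A, IsStarProjection g → f * g = g → g ≠ 0 → ¬ ∀ x ∈ M, g * x * g ∈ A) :
    ∃ k ∈ A, IsStarProjection k ∧ f * k = k ∧
      ∀ c ∈ M, (∀ y ∈ M, c * y = y * c) → T.tr (k * c) = (1 / 2) * T.tr (f * c) := by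
  have hAs := SO.IsMASA.toStar hA
  have hff : f * f = f := hfp.isIdempotentElem.eq
  have hne : (halfSet M A T.tr f).Nonempty := by
    refine ⟨ContinuousLinearMapWOT.ofCLM ((1 / 2 : ℂ) • f),
      A.toStarSubalgebra.smul_mem hf _, ?_, ?_, ?_, fun ζ => ?_, ?_⟩
    · change star ((1 / 2 : ℂ) • f) = (1 / 2 : ℂ) • f
      have h2 : (1 / 2 : ℂ) = ((1 / 2 : ℝ) : ℂ) := by push_cast; rfl
      rw [star_smul, hfp.isSelfAdjoint.star_eq, h2, Complex.star_def, Complex.conj_ofReal]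
    · change f * ((1 / 2 : ℂ) • f) = (1 / 2 : ℂ) • f
      rw [mul_smul_comm, hff]
    · change ‖(1 / 2 : ℂ) • f‖ ≤ 1
      rw [norm_smul]
      have h1 := proj_opNorm_le hfp
      have h2 : ‖(1 / 2 : ℂ)‖ = 1 / 2 := by simp
      rw [h2]
      linarith only [h1]
    · change 0 ≤ (⟪ζ, ((1 / 2 : ℂ) • f) ζ⟫_ℂ).re ∧ (⟪ζ, ((1 / 2 : ℂ) • f) ζ⟫_ℂ).re ≤ ‖f ζ‖ ^ 2
      have h1 : (⟪ζ, ((1 / 2 : ℂ) • f) ζ⟫_ℂ).re = 1 / 2 * ‖f ζ‖ ^ 2 := by
        rw [smul_apply, inner_smul_right, ← proj_inner_self hfp]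
        have : (1 / 2 : ℂ) = ((1 / 2 : ℝ) : ℂ) := by push_cast; rfl
        rw [this, Complex.re_ofReal_mul]
      rw [h1]
      have h2 := sq_nonneg ‖f ζ‖
      constructor <;> linarith only [h2]
    · intro c _ _
      change T.tr (((1 / 2 : ℂ) • f) * c) = (1 / 2) * T.tr (f * c)
      rw [smul_mul_assoc, map_smul, smul_eq_mul]
  obtain ⟨v, hv⟩ := (T.isCompact_halfSet hA f).extremePoints_nonempty hne
  obtain ⟨hvK, hvE⟩ := hv
  obtain ⟨a, ha⟩ : ∃ a, a = v.toCLM := ⟨_, rfl⟩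
  obtain ⟨haA, has, hfa', han, hab, hac⟩ := hvK
  rw [← ha] at haA has hfa' han hab hac
  have hasq : ∀ ζ, (⟪ζ, (a * a) ζ⟫_ℂ).re = ‖a ζ‖ ^ 2 := by
    intro ζ
    have h1 : ⟪ζ, (a * a) ζ⟫_ℂ = ⟪a ζ, a ζ⟫_ℂ := by
      have := star_apply_inner a ζ (a ζ)
      rw [has.star_eq] at this
      exact this.symm
    rw [h1, inner_self_eq_norm_sq_to_K]
    norm_cast
  obtain ⟨b, hb⟩ : ∃ b, b = a - a * a := ⟨_, rfl⟩
  by_cases hb0 : b = 0
  · refine ⟨a, haA, ⟨?_, has⟩, hfa', hac⟩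
    change a * a = a
    rw [hb0] at hb
    exact (sub_eq_zero.1 hb.symm).symm
  exfalso
  have hbs : IsSelfAdjoint b := by
    rw [hb]
    refine has.sub ?_
    rw [IsSelfAdjoint, star_mul, has.star_eq]
  have hbre : ∀ ζ, (⟪ζ, b ζ⟫_ℂ).re = (⟪ζ, a ζ⟫_ℂ).re - ‖a ζ‖ ^ 2 := by
    intro ζ
    rw [hb, sub_apply, inner_sub_right, Complex.sub_re, hasq]
  -- `a² ≤ a`
  have haf : a * f = a := by rw [hA.2.1 _ haA _ hf, hfa']
  have ha1 : ∀ ζ, ‖a ζ‖ ^ 2 ≤ (⟪ζ, a ζ⟫_ℂ).re := by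
    have hpos : 0 ≤ a := nonneg_of_inner has fun ζ => (hab ζ).1
    intro ζ
    -- Cauchy-Schwarz for the positive form of `a`
    have h1 : (0 : H →L[ℂ] H) ≤ a - a * a := by
      have h2 : a * a ≤ a := by
        have h3 : a ≤ 1 := by
          rw [← sub_nonneg]
          refine nonneg_of_inner ((IsSelfAdjoint.one _).sub has) fun ζ => ?_
          rw [sub_apply, inner_sub_right, Complex.sub_re, one_apply_eq_self, inner_self_re]
          have h4 := (hab ζ).2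
          have h5 : ‖f ζ‖ ^ 2 ≤ ‖ζ‖ ^ 2 := pow_le_pow_left₀ (norm_nonneg _) (proj_norm_le hfp ζ) 2
          linarith only [h4, h5]
        have h4 : 0 ≤ a * (1 - a) :=
          Commute.mul_nonneg hpos (sub_nonneg.2 h3) ((Commute.one_right a).sub_right (Commute.refl a))
        rw [mul_sub, mul_one] at h4
        exact sub_nonneg.1 h4
      exact sub_nonneg.2 h2
    have h2 := inner_nonneg_of_nonneg h1 ζ
    rw [← hb, hbre] at h2
    linarith only [h2]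
  have hbn : ∀ ζ, 0 ≤ (⟪ζ, b ζ⟫_ℂ).re := by
    intro ζ
    rw [hbre]
    linarith only [ha1 ζ]
  obtain ⟨g, t, ht, hgp, hg0, hgc, hgt⟩ := exists_spectral_below hbs hbn hb0
  have hbA : b ∈ A := by rw [hb]; exact sub_mem haA (mul_mem haA haA)
  have hgA : g ∈ A := hAs.spectral_proj_mem hbA fun y hy => hgc y hy
  have hfg : f * g = g := by
    have h1 : g * (1 - f) = 0 := by
      ext ζ
      have h2 := hgt ((1 - f) ζ)
      have h3 : b ((1 - f) ζ) = 0 := by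
        have h4 : b * (1 - f) = 0 := by
          rw [hb, mul_sub, mul_one, sub_mul, mul_assoc, haf, sub_self]
        exact DFunLike.congr_fun h4 ζ
      rw [h3, inner_zero_right, Complex.zero_re] at h2
      have h4 : ‖g ((1 - f) ζ)‖ ^ 2 ≤ 0 := by
        by_contra hcon
        push Not at hcon
        linarith only [mul_pos ht hcon, h2]
      have h5 : ‖g ((1 - f) ζ)‖ = 0 := by
        have := norm_nonneg (g ((1 - f) ζ))
        nlinarith only [h4, this]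
      exact norm_eq_zero.1 h5
    rw [mul_sub, mul_one, sub_eq_zero] at h1
    rw [hA.2.1 _ hf _ hgA]
    exact h1.symm
  have he0g : e0 * g = g := by rw [← hfg, ← mul_assoc, he0f]
  obtain ⟨u, huA, hus, hu0, hgu, hun, huc⟩ := T.exists_perturb hfa hA he0 hgA hgp he0g
    (hnab g hgA hgp hfg hg0)
  obtain ⟨w, hw⟩ : ∃ w, w = ((t / 2 : ℝ) : ℂ) • u := ⟨_, rfl⟩
  have hwA : w ∈ A := by rw [hw]; exact A.toStarSubalgebra.smul_mem huA _
  have hws : IsSelfAdjoint w := by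
    rw [hw, IsSelfAdjoint, star_smul, hus.star_eq, Complex.star_def, Complex.conj_ofReal]
  have hw0 : w ≠ 0 := by
    rw [hw]
    refine smul_ne_zero ?_ hu0
    exact_mod_cast (half_pos ht).ne'
  have hfw : f * w = w := by
    rw [hw, mul_smul_comm, ← hgu, ← mul_assoc, hfg]
  have hug : u * g = u := by rw [hA.2.1 _ huA _ hgA, hgu]
  have hwb : ∀ ζ, |(⟪ζ, w ζ⟫_ℂ).re| ≤ (⟪ζ, b ζ⟫_ℂ).re := by
    intro ζ
    refine le_trans ?_ (hgt ζ)
    have h1 : ⟪ζ, u ζ⟫_ℂ = ⟪g ζ, u (g ζ)⟫_ℂ := by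
      rw [proj_inner hgp]
      have e1 : g * (u * g) = u := by rw [hug, hgu]
      have e2 : g (u (g ζ)) = u ζ := DFunLike.congr_fun e1 ζ
      rw [e2]
    have h2 : ‖⟪ζ, u ζ⟫_ℂ‖ ≤ 2 * ‖g ζ‖ ^ 2 := by
      rw [h1]
      calc ‖⟪g ζ, u (g ζ)⟫_ℂ‖ ≤ ‖g ζ‖ * ‖u (g ζ)‖ := norm_inner_le_norm _ _
        _ ≤ ‖g ζ‖ * (2 * ‖g ζ‖) :=
            mul_le_mul_of_nonneg_left (u.le_of_opNorm_le hun _) (norm_nonneg _)
        _ = 2 * ‖g ζ‖ ^ 2 := by ring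
    rw [hw, smul_apply, inner_smul_right, Complex.re_ofReal_mul, abs_mul,
      abs_of_pos (half_pos ht)]
    have h3 := (Complex.abs_re_le_norm ⟪ζ, u ζ⟫_ℂ).trans h2
    calc t / 2 * |(⟪ζ, u ζ⟫_ℂ).re| ≤ t / 2 * (2 * ‖g ζ‖ ^ 2) :=
          mul_le_mul_of_nonneg_left h3 (half_pos ht).le
      _ = t * ‖g ζ‖ ^ 2 := by ring
  have hfre : ∀ ζ, 2 * (⟪ζ, a ζ⟫_ℂ).re - ‖a ζ‖ ^ 2 ≤ ‖f ζ‖ ^ 2 := by
    intro ζ
    have h1 : (⟪f ζ, a ζ⟫_ℂ).re = (⟪ζ, a ζ⟫_ℂ).re := by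
      rw [proj_inner hfp]
      have : f (a ζ) = a ζ := DFunLike.congr_fun hfa' ζ
      rw [this]
    have h2 := norm_sub_sq (𝕜 := ℂ) (f ζ) (a ζ)
    have h3 : RCLike.re ⟪f ζ, a ζ⟫_ℂ = (⟪f ζ, a ζ⟫_ℂ).re := rfl
    rw [h3, h1] at h2
    have h4 := sq_nonneg ‖f ζ - a ζ‖
    linarith only [h2, h4]
  have hmem : ∀ w' : H →L[ℂ] H, w' ∈ A → IsSelfAdjoint w' → f * w' = w' →
      (∀ ζ, |(⟪ζ, w' ζ⟫_ℂ).re| ≤ (⟪ζ, b ζ⟫_ℂ).re) →
      (∀ c ∈ M, (∀ y ∈ M, c * y = y * c) → T.tr (w' * c) = 0) →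
      ContinuousLinearMapWOT.ofCLM (a + w') ∈ halfSet M A T.tr f := by
    intro w' hw'A hw's hfw' hw'b hw'c
    have hre : ∀ ζ, 0 ≤ (⟪ζ, (a + w') ζ⟫_ℂ).re ∧ (⟪ζ, (a + w') ζ⟫_ℂ).re ≤ ‖f ζ‖ ^ 2 := by
      intro ζ
      have h1 := abs_le.1 (hw'b ζ)
      rw [hbre] at h1
      rw [add_apply, inner_add_right, Complex.add_re]
      have h2 := hfre ζ
      have h3 := sq_nonneg ‖a ζ‖
      constructor
      · linarith only [h1.1, h3]
      · linarith only [h1.2, h2]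
    have hsa : IsSelfAdjoint (a + w') := has.add hw's
    refine ⟨add_mem haA hw'A, hsa, ?_, ?_, hre, ?_⟩
    · change f * (a + w') = a + w'
      rw [mul_add, hfa', hfw']
    · change ‖a + w'‖ ≤ 1
      refine norm_le_of_rayleigh hsa zero_le_one fun ζ => ?_
      have h1 : RCLike.re ⟪(a + w') ζ, ζ⟫_ℂ = (⟪ζ, (a + w') ζ⟫_ℂ).re := by
        rw [← inner_conj_symm, RCLike.conj_re]
        rfl
      rw [h1, abs_of_nonneg (hre ζ).1, one_mul]
      exact (hre ζ).2.trans (pow_le_pow_left₀ (norm_nonneg _) (proj_norm_le hfp ζ) 2)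
    · intro c hcM hc
      change T.tr ((a + w') * c) = _
      rw [add_mul, map_add, hac c hcM hc, hw'c c hcM hc, add_zero]
  have hwc : ∀ c ∈ M, (∀ y ∈ M, c * y = y * c) → T.tr (w * c) = 0 := by
    intro c hcM hc
    rw [hw, smul_mul_assoc, map_smul, huc c hcM hc, smul_zero]
  have h1 := hmem w hwA hws hfw hwb hwc
  have h2 := hmem (-w) (neg_mem hwA) hws.neg (by rw [mul_neg, hfw]) (fun ζ => by
    rw [neg_apply, inner_neg_right, Complex.neg_re, abs_neg]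
    exact hwb ζ) (fun c hcM hc => by rw [neg_mul, map_neg, hwc c hcM hc, neg_zero])
  have h3 : v ∈ openSegment ℝ (ContinuousLinearMapWOT.ofCLM (a + w))
      (ContinuousLinearMapWOT.ofCLM (a + -w)) := by
    refine ⟨1 / 2, 1 / 2, by norm_num, by (clear * -; norm_num), by norm_num, ?_⟩
    apply ContinuousLinearMapWOT.ext
    intro ζ
    change (1 / 2 : ℝ) • (a ζ + w ζ) + (1 / 2 : ℝ) • (a ζ + (-w) ζ) = v.toCLM ζ
    rw [← ha, ← smul_add, neg_apply]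
    have : a ζ + w ζ + (a ζ + -w ζ) = (2 : ℝ) • a ζ := by
      rw [two_smul]; abel
    rw [this, smul_smul]
    norm_num
  have h4 := hvE h1 h2 h3
  have h5 : a + w = a := by
    rw [ha]
    have := congrArg ContinuousLinearMapWOT.toCLM h4
    rw [← ha]
    rw [← ha] at this
    exact this
  exact hw0 (by simpa using h5)

end Vale.Agent.P078
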