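import Vale.Agent.P078.H598.Rate10
import Vale.Agent.P078.Bdl.Fast

set_option linter.all false
attribute [local instance] Vale.Agent.P078.Fast.a01 Vale.Agent.P078.Fast.a02
  Vale.Agent.P078.Fast.a03 Vale.Agent.P078.Fast.a04 Vale.Agent.P078.Fast.a05
  Vale.Agent.P078.Fast.a06 Vale.Agent.P078.Fast.a07 Vale.Agent.P078.Fast.a08
  Vale.Agent.P078.Fast.a09 Vale.Agent.P078.Fast.a10 Vale.Agent.P078.Fast.a11
  Vale.Agent.P078.Fast.a12 Vale.Agent.P078.Fast.a13 Vale.Agent.P078.Fast.a14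
  Vale.Agent.P078.Fast.a15 Vale.Agent.P078.Fast.a16 Vale.Agent.P078.Fast.a17
  Vale.Agent.P078.Fast.a18 Vale.Agent.P078.Fast.a19 Vale.Agent.P078.Fast.a20
  Vale.Agent.P078.Fast.a21 Vale.Agent.P078.Fast.a22 Vale.Agent.P078.Fast.a23
  Vale.Agent.P078.Fast.a24 Vale.Agent.P078.Fast.a25 Vale.Agent.P078.Fast.a26
  Vale.Agent.P078.Fast.a27 Vale.Agent.P078.Fast.a28 Vale.Agent.P078.Fast.a29
  Vale.Agent.P078.Fast.a30 Vale.Agent.P078.Fast.a31 Vale.Agent.P078.Fast.a32
  Vale.Agent.P078.Fast.a33 Vale.Agent.P078.Fast.a34 Vale.Agent.P078.Fast.a35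
  Vale.Agent.P078.Fast.a36 Vale.Agent.P078.Fast.a37 Vale.Agent.P078.Fast.a38
  Vale.Agent.P078.Fast.a39 Vale.Agent.P078.Fast.a40 Vale.Agent.P078.Fast.a41
  Vale.Agent.P078.Fast.a42 Vale.Agent.P078.Fast.a43 Vale.Agent.P078.Fast.a44
  Vale.Agent.P078.Fast.a45 Vale.Agent.P078.Fast.a46 Vale.Agent.P078.Fast.a47
  Vale.Agent.P078.Fast.a48 Vale.Agent.P078.Fast.a49 Vale.Agent.P078.Fast.a50
  Vale.Agent.P078.Fast.a51 Vale.Agent.P078.Fast.a52 Vale.Agent.P078.Fast.a53
  Vale.Agent.P078.Fast.a54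

/-! Rates of growth of the so-paving number: the dichotomy for semifinite expected parts. -/

namespace Vale.Agent.P078

open Filter Topology Vale.Agent.P078.C Vale.Agent.P078.G
open scoped InnerProductSpace ENNReal
open Vale.Agent.P078.SO (wt SemiTrace)

universe u

variable {H : Type u} [NormedAddCommGroup H] [InnerProductSpace ℂ H] [CompleteSpace H]
variable {M A : VonNeumannAlgebra H} {e0 : H →L[ℂ] H} {ξ : ℕ → H}

/-- the central support of an element of `M` -/
theorem exists_central_support (M : VonNeumannAlgebra H) {b : H →L[ℂ] H} (hb : b ∈ M) :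
    ∃ P ∈ M, (∀ y ∈ M, P * y = y * P) ∧ P * b = b ∧
      ∀ a : H →L[ℂ] H, (∀ y ∈ M, a * y * b = 0) → a * P = 0 := by
  set P := (cspan M b).starProjection with hP
  have hinvM : ∀ z ∈ M, ∀ w ∈ cspan M b, z w ∈ cspan M b := by
    intro z hz
    refine cspan_invariant fun y hy v => ?_
    exact cspan_gen (mul_mem hz hy) v
  have hinvM' : ∀ z ∈ M.commutant, ∀ w ∈ cspan M b, z w ∈ cspan M b := by
    intro z hz
    refine cspan_invariant fun y hy v => ?_
    have h1 : z (y (b v)) = y (b (z v)) := by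
      have := commutant_comm (mul_mem hy hb) hz
      exact DFunLike.congr_fun this v
    rw [h1]
    exact cspan_gen hy _
  have hPM : P ∈ M := by
    refine mem_of_commute fun z hz => ?_
    exact commute_starProjection _ (hinvM' z hz) (hinvM' _ (star_mem hz))
  refine ⟨P, hPM, fun z hz =>
    (commute_starProjection _ (hinvM z hz) (hinvM _ (star_mem hz))).symm, ?_, ?_⟩
  · ext v
    exact Submodule.starProjection_eq_self_iff.mpr (cspan_gen (one_mem M) v)
  · intro a ha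
    have hker : cspan M b ≤ LinearMap.ker (a : H →ₗ[ℂ] H) := by
      refine cspan_le ?_ fun y hy v => ?_
      · exact ContinuousLinearMap.isClosed_ker a
      · rw [LinearMap.mem_ker]
        exact DFunLike.congr_fun (ha y hy) v
    ext w
    exact LinearMap.mem_ker.mp (hker (Submodule.starProjection_apply_mem _ w))

theorem CornerTrace.eq_zero_of_tr (T : CornerTrace M e0 ξ)
    (hfa : ∀ x ∈ M, (∀ n, x (ξ n) = 0) → x * e0 = 0) {b : H →L[ℂ] H} (hb : b ∈ M)
    (hbp : IsStarProjection b) (hbe : e0 * b = b) (h : T.tr b = 0) : b = 0 := by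
  have h3 := T.norm_X_proj_sq hbp
  rw [h, Complex.zero_re] at h3
  have h4 : T.X b = 0 := by
    rw [← norm_eq_zero]
    exact pow_eq_zero_iff (two_ne_zero) |>.1 h3
  have h5 : ∀ n, b (ξ n) = 0 := by
    intro n
    have h6 : (T.X b) n = b (ξ n) := rfl
    rw [← h6, h4]
    rfl
  have h6 := hfa _ hb h5
  have h7 : b * e0 = b := by
    have := congrArg star hbe
    rwa [star_mul, hbp.isSelfAdjoint.star_eq, T.proj.isSelfAdjoint.star_eq] at this
  rw [← h7, h6]

theorem sub_proj_of_le {g y : H →L[ℂ] H} (hg : IsStarProjection g) (hy : IsStarProjection y)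
    (h : g * y = y) : IsStarProjection (g - y) := by
  have h' : y * g = y := by
    have := congrArg star h
    rwa [star_mul, hg.isSelfAdjoint.star_eq, hy.isSelfAdjoint.star_eq] at this
  refine ⟨?_, hg.isSelfAdjoint.sub hy.isSelfAdjoint⟩
  change (g - y) * (g - y) = g - y
  rw [sub_mul, mul_sub, mul_sub, hg.isIdempotentElem.eq, h, h', hy.isIdempotentElem.eq, sub_self,
    sub_zero]

/-- projections with the same trace over the centre are equivalent -/
theorem CornerTrace.exists_unit_of_tr (T : CornerTrace M e0 ξ)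
    (hfa : ∀ x ∈ M, (∀ n, x (ξ n) = 0) → x * e0 = 0) {e g : H →L[ℂ] H} (heM : e ∈ M)
    (hgM : g ∈ M) (hep : IsStarProjection e) (hgp : IsStarProjection g) (he0e : e0 * e = e)
    (he0g : e0 * g = g)
    (h : ∀ c ∈ M, (∀ y ∈ M, c * y = y * c) → T.tr (e * c) = T.tr (g * c)) :
    ∃ v ∈ M, v * star v = e ∧ star v * v = g := by
  obtain ⟨v, hvM, hev, hvg, hvv, hv⟩ := exists_partial_isometry M hgM heM hgp hep
  have hsvM : star v ∈ M := star_mem hvM
  have hgv : g * star v = star v := by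
    have := congrArg star hvg
    rwa [star_mul, hgp.isSelfAdjoint.star_eq] at this
  have hve : star v * e = star v := by
    have := congrArg star hev
    rwa [star_mul, hep.isSelfAdjoint.star_eq] at this
  have he0v : e0 * v = v := by rw [← hev, ← mul_assoc, he0e]
  have he0sv : e0 * star v = star v := by rw [← hgv, ← mul_assoc, he0g]
  have hve0 : v * e0 = v := by
    have := congrArg star he0sv
    rwa [star_mul, star_star, T.proj.isSelfAdjoint.star_eq] at this
  have hsve0 : star v * e0 = star v := by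
    have := congrArg star he0v
    rwa [star_mul, T.proj.isSelfAdjoint.star_eq] at this
  have hp1 : IsStarProjection (v * star v) := by
    refine ⟨?_, IsSelfAdjoint.mul_star_self v⟩
    change v * star v * (v * star v) = v * star v
    rw [← mul_assoc, hvv]
  have hp2 : IsStarProjection (star v * v) := by
    refine ⟨?_, IsSelfAdjoint.star_mul_self v⟩
    change star v * v * (star v * v) = star v * v
    rw [mul_assoc, ← mul_assoc v, hvv]
  have htr : ∀ c ∈ M, (∀ y ∈ M, c * y = y * c) →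
      T.tr (v * star v * c) = T.tr (star v * v * c) := by
    intro c hcM hc
    have h1 := T.tr_comm (u := v) (p := star v * c) hvM (by rw [he0v, hve0])
      (mul_mem hsvM hcM) (by
        rw [← mul_assoc, he0sv, mul_assoc, hc e0 T.mem, ← mul_assoc, hsve0])
    rw [mul_assoc, h1, mul_assoc, hc v hvM, ← mul_assoc]
  obtain ⟨b, hb⟩ : ∃ b, b = g - star v * v := ⟨_, rfl⟩
  have hbM : b ∈ M := by rw [hb]; exact sub_mem hgM (mul_mem hsvM hvM)
  have hbp : IsStarProjection b := by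
    rw [hb]; exact sub_proj_of_le hgp hp2 (by rw [← mul_assoc, hgv])
  have hbe : e0 * b = b := by rw [hb, mul_sub, he0g, ← mul_assoc, he0sv]
  obtain ⟨P, hPM, hPc, hPb, hPa⟩ := exists_central_support M hbM
  have hbP : b * P = b := by rw [← hPc b hbM, hPb]
  have haP : (e - v * star v) * P = 0 := hPa _ fun y hy => by rw [hb]; exact hv y hy
  have hb0 : b = 0 := by
    refine T.eq_zero_of_tr hfa hbM hbp hbe ?_
    rw [← hbP, hb, sub_mul, map_sub, ← htr P hPM hPc, ← h P hPM hPc]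
    rw [sub_mul] at haP
    rw [sub_eq_zero.1 haP, sub_self]
  have hgv2 : star v * v = g := by
    rw [hb] at hb0
    exact (sub_eq_zero.1 hb0).symm
  refine ⟨v, hvM, ?_, hgv2⟩
  obtain ⟨d, hd⟩ : ∃ d, d = e - v * star v := ⟨_, rfl⟩
  have hd0 : d = 0 := by
    rw [hd]
    refine T.eq_zero_of_tr hfa (sub_mem heM (mul_mem hvM hsvM))
      (sub_proj_of_le hep hp1 (by rw [← mul_assoc, hev]))
      (by rw [mul_sub, he0e, ← mul_assoc, he0v]) ?_
    have h1 := htr 1 (one_mem M) fun y _ => by rw [one_mul, mul_one]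
    have h2 := h 1 (one_mem M) fun y _ => by rw [one_mul, mul_one]
    rw [mul_one, mul_one] at h1 h2
    rw [map_sub, h1, h2, hgv2, sub_self]
  rw [hd] at hd0
  exact (sub_eq_zero.1 hd0).symm

/-- iterated halving -/
theorem CornerTrace.exists_pieces (T : CornerTrace M e0 ξ)
    (hfa : ∀ x ∈ M, (∀ n, x (ξ n) = 0) → x * e0 = 0) (hA : SO.IsMASA A M) (he0 : e0 ∈ A)
    (m : ℕ) : ∀ f ∈ A, IsStarProjection f → e0 * f = f →
      (∀ g ∈ A, IsStarProjection g → f * g = g → g ≠ 0 → ¬ ∀ x ∈ M, g * x * g ∈ A) →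
      ∃ (ι : Type) (_ : Fintype ι) (e : ι → (H →L[ℂ] H)), Fintype.card ι = 2 ^ m ∧
        (∀ i, e i ∈ A ∧ IsStarProjection (e i) ∧ f * e i = e i) ∧
        (∀ i j, i ≠ j → e i * e j = 0) ∧ ∑ i, e i = f ∧
        ∀ i, ∀ c ∈ M, (∀ y ∈ M, c * y = y * c) →
          T.tr (e i * c) = (1 / 2) ^ m * T.tr (f * c) := by
  induction m with
  | zero =>
    intro f hf hfp _ _
    refine ⟨Unit, inferInstance, fun _ => f, by simp, fun _ => ⟨hf, hfp, hfp.isIdempotentElem.eq⟩,
      fun i j hij => absurd (Subsingleton.elim i j) hij, by simp, fun _ c _ _ => by simp⟩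
  | succ m ih =>
    intro f hf hfp he0f hnab
    obtain ⟨k, hkA, hkp, hfk, hkt⟩ := T.exists_half hfa hA he0 hf hfp he0f hnab
    have hff : f * f = f := hfp.isIdempotentElem.eq
    have hkk : k * k = k := hkp.isIdempotentElem.eq
    have hkf : k * f = k := by rw [hA.2.1 _ hkA _ hf, hfk]
    have hlp : IsStarProjection (f - k) := sub_proj_of_le hfp hkp hfk
    have hlA : f - k ∈ A := sub_mem hf hkA
    have hfl : f * (f - k) = f - k := by rw [mul_sub, hff, hfk]
    obtain ⟨ι₁, F₁, e₁, hc₁, he₁, ho₁, hs₁, ht₁⟩ := ih k hkA hkp (by rw [← hfk, ← mul_assoc, he0f])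
      fun g hg hgp hkg hg0 => hnab g hg hgp (by rw [← hkg, ← mul_assoc, hfk]) hg0
    obtain ⟨ι₂, F₂, e₂, hc₂, he₂, ho₂, hs₂, ht₂⟩ := ih (f - k) hlA hlp
      (by rw [mul_sub, he0f, ← hfk, ← mul_assoc, he0f])
      fun g hg hgp hkg hg0 => hnab g hg hgp (by rw [← hkg, ← mul_assoc, hfl]) hg0
    have h12 : ∀ i j, e₁ i * e₂ j = 0 := by
      intro i j
      have h1 : e₁ i * k = e₁ i := by rw [hA.2.1 _ (he₁ i).1 _ hkA, (he₁ i).2.2]
      rw [← h1, ← (he₂ j).2.2, mul_assoc, ← mul_assoc k, mul_sub, hkf, hkk, sub_self, zero_mul,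
        mul_zero]
    have h21 : ∀ i j, e₂ i * e₁ j = 0 := fun i j => by
      rw [hA.2.1 _ (he₂ i).1 _ (he₁ j).1, h12]
    refine ⟨ι₁ ⊕ ι₂, inferInstance, Sum.elim e₁ e₂, ?_, ?_, ?_, ?_, ?_⟩
    · rw [Fintype.card_sum, hc₁, hc₂]
      ring
    · rintro (i | i)
      · exact ⟨(he₁ i).1, (he₁ i).2.1, by
          change f * e₁ i = e₁ i
          rw [← (he₁ i).2.2, ← mul_assoc, hfk]⟩
      · exact ⟨(he₂ i).1, (he₂ i).2.1, by
          change f * e₂ i = e₂ i
          rw [← (he₂ i).2.2, ← mul_assoc, hfl]⟩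
    · rintro (i | i) (j | j) hij
      · exact ho₁ i j fun h => hij (by rw [h])
      · exact h12 i j
      · exact h21 i j
      · exact ho₂ i j fun h => hij (by rw [h])
    · rw [Fintype.sum_sum_type]
      change ∑ i, e₁ i + ∑ i, e₂ i = f
      rw [hs₁, hs₂]
      abel
    · rintro (i | i) c hcM hc
      · change T.tr (e₁ i * c) = _
        rw [ht₁ i c hcM hc, hkt c hcM hc]
        ring
      · change T.tr (e₂ i * c) = _
        rw [ht₂ i c hcM hc, sub_mul, map_sub, hkt c hcM hc]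
        ring

/-- frames below a projection without abelian subprojections -/
theorem exists_frames_diffuse (hA : SO.IsMASA A M) {z : H →L[ℂ] H}
    (hz : z ∈ A) (hzp : IsStarProjection z) {E : (H →L[ℂ] H) →ₗ[ℂ] (H →L[ℂ] H)}
    (hE : SO.IsNormalExpectation M A z E) {ι : Type*} {η : ι → H} (hη : SemiTrace M z η)
    {w : H →L[ℂ] H} (hw : w ∈ A) (hwp : IsStarProjection w) (hzw : z * w = w) (hw0 : w ≠ 0)
    (hnab : ∀ g ∈ A, IsStarProjection g → w * g = g → g ≠ 0 → ¬ ∀ x ∈ M, g * x * g ∈ A) (m : ℕ) :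
    ∃ (e0 g : H →L[ℂ] H) (ξ : ℕ → H) (T : CornerTrace M e0 ξ)
      (Fr : HFrame M A.toStarSubalgebra e0 g (Fin (2 ^ m))), e0 ∈ A ∧ ‖T.X 1‖ = 1 ∧
        ‖T.X g‖ ^ 2 ≤ 1 / (Fintype.card (Fin (2 ^ m)) : ℝ) ∧ 1 ≤ (T.tr Fr.G).re := by
  classical
  obtain ⟨ζ, hwζ, hζ⟩ := exists_unit_of_proj hwp hw0
  have hzζ : z ζ = ζ := by
    have := DFunLike.congr_fun hzw ζ
    change z (w ζ) = w ζ at this
    rwa [hwζ] at this
  obtain ⟨p, hpA, hpp, hzp', hpF, hfin⟩ := exists_finite_approx hA hz hzp hE hη {ζ}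
    (by simpa using hzζ) (show (0 : ℝ) < 1 / 2 by norm_num)
  have hpw : w * p = p * w := hA.2.1 _ hw _ hpA
  obtain ⟨k, hk⟩ : ∃ k, k = w * p := ⟨_, rfl⟩
  have hkp : IsStarProjection k := by rw [hk]; exact mul_proj_of_comm hwp hpp hpw
  have hkA : k ∈ A := by rw [hk]; exact mul_mem hw hpA
  have hwk : w * k = k := by rw [hk, ← mul_assoc, hwp.isIdempotentElem.eq]
  have hk0 : k ≠ 0 := by
    rw [hk, hpw]
    intro h0
    have h1 : p ζ = 0 := by
      have := DFunLike.congr_fun h0 ζ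
      change p (w ζ) = 0 at this
      rwa [hwζ] at this
    have h2 := hpF ζ (by simp)
    rw [h1, sub_zero, hζ] at h2
    linarith only [h2]
  have hkfin : wt η k ≠ ∞ := by
    refine ne_top_of_le_ne_top hfin (wt_mono η hkp ?_)
    rw [hk, mul_assoc, hpp.isIdempotentElem.eq]
  have hzk : z * k = k := by rw [← hwk, ← mul_assoc, hzw]
  have hkk : k * k = k := hkp.isIdempotentElem.eq
  obtain ⟨ξ, hξ⟩ := traceOn_of_wt hzp hη (hA.1 _ hkA) hkp hzk hkfin
  obtain ⟨η', T, hT, hfa⟩ := exists_cornerTrace (hA.1 _ hkA) hkp hk0 hξ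
  obtain ⟨ι', F, e', hcard, he', ho', hs', ht'⟩ := T.exists_pieces hfa hA hkA m k hkA hkp hkk
    fun g hg hgp hkg hg0 => hnab g hg hgp (by rw [← hkg, ← mul_assoc, hwk]) hg0
  let φ : Fin (2 ^ m) ≃ ι' := (Fintype.equivFinOfCardEq hcard).symm
  obtain ⟨e, he⟩ : ∃ e : Fin (2 ^ m) → (H →L[ℂ] H), e = fun i => e' (φ i) := ⟨_, rfl⟩
  have heA : ∀ i, e i ∈ A ∧ IsStarProjection (e i) ∧ k * e i = e i := fun i => by
    rw [he]; exact he' _
  have heo : ∀ i j, i ≠ j → e i * e j = 0 := fun i j hij => by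
    rw [he]; exact ho' _ _ fun h => hij (φ.injective h)
  have hes : ∑ i, e i = k := by
    rw [he, ← hs']
    exact Equiv.sum_comp φ e'
  have het : ∀ i, ∀ c ∈ M, (∀ y ∈ M, c * y = y * c) →
      T.tr (e i * c) = (1 / 2) ^ m * T.tr (k * c) := fun i => by
    rw [he]; exact ht' _
  have hpos : 0 < 2 ^ m := by positivity
  choose v hvM hv1 hv2 using fun l => T.exists_unit_of_tr hfa (hA.1 _ (heA l).1)
    (hA.1 _ (heA ⟨0, hpos⟩).1) (heA l).2.1 (heA ⟨0, hpos⟩).2.1 (heA l).2.2 (heA ⟨0, hpos⟩).2.2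
    fun c hcM hc => by rw [het l c hcM hc, het ⟨0, hpos⟩ c hcM hc]
  obtain ⟨Fr, hgF, hG⟩ := frame_of_units (A := A.toStarSubalgebra) T hT m
    (g := e ⟨0, hpos⟩) (e := e) (v := v) (fun l => ⟨(heA l).1, (heA l).2.1⟩) heo hes
    (hA.1 _ (heA _).1) (heA _).2.1 (heA _).2.2 fun l => ⟨hvM l, hv1 l, hv2 l⟩
  exact ⟨k, _, η', T, Fr, hkA, hT, hgF, hG⟩

/-- the quadratic lower bound over semifinite expected parts which are not finite sums of
abelian projections -/
theorem quadratic_general (hA : SO.IsMASA A M) {z : H →L[ℂ] H}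
    (hz : z ∈ A) (hzp : IsStarProjection z) {E : (H →L[ℂ] H) →ₗ[ℂ] (H →L[ℂ] H)}
    (hE : SO.IsNormalExpectation M A z E) {ι : Type*} {η : ι → H} (hη : SemiTrace M z η)
    (hinf : ∀ N, ¬ SumAbelian M A.toStarSubalgebra z N) {ε : ℝ} (hε : 0 < ε) :
    (⌈1 / ε ^ 2⌉₊ : ℕ∞) ≤ pavingNumber M A.toStarSubalgebra 1 ε := by
  have hA' := SO.IsMASA.toStar hA
  refine le_pavingNumber fun r hr hpave => ?_
  have h3 : 1 / (r : ℝ) ≤ ε ^ 2 := by
    refine quadratic_of_frames hA' hε.le (by omega)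
      (fun x hx hxs => hpave x hx hxs (by simp)) fun m => ?_
    by_cases hab : ∀ w ∈ A, IsStarProjection w → z * w = w → w ≠ 0 →
        ∃ g, AbProj M A g ∧ g ≠ 0 ∧ w * g = g
    · exact exists_frames_abelian hA hz hzp hE hη hinf hab m
    · push Not at hab
      obtain ⟨w, hw, hwp, hzw, hw0, hnab⟩ := hab
      exact exists_frames_diffuse hA hz hzp hE hη hw hwp hzw hw0
        (fun g hg hgp hwg hg0 hx => hnab g ⟨hg, hgp, hx⟩ hg0 hwg) m
  rw [Nat.cast_le, Nat.ceil_le]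
  have hr0 : (0 : ℝ) < r := by exact_mod_cast hr
  rw [div_le_iff₀ hr0] at h3
  rw [div_le_iff₀ (by positivity)]
  linarith only [h3]

end Vale.Agent.P078
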