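import Vale.Agent.P078.Semi0
import Mathlib.Analysis.InnerProductSpace.LinearMap

/-! Definitions for the growth of the so-paving number. -/

namespace Vale.Agent.P078.SO

variable {H : Type*} [NormedAddCommGroup H] [InnerProductSpace ℂ H] [CompleteSpace H]

/-- `z` is the sum of `N` mutually orthogonal projections `f` of `A` with `f M f ⊆ A`. -/
def IsSumOfAbelian (M A : VonNeumannAlgebra H) (z : H →L[ℂ] H) (N : ℕ) : Prop :=
  ∃ f : Fin N → (H →L[ℂ] H),
    (∀ i, f i ∈ A ∧ IsStarProjection (f i) ∧ ∀ x ∈ M, f i * x * f i ∈ A) ∧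
    (∀ i j, i ≠ j → f i * f j = 0) ∧ ∑ i, f i = z

/-- The projections of rank one in `A`. -/
def atoms (A : VonNeumannAlgebra H) : Set (H →L[ℂ] H) :=
  {e | e ∈ A ∧ ∃ v : H, ‖v‖ = 1 ∧ e = InnerProductSpace.rankOne ℂ v v}

end Vale.Agent.P078.SO
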