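import Vale.Agent.P078.H598.Rate11
import Vale.Agent.P078.H598.RateDefs
import Vale.Agent.P078.Bdl.Fast

set_option linter.all false
attribute [local instance] Vale.Agent.P078.Fast.a01 Vale.Agent.P078.Fast.a02
  Vale.Agent.P078.Fast.a03 Vale.Agent.P078.Fast.a04 Vale.Agent.P078.Fast.a05
  Vale.Agent.P078.Fast.a06 Vale.Agent.P078.Fast.a07 Vale.Agent.P078.Fast.a08
  Vale.Agent.P078.Fast.a09 Vale.Agent.P078.Fast.a10 Vale.Agent.P078.Fast.a11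
  Vale.Agent.P078.Fast.a12 Vale.Agent.P078.Fast.a13 Vale.Agent.P078.Fast.a14
  Vale.Agent.P078.Fast.a15 Vale.Agent.P078.Fast.a16 Vale.Agent.P078.Fast.a17
  Vale.Agent.P078.Fast.a18 Vale.Agent.P078.Fast.a19 Vale.Agent.P078.Fast.a20
  Vale.Agent.P078.Fast.a21 Vale.Agent.P078.Fast.a22 Vale.Agent.P078.Fast.a23
  Vale.Agent.P078.Fast.a24 Vale.Agent.P078.Fast.a25 Vale.Agent.P078.Fast.a26
  Vale.Agent.P078.Fast.a27 Vale.Agent.P078.Fast.a28 Vale.Agent.P078.Fast.a29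
  Vale.Agent.P078.Fast.a30 Vale.Agent.P078.Fast.a31 Vale.Agent.P078.Fast.a32
  Vale.Agent.P078.Fast.a33 Vale.Agent.P078.Fast.a34 Vale.Agent.P078.Fast.a35
  Vale.Agent.P078.Fast.a36 Vale.Agent.P078.Fast.a37 Vale.Agent.P078.Fast.a38
  Vale.Agent.P078.Fast.a39 Vale.Agent.P078.Fast.a40 Vale.Agent.P078.Fast.a41
  Vale.Agent.P078.Fast.a42 Vale.Agent.P078.Fast.a43 Vale.Agent.P078.Fast.a44
  Vale.Agent.P078.Fast.a45 Vale.Agent.P078.Fast.a46 Vale.Agent.P078.Fast.a47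
  Vale.Agent.P078.Fast.a48 Vale.Agent.P078.Fast.a49 Vale.Agent.P078.Fast.a50
  Vale.Agent.P078.Fast.a51 Vale.Agent.P078.Fast.a52 Vale.Agent.P078.Fast.a53
  Vale.Agent.P078.Fast.a54

/-! Rates of growth of the so-paving number: final statements. -/

namespace Vale.Agent.P078.WG

open Vale.Agent.P078

universe u

variable {H : Type u} [NormedAddCommGroup H] [InnerProductSpace ℂ H] [CompleteSpace H]
variable {M A : VonNeumannAlgebra H}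

theorem joint_le_of_one (hA : SO.IsMASA A M) {N : ℕ} (hN : 1 ≤ N)
    (h : SumAbelian M A.toStarSubalgebra 1 N) {ε : ℝ} (hε : 0 < ε) (k : ℕ) :
    SO.jointPavingNumber M A k ε ≤ (N : ℕ∞) :=
  iInf₂_le (f := fun (r : ℕ) (_ : r ∈ {r : ℕ | 1 ≤ r ∧ ∀ x : Fin k → (H →L[ℂ] H),
    (∀ j, x j ∈ M ∧ IsSelfAdjoint (x j)) → SO.JointlySOPavable M A x ε r}) => (r : ℕ∞)) _
    ⟨hN, fun x hx => joint_of_jPav (SumAbelian.jPav (one_mem A) (IsStarProjection.one _) h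
      (fun a ha => hA.1 a ha) (fun j => (hx j).1) (fun j => (hx j).2) hε.le)⟩

/-- growth of the so-paving number, for all maximal abelian subalgebras -/
theorem growth_all (hA : SO.IsMASA A M) :
    ∃ z, SO.IsLargestExpected M A z ∧
      (∀ N : ℕ, 1 ≤ N → z = 1 → SO.IsSumOfAbelian M A z N →
        ∀ ε : ℝ, 0 < ε → SO.pavingNumber M A 1 ε ≤ N) ∧
      (z ≠ 1 → ∀ ε : ℝ, 0 < ε → ⌈1 / ε⌉₊ ≤ SO.pavingNumber M A 1 ε) ∧
      (∀ N : ℕ, SO.IsSumOfAbelian M A z N →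
        ∀ ε : ℝ, 0 < ε → SO.pavingNumber M A 1 ε ≤ (N + (⌊1 / ε⌋₊ + 1) : ℕ)) ∧
      (SO.IsSemifinite M 1 ∨ SO.IsSemifinite M z → (∀ N : ℕ, ¬ SO.IsSumOfAbelian M A z N) →
        ∀ ε : ℝ, 0 < ε → ⌈1 / ε ^ 2⌉₊ ≤ SO.pavingNumber M A 1 ε) := by
  have hA' := SO.IsMASA.toStar hA
  obtain ⟨z, hzA, hzp, ⟨E, hE⟩, h0, hmax⟩ := exists_largest hA'
  have hwA : 1 - z ∈ A := sub_mem (one_mem A) hzA
  have hS := smallProp_of_null hA' hwA hzp.one_sub h0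
  refine ⟨z, ⟨⟨hzA, hzp, ⟨E, SO.isNormalExpectation_iff.2 hE⟩⟩, ?_⟩, ?_, ?_, ?_, ?_⟩
  · rintro p hpA hp ⟨E', hE'⟩
    exact (IsStarProjection.le_iff_mul_eq_right hp hzp).2
      (hmax p hpA hp ⟨E', SO.isNormalExpectation_iff.1 hE'⟩)
  · intro N hN hz1 h ε hε
    rw [hz1] at h
    exact (le_jointPavingNumber le_rfl).trans (joint_le_of_one hA hN h hε 1)
  · intro hz1 ε hε
    exact hS.le_paving hA' hzp.one_sub (sub_ne_zero.2 (Ne.symm hz1)) hε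
  · intro N h ε hε
    exact (le_jointPavingNumber le_rfl).trans (joint_le_of_small hA hzA hzp hS h hε 1)
  · intro hsf hinf ε hε
    obtain ⟨ι, η, hη⟩ : SO.IsSemifinite M z := hsf.elim
      (fun h => Vale.Agent.P078.G.isSemifinite_corner h hzp) id
    exact quadratic_general hA hzA hzp (SO.isNormalExpectation_iff.2 hE) hη hinf hε

/-- growth of the so-paving number for `B(H)` -/
theorem growth_BH (hM : ∀ x, x ∈ M) (hA : SO.IsMASA A M) (hH : ¬ FiniteDimensional ℂ H) :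
    (∀ N : ℕ, (SO.atoms A).encard = N → ∀ ε : ℝ, 0 < ε →
      ⌈1 / ε⌉₊ ≤ SO.pavingNumber M A 1 ε ∧
      SO.pavingNumber M A 1 ε ≤ (N + (⌊1 / ε⌋₊ + 1) : ℕ)) ∧
    ((SO.atoms A).Infinite → ∀ ε : ℝ, 0 < ε → ⌈1 / ε ^ 2⌉₊ ≤ SO.pavingNumber M A 1 ε) := by
  have hA' := SO.IsMASA.toStar hA
  refine ⟨fun N hN ε hε => ?_, fun hinf ε hε => quadratic_of_infinite hM hA' hinf hε⟩
  obtain ⟨z, hzA, hzp, hab, hS, hz1⟩ := exists_split hM hA' hN
  exact ⟨hS.le_paving hA' hzp.one_sub (hz1 hH) hε,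
    (le_jointPavingNumber le_rfl).trans (joint_le_of_small hA hzA hzp hS hab hε 1)⟩

end Vale.Agent.P078.WG
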