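import Vale.Agent.P078.H598.Rate12
import Vale.Agent.P078.Bdl.Fast

set_option linter.all false
attribute [local instance] Vale.Agent.P078.Fast.a01 Vale.Agent.P078.Fast.a02
  Vale.Agent.P078.Fast.a03 Vale.Agent.P078.Fast.a04 Vale.Agent.P078.Fast.a05
  Vale.Agent.P078.Fast.a06 Vale.Agent.P078.Fast.a07 Vale.Agent.P078.Fast.a08
  Vale.Agent.P078.Fast.a09 Vale.Agent.P078.Fast.a10 Vale.Agent.P078.Fast.a11
  Vale.Agent.P078.Fast.a12 Vale.Agent.P078.Fast.a13 Vale.Agent.P078.Fast.a14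
  Vale.Agent.P078.Fast.a15 Vale.Agent.P078.Fast.a16 Vale.Agent.P078.Fast.a17
  Vale.Agent.P078.Fast.a18 Vale.Agent.P078.Fast.a19 Vale.Agent.P078.Fast.a20
  Vale.Agent.P078.Fast.a21 Vale.Agent.P078.Fast.a22 Vale.Agent.P078.Fast.a23
  Vale.Agent.P078.Fast.a24 Vale.Agent.P078.Fast.a25 Vale.Agent.P078.Fast.a26
  Vale.Agent.P078.Fast.a27 Vale.Agent.P078.Fast.a28 Vale.Agent.P078.Fast.a29
  Vale.Agent.P078.Fast.a30 Vale.Agent.P078.Fast.a31 Vale.Agent.P078.Fast.a32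
  Vale.Agent.P078.Fast.a33 Vale.Agent.P078.Fast.a34 Vale.Agent.P078.Fast.a35
  Vale.Agent.P078.Fast.a36 Vale.Agent.P078.Fast.a37 Vale.Agent.P078.Fast.a38
  Vale.Agent.P078.Fast.a39 Vale.Agent.P078.Fast.a40 Vale.Agent.P078.Fast.a41
  Vale.Agent.P078.Fast.a42 Vale.Agent.P078.Fast.a43 Vale.Agent.P078.Fast.a44
  Vale.Agent.P078.Fast.a45 Vale.Agent.P078.Fast.a46 Vale.Agent.P078.Fast.a47
  Vale.Agent.P078.Fast.a48 Vale.Agent.P078.Fast.a49 Vale.Agent.P078.Fast.a50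
  Vale.Agent.P078.Fast.a51 Vale.Agent.P078.Fast.a52 Vale.Agent.P078.Fast.a53
  Vale.Agent.P078.Fast.a54

/-! Rates of growth of the so-paving number: the lower bound `1/ε` for all von Neumann algebras,
unless `1` is a finite sum of abelian projections of `A`. -/

namespace Vale.Agent.P078

open Filter Topology Vale.Agent.P078.C Vale.Agent.P078.G
open scoped InnerProductSpace

universe u

variable {H : Type u} [NormedAddCommGroup H] [InnerProductSpace ℂ H] [CompleteSpace H]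

section frames

variable {M : VonNeumannAlgebra H} {A : StarSubalgebra ℂ (H →L[ℂ] H)}

theorem inner_compress {S q : H →L[ℂ] H} (hq : IsStarProjection q) {ε δ : ℝ}
    (hS2 : ‖S‖ ≤ 2) (hqS : ‖q * S * q‖ ≤ ε) {u ζ : H} (hu : ‖u‖ ≤ 1) (hζ : ‖ζ‖ ≤ 1)
    (huq : ‖u - q u‖ ≤ δ) (hζq : ‖ζ - q ζ‖ ≤ δ) : ‖⟪u, S ζ⟫_ℂ‖ ≤ ε + 4 * δ := by
  have hδ : 0 ≤ δ := (norm_nonneg _).trans hζq
  have hε : 0 ≤ ε := (norm_nonneg _).trans hqS
  have h1 : ⟪u, S ζ⟫_ℂ = ⟪q u, S (q ζ)⟫_ℂ + ⟪u - q u, S (q ζ)⟫_ℂ + ⟪u, S (ζ - q ζ)⟫_ℂ := by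
    rw [map_sub, inner_sub_left, inner_sub_right]; ring
  have hqζ : ‖q ζ‖ ≤ 1 := (proj_norm_le hq ζ).trans hζ
  have h2 : ‖⟪q u, S (q ζ)⟫_ℂ‖ ≤ ε := by
    have e1 : ⟪q u, S (q ζ)⟫_ℂ = ⟪u, (q * S * q) ζ⟫_ℂ := by
      rw [proj_inner hq]
      rfl
    rw [e1]
    calc ‖⟪u, (q * S * q) ζ⟫_ℂ‖ ≤ ‖u‖ * ‖(q * S * q) ζ‖ := norm_inner_le_norm _ _
      _ ≤ 1 * (ε * 1) := by
          refine mul_le_mul hu ?_ (norm_nonneg _) zero_le_one
          exact ((q * S * q).le_of_opNorm_le hqS ζ).trans (mul_le_mul_of_nonneg_left hζ hε)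
      _ = ε := by ring
  have h3 : ‖⟪u - q u, S (q ζ)⟫_ℂ‖ ≤ 2 * δ := by
    calc ‖⟪u - q u, S (q ζ)⟫_ℂ‖ ≤ ‖u - q u‖ * ‖S (q ζ)‖ := norm_inner_le_norm _ _
      _ ≤ δ * (2 * 1) := by
          refine mul_le_mul huq ?_ (norm_nonneg _) hδ
          exact (S.le_of_opNorm_le hS2 (q ζ)).trans (mul_le_mul_of_nonneg_left hqζ zero_le_two)
      _ = 2 * δ := by ring
  have h4 : ‖⟪u, S (ζ - q ζ)⟫_ℂ‖ ≤ 2 * δ := by
    calc ‖⟪u, S (ζ - q ζ)⟫_ℂ‖ ≤ ‖u‖ * ‖S (ζ - q ζ)‖ := norm_inner_le_norm _ _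
      _ ≤ 1 * (2 * δ) := by
          refine mul_le_mul hu ?_ (norm_nonneg _) zero_le_one
          exact (S.le_of_opNorm_le hS2 _).trans (mul_le_mul_of_nonneg_left hζq zero_le_two)
      _ = 2 * δ := by ring
  rw [h1]
  calc _ ≤ ‖⟪q u, S (q ζ)⟫_ℂ‖ + ‖⟪u - q u, S (q ζ)⟫_ℂ‖ + ‖⟪u, S (ζ - q ζ)⟫_ℂ‖ := norm_add₃_le
    _ ≤ _ := by linarith only [h2, h3, h4]

/-- one inequality for each frame, without a trace -/
theorem linear_bound (hA : IsMASA A M) {ε : ℝ} (hε : 0 ≤ ε) {r : ℕ} (hr : 0 < r)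
    (hpave : ∀ x ∈ M, IsSelfAdjoint x → SOPavable M A 1 x ε r) {m : ℕ} {g : H →L[ℂ] H}
    (Fr : HFrame M A 1 g (Fin (2 ^ m))) (hg0 : g ≠ 0)
    (hvv : ∀ l, star (Fr.v l) * Fr.v l = g) :
    1 / (r : ℝ) ≤ ε + 1 / Real.sqrt (2 ^ m) := by
  classical
  have hc := hA.2.1
  set N : ℝ := (2 : ℝ) ^ m with hN
  have hNpos : 0 < N := by positivity
  have hcard : (Fintype.card (Fin (2 ^ m)) : ℝ) = N := by
    rw [Fintype.card_fin]; push_cast; rfl
  obtain ⟨ζ, hgζ, hζ⟩ := exists_unit_of_proj Fr.gP hg0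
  obtain ⟨v, hv⟩ : ∃ v, v = Fr.v := ⟨_, rfl⟩
  obtain ⟨h, hh⟩ : ∃ h, h = Fr.h := ⟨_, rfl⟩
  have hvv' : ∀ l, star (v l) * v l = g := fun l => by rw [hv]; exact hvv l
  have hev : ∀ l, Fr.e l * v l = v l := fun l => by rw [hv]; exact Fr.ev l
  have hsv : ∀ l, star (v l) * Fr.e l = star (v l) := fun l => by rw [hv]; exact Fr.sve l
  have hvo : ∀ p ∈ A, ∀ k l, k ≠ l → star (v k) * p * v l = 0 := by
    intro p hp k l hkl
    have h1 : Fr.e k * p = p * Fr.e k := hc _ (Fr.eA k) _ hp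
    calc star (v k) * p * v l = star (v k) * Fr.e k * p * (Fr.e l * v l) := by rw [hsv, hev]
      _ = star (v k) * (Fr.e k * p) * (Fr.e l * v l) := by simp only [mul_assoc]
      _ = star (v k) * p * (Fr.e k * Fr.e l) * v l := by rw [h1]; simp only [mul_assoc]
      _ = 0 := by rw [Fr.eo k l hkl, mul_zero, zero_mul]
  have hx : ∀ p ∈ A, ∀ l, Fr.x (p (v l ζ)) =
      ∑ k, ((h k l : ℝ) : ℂ) • v k ((star (v l) * p * v l) ζ) := by
    intro p hp l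
    have e1 : Fr.x = ∑ i, ∑ j, ((h i j : ℝ) : ℂ) • (v i * star (v j)) := by rw [hv, hh]; rfl
    rw [e1, _root_.sum_apply]
    refine Finset.sum_congr rfl fun k _ => ?_
    rw [_root_.sum_apply, Finset.sum_eq_single l]
    · rfl
    · intro j _ hj
      change ((h k j : ℝ) : ℂ) • v k ((star (v j) * p * v l) ζ) = 0
      rw [hvo p hp j l hj, zero_apply, map_zero, smul_zero]
    · intro hi
      exact absurd (Finset.mem_univ l) hi
  have hvinner : ∀ (y y' : H) (k l : Fin (2 ^ m)), k ≠ l → ⟪v k y, v l y'⟫_ℂ = 0 := by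
    intro y y' k l hkl
    have h1 : ⟪v k y, v l y'⟫_ℂ = ⟪y, (star (v k) * 1 * v l) y'⟫_ℂ := by
      have := star_apply_inner (star (v k)) y (v l y')
      rw [star_star] at this
      rw [this, mul_one]
      rfl
    rw [h1, hvo 1 (one_mem A) k l hkl, zero_apply, inner_zero_right]
  have hvn : ∀ l, ‖v l ζ‖ = 1 := by
    intro l
    have h1 : ⟪v l ζ, v l ζ⟫_ℂ = ⟪ζ, g ζ⟫_ℂ := by
      have := star_apply_inner (star (v l)) ζ (v l ζ)
      rw [star_star] at this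
      rw [this, ← hvv' l]
      rfl
    rw [hgζ, inner_self_eq_norm_sq_to_K, inner_self_eq_norm_sq_to_K, hζ] at h1
    have h2 : ‖v l ζ‖ ^ 2 = 1 := by
      have h3 : ((‖v l ζ‖ ^ 2 : ℝ) : ℂ) = ((1 : ℝ) : ℂ) := by
        push_cast
        simpa using h1
      exact_mod_cast h3
    have h3 := norm_nonneg (v l ζ)
    nlinarith only [h2, h3]
  have hxl : ∀ l, Fr.x (v l ζ) = ∑ k, ((h k l : ℝ) : ℂ) • v k ζ := by
    intro l
    have h1 := hx 1 (one_mem A) l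
    rw [one_apply_eq_self] at h1
    rw [h1]
    refine Finset.sum_congr rfl fun k _ => ?_
    rw [mul_one, hvv', hgζ]
  have hxn : ∀ l, ‖Fr.x (v l ζ)‖ ≤ 1 := by
    intro l
    refine (Fr.x.le_of_opNorm_le Fr.x_norm _).trans ?_
    rw [hvn, one_mul]
  -- the paving
  refine le_of_forall_pos_le_add fun δ' hδ' => ?_
  obtain ⟨δ, hδ⟩ : ∃ δ : ℝ, δ = δ' / 4 := ⟨_, rfl⟩
  have hδ0 : 0 < δ := by rw [hδ]; positivity
  obtain ⟨p, a, q, hp, hpo, hps, haA, -, has, han, hqM, -, hqp, hqF, hqS⟩ :=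
    hpave Fr.x Fr.x_mem Fr.x_sa
      ((Finset.univ.image fun l => v l ζ) ∪ (Finset.univ.image fun l => Fr.x (v l ζ)))
      (fun ζ _ => rfl) δ hδ0
  have ha1 : ‖a‖ ≤ 1 := han.trans Fr.x_norm
  obtain ⟨S, hS⟩ : ∃ S, S = ∑ i, p i * Fr.x * p i - a := ⟨_, rfl⟩
  rw [← hS] at hqS
  have hSn : ‖S‖ ≤ 2 := by
    rw [hS]
    calc _ ≤ ‖∑ i, p i * Fr.x * p i‖ + ‖a‖ := norm_sub_le _ _
      _ ≤ ‖Fr.x‖ + 1 := add_le_add (norm_pinch_le hp hpo hps _) ha1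
      _ ≤ 2 := by linarith only [Fr.x_norm]
  have h3 : ‖q * S * q‖ ≤ ε := by
    calc ‖q * S * q‖ ≤ ε * ‖Fr.x‖ := hqS
      _ ≤ ε * 1 := mul_le_mul_of_nonneg_left Fr.x_norm hε
      _ = ε := mul_one _
  have hup : ∀ l, ‖⟪Fr.x (v l ζ), S (v l ζ)⟫_ℂ‖ ≤ ε + 4 * δ := by
    intro l
    refine inner_compress hqp hSn h3 (hxn l) (hvn l).le (hqF _ ?_).le (hqF _ ?_).le
    · exact Finset.mem_union_right _ (Finset.mem_image_of_mem _ (Finset.mem_univ l))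
    · exact Finset.mem_union_left _ (Finset.mem_image_of_mem _ (Finset.mem_univ l))
  -- the main term
  obtain ⟨y, hy⟩ : ∃ y : Fin r → Fin (2 ^ m) → H,
    y = fun i l => (star (v l) * p i * v l) ζ := ⟨_, rfl⟩
  have hmain : ∀ l, ⟪Fr.x (v l ζ), (∑ i, p i * Fr.x * p i : H →L[ℂ] H) (v l ζ)⟫_ℂ =
      ∑ i, ∑ k, ((1 / N : ℝ) : ℂ) * ⟪y i k, y i l⟫_ℂ := by
    intro l
    rw [_root_.sum_apply, inner_sum]
    refine Finset.sum_congr rfl fun i _ => ?_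
    change ⟪Fr.x (v l ζ), p i (Fr.x (p i (v l ζ)))⟫_ℂ = _
    rw [← proj_inner (hp i).2, hx (p i) (hp i).1, hxl, map_sum, sum_inner]
    refine Finset.sum_congr rfl fun k _ => ?_
    rw [map_smul, inner_smul_left, inner_sum, Finset.sum_eq_single k]
    · rw [inner_smul_right, Complex.conj_ofReal, ← mul_assoc, ← Complex.ofReal_mul, ← sq]
      have h4 : h k l ^ 2 = 1 / N := by rw [hh, Fr.h2, hcard]
      rw [h4]
      congr 1
      have h5 : ⟪p i (v k ζ), v k ((star (v l) * p i * v l) ζ)⟫_ℂ =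
          ⟪(star (v k) * p i * v k) ζ, (star (v l) * p i * v l) ζ⟫_ℂ :=
        (star_apply_inner (v k) _ _).symm
      rw [h5, hy]
    · intro j _ hj
      rw [inner_smul_right]
      have h5 : ⟪p i (v k ζ), v j ((star (v l) * p i * v l) ζ)⟫_ℂ = 0 := by
        have h6 : ⟪p i (v k ζ), v j ((star (v l) * p i * v l) ζ)⟫_ℂ =
            ⟪ζ, (star (v k) * p i * v j) ((star (v l) * p i * v l) ζ)⟫_ℂ := by
          rw [proj_inner (hp i).2]
          have := star_apply_inner (star (v k)) ζ (p i (v j ((star (v l) * p i * v l) ζ)))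
          rw [star_star] at this
          exact this
        rw [h6, hvo (p i) (hp i).1 k j (Ne.symm hj), zero_apply, inner_zero_right]
      rw [h5, mul_zero]
    · intro hi
      exact absurd (Finset.mem_univ k) hi
  have hterm : ∑ l, ⟪Fr.x (v l ζ), (∑ i, p i * Fr.x * p i : H →L[ℂ] H) (v l ζ)⟫_ℂ =
      ((1 / N * ∑ i, ‖∑ l, y i l‖ ^ 2 : ℝ) : ℂ) := by
    simp_rw [hmain]
    rw [Finset.sum_comm]
    push_cast
    rw [Finset.mul_sum]
    refine Finset.sum_congr rfl fun i _ => ?_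
    have h4 : ((‖∑ l, y i l‖ ^ 2 : ℝ) : ℂ) = ∑ l, ∑ k, ⟪y i k, y i l⟫_ℂ := by
      have h5 : ⟪∑ l, y i l, ∑ l, y i l⟫_ℂ = ((‖∑ l, y i l‖ ^ 2 : ℝ) : ℂ) := by
        rw [inner_self_eq_norm_sq_to_K]; norm_cast
      rw [← h5, inner_sum]
      exact Finset.sum_congr rfl fun l _ => sum_inner _ _ _
    push_cast at h4
    rw [h4, Finset.mul_sum]
    refine Finset.sum_congr rfl fun l _ => ?_
    rw [Finset.mul_sum]
  have hysum : ∑ i, ∑ l, y i l = (N : ℂ) • ζ := by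
    rw [Finset.sum_comm]
    have h4 : ∀ l, ∑ i, y i l = ζ := by
      intro l
      rw [hy]
      simp only
      rw [← _root_.sum_apply, ← Finset.sum_mul, ← Finset.mul_sum, hps, mul_one, hvv', hgζ]
    simp_rw [h4]
    rw [Finset.sum_const, Finset.card_univ, Fintype.card_fin, ← Nat.cast_smul_eq_nsmul ℂ]
    congr 1
    rw [hN]
    push_cast
    rfl
  have hr0 : (0 : ℝ) < r := by exact_mod_cast hr
  have hCS : N ^ 2 / r ≤ ∑ i, ‖∑ l, y i l‖ ^ 2 := by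
    rw [div_le_iff₀ hr0]
    have h4 : ‖∑ i, ∑ l, y i l‖ = N := by
      rw [hysum, norm_smul, hζ, mul_one, Complex.norm_real, Real.norm_of_nonneg hNpos.le]
    calc N ^ 2 = ‖∑ i, ∑ l, y i l‖ ^ 2 := by rw [h4]
      _ ≤ (∑ i, ‖∑ l, y i l‖) ^ 2 := pow_le_pow_left₀ (norm_nonneg _) (norm_sum_le _ _) 2
      _ ≤ (Finset.univ : Finset (Fin r)).card * ∑ i, ‖∑ l, y i l‖ ^ 2 :=
          sq_sum_le_card_mul_sum_sq
      _ = _ := by rw [Finset.card_univ, Fintype.card_fin, mul_comm]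
  have haterm : ∀ l, ‖⟪Fr.x (v l ζ), a (v l ζ)⟫_ℂ‖ ≤ 1 / Real.sqrt N := by
    intro l
    rw [hxl, sum_inner, Finset.sum_eq_single l]
    · rw [inner_smul_left, norm_mul, Complex.conj_ofReal, Complex.norm_real, Real.norm_eq_abs]
      have h4 : |h l l| = 1 / Real.sqrt N := by
        have h5 : h l l ^ 2 = 1 / N := by rw [hh, Fr.h2, hcard]
        rw [← Real.sqrt_sq_eq_abs, h5, Real.sqrt_div zero_le_one, Real.sqrt_one]
      rw [h4]
      have h5 : ‖⟪v l ζ, a (v l ζ)⟫_ℂ‖ ≤ 1 := by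
        calc ‖⟪v l ζ, a (v l ζ)⟫_ℂ‖ ≤ ‖v l ζ‖ * ‖a (v l ζ)‖ := norm_inner_le_norm _ _
          _ ≤ 1 * (1 * 1) := by
              refine mul_le_mul (hvn l).le ?_ (norm_nonneg _) zero_le_one
              refine (a.le_of_opNorm_le ha1 _).trans ?_
              rw [hvn]
          _ = 1 := by norm_num
      calc 1 / Real.sqrt N * ‖⟪v l ζ, a (v l ζ)⟫_ℂ‖ ≤ 1 / Real.sqrt N * 1 :=
            mul_le_mul_of_nonneg_left h5 (by positivity)
        _ = _ := mul_one _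
    · intro k _ hk
      rw [inner_smul_left]
      have h5 : ⟪v k ζ, a (v l ζ)⟫_ℂ = 0 := by
        have h6 : ⟪v k ζ, a (v l ζ)⟫_ℂ = ⟪ζ, (star (v k) * a * v l) ζ⟫_ℂ := by
          have := star_apply_inner (star (v k)) ζ (a (v l ζ))
          rw [star_star] at this
          exact this
        rw [h6, hvo a haA k l hk, zero_apply, inner_zero_right]
      rw [h5, mul_zero]
    · intro hi
      exact absurd (Finset.mem_univ l) hi
  -- conclusion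
  have hcount : ∑ _l : Fin (2 ^ m), (ε + 4 * δ + 1 / Real.sqrt N) =
      N * (ε + 4 * δ + 1 / Real.sqrt N) := by
    rw [Finset.sum_const, Finset.card_univ, nsmul_eq_mul, hcard]
  have hfinal : N / r ≤ N * (ε + 4 * δ + 1 / Real.sqrt N) := by
    calc N / r = 1 / N * (N ^ 2 / r) := by field_simp
      _ ≤ 1 / N * ∑ i, ‖∑ l, y i l‖ ^ 2 := mul_le_mul_of_nonneg_left hCS (by positivity)
      _ ≤ ‖((1 / N * ∑ i, ‖∑ l, y i l‖ ^ 2 : ℝ) : ℂ)‖ := by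
          rw [Complex.norm_real]; exact Real.le_norm_self _
      _ = ‖∑ l, ⟪Fr.x (v l ζ), (∑ i, p i * Fr.x * p i : H →L[ℂ] H) (v l ζ)⟫_ℂ‖ := by rw [hterm]
      _ ≤ ∑ l, ‖⟪Fr.x (v l ζ), (∑ i, p i * Fr.x * p i : H →L[ℂ] H) (v l ζ)⟫_ℂ‖ :=
          norm_sum_le _ _
      _ ≤ ∑ _l : Fin (2 ^ m), (ε + 4 * δ + 1 / Real.sqrt N) := by
          refine Finset.sum_le_sum fun l _ => ?_
          have h4 : (∑ i, p i * Fr.x * p i : H →L[ℂ] H) (v l ζ) = S (v l ζ) + a (v l ζ) := by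
            rw [hS, _root_.sub_apply]
            abel
          rw [h4, inner_add_right]
          exact (norm_add_le _ _).trans (add_le_add (hup l) (haterm l))
      _ = _ := hcount
  have h6 : 1 / (r : ℝ) ≤ ε + 4 * δ + 1 / Real.sqrt N := by
    have h7 : N / r = N * (1 / r) := by ring
    rw [h7] at hfinal
    exact le_of_mul_le_mul_left hfinal hNpos
  have h7 : 4 * δ = δ' := by rw [hδ]; ring
  linarith only [h6, h7]

end frames

end Vale.Agent.P078
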