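import Vale.Agent.P078.H598.Rate13
import Vale.Agent.P078.Bdl.Fast

set_option linter.all false
attribute [local instance] Vale.Agent.P078.Fast.a01 Vale.Agent.P078.Fast.a02
  Vale.Agent.P078.Fast.a03 Vale.Agent.P078.Fast.a04 Vale.Agent.P078.Fast.a05
  Vale.Agent.P078.Fast.a06 Vale.Agent.P078.Fast.a07 Vale.Agent.P078.Fast.a08
  Vale.Agent.P078.Fast.a09 Vale.Agent.P078.Fast.a10 Vale.Agent.P078.Fast.a11
  Vale.Agent.P078.Fast.a12 Vale.Agent.P078.Fast.a13 Vale.Agent.P078.Fast.a14
  Vale.Agent.P078.Fast.a15 Vale.Agent.P078.Fast.a16 Vale.Agent.P078.Fast.a17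
  Vale.Agent.P078.Fast.a18 Vale.Agent.P078.Fast.a19 Vale.Agent.P078.Fast.a20
  Vale.Agent.P078.Fast.a21 Vale.Agent.P078.Fast.a22 Vale.Agent.P078.Fast.a23
  Vale.Agent.P078.Fast.a24 Vale.Agent.P078.Fast.a25 Vale.Agent.P078.Fast.a26
  Vale.Agent.P078.Fast.a27 Vale.Agent.P078.Fast.a28 Vale.Agent.P078.Fast.a29
  Vale.Agent.P078.Fast.a30 Vale.Agent.P078.Fast.a31 Vale.Agent.P078.Fast.a32
  Vale.Agent.P078.Fast.a33 Vale.Agent.P078.Fast.a34 Vale.Agent.P078.Fast.a35
  Vale.Agent.P078.Fast.a36 Vale.Agent.P078.Fast.a37 Vale.Agent.P078.Fast.a38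
  Vale.Agent.P078.Fast.a39 Vale.Agent.P078.Fast.a40 Vale.Agent.P078.Fast.a41
  Vale.Agent.P078.Fast.a42 Vale.Agent.P078.Fast.a43 Vale.Agent.P078.Fast.a44
  Vale.Agent.P078.Fast.a45 Vale.Agent.P078.Fast.a46 Vale.Agent.P078.Fast.a47
  Vale.Agent.P078.Fast.a48 Vale.Agent.P078.Fast.a49 Vale.Agent.P078.Fast.a50
  Vale.Agent.P078.Fast.a51 Vale.Agent.P078.Fast.a52 Vale.Agent.P078.Fast.a53
  Vale.Agent.P078.Fast.a54

/-! Rates of growth of the so-paving number: the lower bound `1/ε` for all von Neumann algebras,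
unless `1` is a finite sum of abelian projections of `A`. -/

namespace Vale.Agent.P078

open Filter Topology Vale.Agent.P078.C Vale.Agent.P078.G
open scoped InnerProductSpace

universe u

variable {H : Type u} [NormedAddCommGroup H] [InnerProductSpace ℂ H] [CompleteSpace H]
variable {M A : VonNeumannAlgebra H}

/-- the central support of an element of `M` -/
theorem exists_central_proj (M : VonNeumannAlgebra H) {b : H →L[ℂ] H} (hb : b ∈ M) :
    ∃ P ∈ M, IsStarProjection P ∧ (∀ y ∈ M, P * y = y * P) ∧ P * b = b ∧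
      ∀ a : H →L[ℂ] H, (∀ y ∈ M, a * y * b = 0) → a * P = 0 := by
  set P := (cspan M b).starProjection with hP
  have hinvM : ∀ z ∈ M, ∀ w ∈ cspan M b, z w ∈ cspan M b := by
    intro z hz
    refine cspan_invariant fun y hy v => ?_
    exact cspan_gen (mul_mem hz hy) v
  have hinvM' : ∀ z ∈ M.commutant, ∀ w ∈ cspan M b, z w ∈ cspan M b := by
    intro z hz
    refine cspan_invariant fun y hy v => ?_
    have h1 : z (y (b v)) = y (b (z v)) := by
      have := commutant_comm (mul_mem hy hb) hz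
      exact DFunLike.congr_fun this v
    rw [h1]
    exact cspan_gen hy _
  have hPM : P ∈ M := by
    refine mem_of_commute fun z hz => ?_
    exact commute_starProjection _ (hinvM' z hz) (hinvM' _ (star_mem hz))
  refine ⟨P, hPM, isStarProjection_starProjection, fun z hz =>
    (commute_starProjection _ (hinvM z hz) (hinvM _ (star_mem hz))).symm, ?_, ?_⟩
  · ext v
    exact Submodule.starProjection_eq_self_iff.mpr (cspan_gen (one_mem M) v)
  · intro a ha
    have hker : cspan M b ≤ LinearMap.ker (a : H →ₗ[ℂ] H) := by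
      refine cspan_le ?_ fun y hy v => ?_
      · exact ContinuousLinearMap.isClosed_ker a
      · rw [LinearMap.mem_ker]
        exact DFunLike.congr_fun (ha y hy) v
    ext w
    exact LinearMap.mem_ker.mp (hker (Submodule.starProjection_apply_mem _ w))

/-- a projection of `A` which is not abelian in `M` splits -/
theorem exists_split_of_not_ab (hA : SO.IsMASA A M) {g : H →L[ℂ] H} (hg : g ∈ A)
    (hgp : IsStarProjection g) (hnab : ¬ ∀ x ∈ M, g * x * g ∈ A) :
    ∃ k ∈ A, IsStarProjection k ∧ g * k = k ∧ ∃ x ∈ M, k * x * (g - k) ≠ 0 := by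
  have hAs := SO.IsMASA.toStar hA
  have hgM := hA.1 _ hg
  have hgg : g * g = g := hgp.isIdempotentElem.eq
  by_contra hcon
  push Not at hcon
  apply hnab
  intro x hx
  refine hAs.mem (mul_mem (mul_mem hgM hx) hgM) fun a ha => ?_
  refine (hAs.comm_of_proj (fun e he hep => ?_) a ha).symm
  have hge : g * e = e * g := hA.2.1 _ hg _ he
  have hkA : g * e ∈ A := mul_mem hg he
  have hkp : IsStarProjection (g * e) := mul_proj_of_comm hgp hep hge
  have hgk : g * (g * e) = g * e := by rw [← mul_assoc, hgg]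
  have h1 := hcon (g * e) hkA hkp hgk x hx
  have h2 := congrArg star (hcon (g * e) hkA hkp hgk (star x) (star_mem hx))
  rw [star_mul, star_mul, star_star, star_sub, hgp.isSelfAdjoint.star_eq,
    hkp.isSelfAdjoint.star_eq, star_zero, ← mul_assoc] at h2
  rw [mul_sub, sub_eq_zero] at h1
  rw [sub_mul, sub_mul, sub_eq_zero] at h2
  calc g * x * g * e = g * x * (g * e) := by rw [mul_assoc (g * x)]
    _ = g * e * x * (g * e) := h2
    _ = g * e * x * g := h1.symm
    _ = e * (g * x * g) := by rw [hge]; simp only [mul_assoc]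

/-- equivalent projections under orthogonal projections of `A` -/
def Units (M A : VonNeumannAlgebra H) (w : H →L[ℂ] H) (n : ℕ) : Prop :=
  ∃ (g : H →L[ℂ] H) (e v : Fin n → (H →L[ℂ] H)), g ∈ M ∧ IsStarProjection g ∧ g ≠ 0 ∧
    w * g = g ∧ (∀ i, e i ∈ A ∧ IsStarProjection (e i) ∧ w * e i = e i) ∧
    (∀ i j, i ≠ j → e i * e j = 0) ∧ ∀ i, v i ∈ M ∧ e i * v i = v i ∧ star (v i) * v i = g

theorem units_diffuse (hA : SO.IsMASA A M) (n : ℕ) : ∀ w ∈ A, IsStarProjection w → w ≠ 0 →
    (∀ g ∈ A, IsStarProjection g → w * g = g → g ≠ 0 → ¬ ∀ x ∈ M, g * x * g ∈ A) →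
    Units M A w n := by
  induction n with
  | zero =>
    intro w hw hwp hw0 _
    exact ⟨w, fun i => i.elim0, fun i => i.elim0, hA.1 _ hw, hwp, hw0, hwp.isIdempotentElem.eq,
      fun i => i.elim0, fun i => i.elim0, fun i => i.elim0⟩
  | succ n ih =>
    intro w hw hwp hw0 hnab
    have hww : w * w = w := hwp.isIdempotentElem.eq
    obtain ⟨k, hkA, hkp, hwk, x, hx, hne⟩ := exists_split_of_not_ab hA hw hwp
      (hnab w hw hwp hww hw0)
    have hkw : k * w = k := by rw [hA.2.1 _ hkA _ hw, hwk]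
    have hkk : k * k = k := hkp.isIdempotentElem.eq
    have hbp : IsStarProjection (w - k) := sub_proj_of_le hwp hkp hwk
    have hbA : w - k ∈ A := sub_mem hw hkA
    have hbM : w - k ∈ M := hA.1 _ hbA
    obtain ⟨P, hPM, hPP, hPc, hPb, hPa⟩ := exists_central_proj M hbM
    have hPA : P ∈ A := hA.2.2 P hPM fun a ha => (hPc a (hA.1 _ ha)).symm
    obtain ⟨w', hw'⟩ : ∃ w', w' = k * P := ⟨_, rfl⟩
    have hkP : k * P = P * k := (hPc k (hA.1 _ hkA)).symm
    have hw'A : w' ∈ A := by rw [hw']; exact mul_mem hkA hPA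
    have hw'p : IsStarProjection w' := by rw [hw']; exact mul_proj_of_comm hkp hPP hkP
    have hkw' : k * w' = w' := by rw [hw', ← mul_assoc, hkk]
    have hww' : w * w' = w' := by rw [← hkw', ← mul_assoc, hwk]
    have hw'0 : w' ≠ 0 := by
      intro h0
      apply hne
      rw [← hPb, ← mul_assoc, mul_assoc k x P, ← hPc x hx, ← mul_assoc, ← hw', h0, zero_mul,
        zero_mul]
    obtain ⟨g, e, v, hgM, hgp, hg0, hw'g, he, ho, hv⟩ := ih w' hw'A hw'p hw'0
      fun g hg hgp hwg hg0 => hnab g hg hgp (by rw [← hwg, ← mul_assoc, hww']) hg0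
    have hPw' : P * w' = w' := by
      rw [hw', hkP, ← mul_assoc, hPP.isIdempotentElem.eq]
    have hPg : P * g = g := by rw [← hw'g, ← mul_assoc, hPw']
    have hgP : g * P = g := by rw [← hPc g hgM, hPg]
    obtain ⟨u, huM, hbu, hug, huu, hu⟩ := exists_partial_isometry M hgM hbM hgp hbp
    have hu0 : u ≠ 0 := by
      rintro rfl
      apply hg0
      rw [← hgP]
      refine hPa g fun y hy => ?_
      have h1 := hu (star y) (star_mem hy)
      rw [star_zero, mul_zero, sub_zero, sub_zero] at h1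
      have h2 := congrArg star h1
      rwa [star_mul, star_mul, star_star, hgp.isSelfAdjoint.star_eq,
        hbp.isSelfAdjoint.star_eq, star_zero, ← mul_assoc] at h2
    obtain ⟨g', hg'⟩ : ∃ g', g' = star u * u := ⟨_, rfl⟩
    have hg'p : IsStarProjection g' := by
      rw [hg']
      refine ⟨?_, IsSelfAdjoint.star_mul_self u⟩
      change star u * u * (star u * u) = star u * u
      rw [mul_assoc, ← mul_assoc u, huu]
    have hg'M : g' ∈ M := by rw [hg']; exact mul_mem (star_mem huM) huM
    have hg'0 : g' ≠ 0 := by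
      rw [hg']
      exact fun h => hu0 ((CStarRing.star_mul_self_eq_zero_iff _).1 h)
    have hgu : g * star u = star u := by
      have := congrArg star hug
      rwa [star_mul, hgp.isSelfAdjoint.star_eq] at this
    have hgg' : g * g' = g' := by rw [hg', ← mul_assoc, hgu]
    have hwg : w * g = g := by rw [← hw'g, ← mul_assoc, hww']
    have hkb : k * (w - k) = 0 := by rw [mul_sub, hkw, hkk, sub_self]
    have heb : ∀ i, e i * (w - k) = 0 := by
      intro i
      have h1 : e i * k = e i := by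
        rw [hA.2.1 _ (he i).1 _ hkA, ← (he i).2.2, ← mul_assoc, hkw']
      rw [← h1, mul_assoc, hkb, mul_zero]
    have hbe : ∀ i, (w - k) * e i = 0 := fun i => by rw [hA.2.1 _ hbA _ (he i).1, heb]
    refine ⟨g', Fin.cons (w - k) e, Fin.cons u (fun i => v i * g'), hg'M, hg'p, hg'0, ?_, ?_, ?_,
      ?_⟩
    · rw [← hgg', ← mul_assoc, hwg]
    · intro i
      refine Fin.cases ?_ (fun i => ?_) i
      · rw [Fin.cons_zero]
        exact ⟨hbA, hbp, by rw [mul_sub, hww, hwk]⟩
      · rw [Fin.cons_succ]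
        exact ⟨(he i).1, (he i).2.1, by rw [← (he i).2.2, ← mul_assoc, hww']⟩
    · intro i j hij
      revert hij
      refine Fin.cases ?_ (fun i => ?_) i <;> refine Fin.cases ?_ (fun j => ?_) j
      · intro h
        exact absurd rfl h
      · intro _
        rw [Fin.cons_zero, Fin.cons_succ]
        exact hbe j
      · intro _
        rw [Fin.cons_zero, Fin.cons_succ]
        exact heb i
      · intro hij
        rw [Fin.cons_succ, Fin.cons_succ]
        exact ho i j fun h => hij (by rw [h])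
    · intro i
      refine Fin.cases ?_ (fun i => ?_) i
      · rw [Fin.cons_zero, Fin.cons_zero]
        exact ⟨huM, hbu, hg'.symm⟩
      · rw [Fin.cons_succ, Fin.cons_succ]
        obtain ⟨h1, h2, h3⟩ := hv i
        refine ⟨mul_mem h1 hg'M, by rw [← mul_assoc, h2], ?_⟩
        rw [star_mul, hg'p.isSelfAdjoint.star_eq, mul_assoc, ← mul_assoc (star (v i)), h3, hgg',
          hg'p.isIdempotentElem.eq]

/-- equivalent projections under orthogonal projections of `A`, in general -/
theorem exists_units_of_not_sum (hA : SO.IsMASA A M)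
    (hinf : ∀ N, ¬ SumAbelian M A.toStarSubalgebra 1 N) (n : ℕ) : Units M A 1 n := by
  classical
  by_cases hab : ∀ w ∈ A, IsStarProjection w → w ≠ 0 → ∃ g, AbProj M A g ∧ g ≠ 0 ∧ w * g = g
  · obtain ⟨e, he, ho, hb⟩ := exists_family (M := M) hA (one_mem A) (IsStarProjection.one _) n
    obtain ⟨s, hs⟩ : ∃ s, s = ∑ i, e i := ⟨_, rfl⟩
    have hsA : s ∈ A := by rw [hs]; exact sum_mem fun i _ => (he i).1.1
    have hsp : IsStarProjection s := by
      rw [hs]; exact isStarProjection_sum (fun i => (he i).1.2.1) ho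
    have hes : ∀ i, e i * s = e i := by
      intro i
      rw [hs, Finset.mul_sum, Finset.sum_eq_single i]
      · exact (he i).1.2.1.isIdempotentElem.eq
      · intro j _ hj
        exact ho i j hj.symm
      · intro hi
        exact absurd (Finset.mem_univ i) hi
    have hw0 : 1 - s ≠ 0 := fun h0 => hinf n
      ⟨e, fun i => (he i).1, ho, by rw [← hs]; exact (sub_eq_zero.1 h0).symm⟩
    obtain ⟨g, hg, hg0, hwg⟩ := hab (1 - s) (sub_mem (one_mem A) hsA) hsp.one_sub hw0
    have heg : ∀ i, e i * g = 0 := fun i => by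
      rw [← hwg, ← mul_assoc, mul_sub, mul_one, hes, sub_self, zero_mul]
    obtain ⟨g', hg', hg'0, hgg', v, hv⟩ := exists_units hA he hb hg (one_mul g) heg hg0
      Finset.univ
    exact ⟨g', e, v, hA.1 _ hg'.1, hg'.2.1, hg'0, one_mul _,
      fun i => ⟨(he i).1.1, (he i).1.2.1, one_mul _⟩, ho, fun i =>
      ⟨(hv i (Finset.mem_univ i)).1, (hv i (Finset.mem_univ i)).2.2.2,
        (hv i (Finset.mem_univ i)).2.1⟩⟩
  · push Not at hab
    obtain ⟨w, hw, hwp, hw0, hnab⟩ := hab
    obtain ⟨g, e, v, h1, h2, h3, -, h4, h5, h6⟩ := units_diffuse hA n w hw hwp hw0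
      fun g hg hgp hwg hg0 hx => hnab g ⟨hg, hgp, hx⟩ hg0 hwg
    exact ⟨g, e, v, h1, h2, h3, one_mul _, fun i => ⟨(h4 i).1, (h4 i).2.1, one_mul _⟩, h5, h6⟩

/-- `1/ε` is a lower bound unless `1` is a finite sum of abelian projections of `A` -/
theorem linear_general (hA : SO.IsMASA A M)
    (hinf : ∀ N, ¬ SumAbelian M A.toStarSubalgebra 1 N) {ε : ℝ} (hε : 0 < ε) :
    (⌈1 / ε⌉₊ : ℕ∞) ≤ pavingNumber M A.toStarSubalgebra 1 ε := by
  classical
  have hA' := SO.IsMASA.toStar hA
  refine le_pavingNumber fun r hr hpave => ?_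
  have hr0 : (0 : ℝ) < r := by exact_mod_cast (show 0 < r by omega)
  have key : ∀ m : ℕ, 1 / (r : ℝ) ≤ ε + 1 / Real.sqrt (2 ^ m) := by
    intro m
    obtain ⟨g, e, v, hgM, hgp, hg0, -, he, ho, hv⟩ := exists_units_of_not_sum hA hinf (2 ^ m)
    obtain ⟨h, hh1, hh2, hh3⟩ := exists_walsh m
    have hgg : g * g = g := hgp.isIdempotentElem.eq
    have hvg : ∀ l, v l * g = v l := by
      intro l
      have h2 : star (v l * g - v l) * (v l * g - v l) = 0 := by
        have h3 : star (v l) * v l = g := (hv l).2.2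
        rw [star_sub, star_mul, hgp.isSelfAdjoint.star_eq, sub_mul, mul_sub, mul_sub]
        have e1 : g * star (v l) * (v l * g) = g := by
          rw [mul_assoc, ← mul_assoc (star (v l)), h3, hgg, hgg]
        have e2 : g * star (v l) * v l = g := by rw [mul_assoc, h3, hgg]
        have e3 : star (v l) * (v l * g) = g := by rw [← mul_assoc, h3, hgg]
        rw [e1, e2, e3, h3, sub_self]
      exact sub_eq_zero.1 ((CStarRing.star_mul_self_eq_zero_iff _).1 h2)
    have hvn : ∀ l, ‖v l‖ ≤ 1 := by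
      intro l
      have h2 : ‖v l‖ * ‖v l‖ ≤ 1 := by
        rw [← CStarRing.norm_star_mul_self, (hv l).2.2]
        exact proj_opNorm_le hgp
      nlinarith only [h2]
    let Fr : HFrame M A.toStarSubalgebra 1 g (Fin (2 ^ m)) :=
      { e := e
        v := v
        h := h
        eA := fun l => (he l).1
        eP := fun l => (he l).2.1
        eo := ho
        ee := fun l => one_mul _
        gM := hgM
        gP := hgp
        eg := one_mul _
        vM := fun l => (hv l).1
        ev := fun l => (hv l).2.1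
        vg := hvg
        vn := hvn
        hs := hh1
        h2 := fun i j => by rw [hh2, Fintype.card_fin]; push_cast; rfl
        ho := hh3 }
    exact linear_bound hA' hε.le (by omega) (fun x hx hxs => hpave x hx hxs (by simp)) Fr hg0
      fun l => (hv l).2.2
  have h3 : 1 / (r : ℝ) ≤ ε := by
    have ht : Tendsto (fun m : ℕ => ε + 1 / Real.sqrt (2 ^ m)) atTop (𝓝 (ε + 0)) := by
      refine tendsto_const_nhds.add ?_
      have h1 : ∀ m : ℕ, 1 / Real.sqrt (2 ^ m) = (1 / Real.sqrt 2) ^ m := by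
        intro m
        rw [div_pow, one_pow, Real.sqrt_eq_rpow, Real.sqrt_eq_rpow, ← Real.rpow_natCast,
          ← Real.rpow_natCast, ← Real.rpow_mul zero_le_two, ← Real.rpow_mul zero_le_two, mul_comm]
      simp_rw [h1]
      refine tendsto_pow_atTop_nhds_zero_of_lt_one (by positivity) ?_
      rw [div_lt_one (by positivity)]
      exact Real.lt_sqrt_of_sq_lt (by norm_num)
    rw [add_zero] at ht
    exact ge_of_tendsto' ht key
  rw [Nat.cast_le, Nat.ceil_le]
  rw [div_le_iff₀ hr0] at h3
  rw [div_le_iff₀ hε]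
  linarith only [h3]

end Vale.Agent.P078
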