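import Vale.Agent.P078.H598.Rate14
import Vale.Agent.P078.Bdl.Fast

set_option linter.all false
attribute [local instance] Vale.Agent.P078.Fast.a01 Vale.Agent.P078.Fast.a02
  Vale.Agent.P078.Fast.a03 Vale.Agent.P078.Fast.a04 Vale.Agent.P078.Fast.a05
  Vale.Agent.P078.Fast.a06 Vale.Agent.P078.Fast.a07 Vale.Agent.P078.Fast.a08
  Vale.Agent.P078.Fast.a09 Vale.Agent.P078.Fast.a10 Vale.Agent.P078.Fast.a11
  Vale.Agent.P078.Fast.a12 Vale.Agent.P078.Fast.a13 Vale.Agent.P078.Fast.a14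
  Vale.Agent.P078.Fast.a15 Vale.Agent.P078.Fast.a16 Vale.Agent.P078.Fast.a17
  Vale.Agent.P078.Fast.a18 Vale.Agent.P078.Fast.a19 Vale.Agent.P078.Fast.a20
  Vale.Agent.P078.Fast.a21 Vale.Agent.P078.Fast.a22 Vale.Agent.P078.Fast.a23
  Vale.Agent.P078.Fast.a24 Vale.Agent.P078.Fast.a25 Vale.Agent.P078.Fast.a26
  Vale.Agent.P078.Fast.a27 Vale.Agent.P078.Fast.a28 Vale.Agent.P078.Fast.a29
  Vale.Agent.P078.Fast.a30 Vale.Agent.P078.Fast.a31 Vale.Agent.P078.Fast.a32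
  Vale.Agent.P078.Fast.a33 Vale.Agent.P078.Fast.a34 Vale.Agent.P078.Fast.a35
  Vale.Agent.P078.Fast.a36 Vale.Agent.P078.Fast.a37 Vale.Agent.P078.Fast.a38
  Vale.Agent.P078.Fast.a39 Vale.Agent.P078.Fast.a40 Vale.Agent.P078.Fast.a41
  Vale.Agent.P078.Fast.a42 Vale.Agent.P078.Fast.a43 Vale.Agent.P078.Fast.a44
  Vale.Agent.P078.Fast.a45 Vale.Agent.P078.Fast.a46 Vale.Agent.P078.Fast.a47
  Vale.Agent.P078.Fast.a48 Vale.Agent.P078.Fast.a49 Vale.Agent.P078.Fast.a50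
  Vale.Agent.P078.Fast.a51 Vale.Agent.P078.Fast.a52 Vale.Agent.P078.Fast.a53
  Vale.Agent.P078.Fast.a54

/-! Rates of growth of the so-paving number: final statement, for all von Neumann algebras. -/

namespace Vale.Agent.P078.WG

open Vale.Agent.P078

universe u

variable {H : Type u} [NormedAddCommGroup H] [InnerProductSpace ℂ H] [CompleteSpace H]
variable {M A : VonNeumannAlgebra H}

/-- the gap: the so-paving number is bounded or at least `1/ε` -/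
theorem gap_all (hA : SO.IsMASA A M) :
    (∀ N : ℕ, 1 ≤ N → SO.IsSumOfAbelian M A 1 N →
      ∀ ε : ℝ, 0 < ε → SO.pavingNumber M A 1 ε ≤ N) ∧
    ((∀ N : ℕ, ¬ SO.IsSumOfAbelian M A 1 N) →
      ∀ ε : ℝ, 0 < ε → ⌈1 / ε⌉₊ ≤ SO.pavingNumber M A 1 ε) :=
  ⟨fun _ hN h _ hε => (le_jointPavingNumber le_rfl).trans (joint_le_of_one hA hN h hε 1),
    fun hinf _ hε => linear_general hA hinf hε⟩

/-- growth of the so-paving number, for all maximal abelian subalgebras -/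
theorem growth_all' (hA : SO.IsMASA A M) :
    ∃ z, SO.IsLargestExpected M A z ∧
      (∀ N : ℕ, SO.IsSumOfAbelian M A z N →
        ∀ ε : ℝ, 0 < ε → SO.pavingNumber M A 1 ε ≤ (N + (⌊1 / ε⌋₊ + 1) : ℕ)) ∧
      (SO.IsSemifinite M 1 ∨ SO.IsSemifinite M z → (∀ N : ℕ, ¬ SO.IsSumOfAbelian M A z N) →
        ∀ ε : ℝ, 0 < ε → ⌈1 / ε ^ 2⌉₊ ≤ SO.pavingNumber M A 1 ε) := by
  obtain ⟨z, hz, -, -, h3, h4⟩ := growth_all hA
  exact ⟨z, hz, h3, h4⟩

end Vale.Agent.P078.WG
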