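import Vale.Agent.P078.H598.Rate15
import Vale.Agent.P078.Bdl.Fast

set_option linter.all false
attribute [local instance] Vale.Agent.P078.Fast.a01 Vale.Agent.P078.Fast.a02
  Vale.Agent.P078.Fast.a03 Vale.Agent.P078.Fast.a04 Vale.Agent.P078.Fast.a05
  Vale.Agent.P078.Fast.a06 Vale.Agent.P078.Fast.a07 Vale.Agent.P078.Fast.a08
  Vale.Agent.P078.Fast.a09 Vale.Agent.P078.Fast.a10 Vale.Agent.P078.Fast.a11
  Vale.Agent.P078.Fast.a12 Vale.Agent.P078.Fast.a13 Vale.Agent.P078.Fast.a14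
  Vale.Agent.P078.Fast.a15 Vale.Agent.P078.Fast.a16 Vale.Agent.P078.Fast.a17
  Vale.Agent.P078.Fast.a18 Vale.Agent.P078.Fast.a19 Vale.Agent.P078.Fast.a20
  Vale.Agent.P078.Fast.a21 Vale.Agent.P078.Fast.a22 Vale.Agent.P078.Fast.a23
  Vale.Agent.P078.Fast.a24 Vale.Agent.P078.Fast.a25 Vale.Agent.P078.Fast.a26
  Vale.Agent.P078.Fast.a27 Vale.Agent.P078.Fast.a28 Vale.Agent.P078.Fast.a29
  Vale.Agent.P078.Fast.a30 Vale.Agent.P078.Fast.a31 Vale.Agent.P078.Fast.a32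
  Vale.Agent.P078.Fast.a33 Vale.Agent.P078.Fast.a34 Vale.Agent.P078.Fast.a35
  Vale.Agent.P078.Fast.a36 Vale.Agent.P078.Fast.a37 Vale.Agent.P078.Fast.a38
  Vale.Agent.P078.Fast.a39 Vale.Agent.P078.Fast.a40 Vale.Agent.P078.Fast.a41
  Vale.Agent.P078.Fast.a42 Vale.Agent.P078.Fast.a43 Vale.Agent.P078.Fast.a44
  Vale.Agent.P078.Fast.a45 Vale.Agent.P078.Fast.a46 Vale.Agent.P078.Fast.a47
  Vale.Agent.P078.Fast.a48 Vale.Agent.P078.Fast.a49 Vale.Agent.P078.Fast.a50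
  Vale.Agent.P078.Fast.a51 Vale.Agent.P078.Fast.a52 Vale.Agent.P078.Fast.a53
  Vale.Agent.P078.Fast.a54

/-! Rates of growth of the so-paving number: frames of normalizing partial isometries. -/

namespace Vale.Agent.P078

open Filter Topology Vale.Agent.P078.C Vale.Agent.P078.G
open scoped InnerProductSpace

universe u

variable {H : Type u} [NormedAddCommGroup H] [InnerProductSpace ℂ H] [CompleteSpace H]
variable {M A : VonNeumannAlgebra H}

theorem vec_ineq {s y y1 y2 : H} {q : H →L[ℂ] H} (hq : IsStarProjection q) {t : ℝ} (ht : 0 < t)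
    (h1 : q y = y1 + y2) (h2 : (⟪s, y⟫_ℂ).re = ‖s‖ ^ 2) :
    (1 - t) * ‖s‖ ^ 2 ≤ ‖y1‖ ^ 2 + 1 / t * ‖y2‖ ^ 2 + t * ‖y‖ ^ 2 + 1 / t * ‖s - q s‖ ^ 2 := by
  have e1 : ⟪s, y⟫_ℂ = ⟪s, y1⟫_ℂ + ⟪s, y2⟫_ℂ + ⟪s - q s, y⟫_ℂ := by
    rw [← inner_add_right, ← h1, inner_sub_left, proj_inner hq]
    ring
  have e2 : (⟪s, y⟫_ℂ).re ≤ ‖s‖ * ‖y1‖ + ‖s‖ * ‖y2‖ + ‖s - q s‖ * ‖y‖ := by
    rw [e1, Complex.add_re, Complex.add_re]
    exact add_le_add (add_le_add ((Complex.re_le_norm _).trans (norm_inner_le_norm _ _))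
      ((Complex.re_le_norm _).trans (norm_inner_le_norm _ _)))
      ((Complex.re_le_norm _).trans (norm_inner_le_norm _ _))
  rw [h2] at e2
  have key : ∀ a b : ℝ, a * b ≤ (t * a ^ 2 + 1 / t * b ^ 2) / 2 := by
    intro a b
    have h3 : t * a ^ 2 + 1 / t * b ^ 2 - 2 * (a * b) = 1 / t * (t * a - b) ^ 2 := by
      field_simp
      ring
    have h4 : 0 ≤ 1 / t * (t * a - b) ^ 2 := by positivity
    linarith only [h3, h4]
  have k1 : ‖s‖ * ‖y1‖ ≤ (‖s‖ ^ 2 + ‖y1‖ ^ 2) / 2 := by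
    nlinarith only [sq_nonneg (‖s‖ - ‖y1‖)]
  have k2 := key ‖s‖ ‖y2‖
  have k3 := key ‖y‖ ‖s - q s‖
  nlinarith only [e2, k1, k2, k3]

/-- the inequality of a frame of normalizing partial isometries -/
theorem frame_vec (hA : SO.IsMASA A M) {ε : ℝ} (hε : 0 ≤ ε) {r : ℕ} (hr : 0 < r) {m : ℕ}
    {g : H →L[ℂ] H} (Fr : HFrame M A.toStarSubalgebra 1 g (Fin (2 ^ m)))
    (hvv : ∀ l, star (Fr.v l) * Fr.v l = g) (hve : ∀ l, Fr.v l * star (Fr.v l) = Fr.e l)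
    (hn : ∀ l, ∀ a ∈ A, star (Fr.v l) * a * Fr.v l ∈ A) {p : Fin r → (H →L[ℂ] H)}
    (hp : ∀ i, p i ∈ A ∧ IsStarProjection (p i)) (hpo : ∀ i j, i ≠ j → p i * p j = 0)
    (hps : ∑ i, p i = 1) {a : H →L[ℂ] H} (haA : a ∈ A) (ha1 : ‖a‖ ≤ 1) {q : H →L[ℂ] H}
    (hq : IsStarProjection q) (hqS : ‖q * (∑ i, p i * Fr.x * p i - a) * q‖ ≤ ε) :
    ∃ z : Fin (2 ^ m) → Fin (2 ^ m) → (H →L[ℂ] H),
      (∀ k l, z k l ∈ A ∧ IsStarProjection (z k l)) ∧
      ∀ t : ℝ, 0 < t → t < 1 → ∀ ζ : H,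
        (1 - t) * ((2 ^ m / r - 1) * ‖g ζ‖ ^ 2) ≤ 2 ^ m * (ε ^ 2 + 4 * t) * ‖g ζ‖ ^ 2 +
          4 / t * ∑ l, ‖Fr.v l ζ - q (Fr.v l ζ)‖ ^ 2 +
          1 / t * ∑ l, ∑ k, ‖Fr.v k (z k l ζ) - q (Fr.v k (z k l ζ))‖ ^ 2 := by
  classical
  have hc := hA.2.1
  obtain ⟨v, hv⟩ : ∃ v, v = Fr.v := ⟨_, rfl⟩
  obtain ⟨h, hh⟩ : ∃ h, h = Fr.h := ⟨_, rfl⟩
  obtain ⟨N, hN⟩ : ∃ N : ℝ, N = (2 : ℝ) ^ m := ⟨_, rfl⟩
  have hNpos : 0 < N := by rw [hN]; positivity
  have hcard : (Fintype.card (Fin (2 ^ m)) : ℝ) = N := by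
    rw [Fintype.card_fin, hN]; push_cast; rfl
  have hvv' : ∀ l, star (v l) * v l = g := fun l => by rw [hv]; exact hvv l
  have hve' : ∀ l, v l * star (v l) = Fr.e l := fun l => by rw [hv]; exact hve l
  have hev : ∀ l, Fr.e l * v l = v l := fun l => by rw [hv]; exact Fr.ev l
  have hsv : ∀ l, star (v l) * Fr.e l = star (v l) := fun l => by rw [hv]; exact Fr.sve l
  have hn' : ∀ l, ∀ a ∈ A, star (v l) * a * v l ∈ A := fun l => by rw [hv]; exact hn l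
  have heA : ∀ l, Fr.e l ∈ A := Fr.eA
  have hvo : ∀ p ∈ A, ∀ k l, k ≠ l → star (v k) * p * v l = 0 := by
    intro p hp k l hkl
    have h1 : Fr.e k * p = p * Fr.e k := hc _ (heA k) _ hp
    calc star (v k) * p * v l = star (v k) * Fr.e k * p * (Fr.e l * v l) := by rw [hsv, hev]
      _ = star (v k) * (Fr.e k * p) * (Fr.e l * v l) := by simp only [mul_assoc]
      _ = star (v k) * p * (Fr.e k * Fr.e l) * v l := by rw [h1]; simp only [mul_assoc]
      _ = 0 := by rw [Fr.eo k l hkl, mul_zero, zero_mul]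
  have hvp : ∀ p ∈ A, ∀ k, v k * (star (v k) * p * v k) = p * v k := by
    intro p hp k
    have h1 : Fr.e k * p = p * Fr.e k := hc _ (heA k) _ hp
    rw [← mul_assoc, ← mul_assoc, hve', h1, mul_assoc, hev]
  have hmulp : ∀ p ∈ A, ∀ p' ∈ A, ∀ k, (star (v k) * p * v k) * (star (v k) * p' * v k) =
      star (v k) * (p * p') * v k := by
    intro p _ p' hp' k
    rw [mul_assoc (star (v k) * p), hvp p' hp']
    simp only [mul_assoc]
  obtain ⟨y, hy⟩ : ∃ y : Fin r → Fin (2 ^ m) → (H →L[ℂ] H),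
    y = fun i l => star (v l) * p i * v l := ⟨_, rfl⟩
  have hyA : ∀ i l, y i l ∈ A := fun i l => by rw [hy]; exact hn' l _ (hp i).1
  have hyp : ∀ i l, IsStarProjection (y i l) := by
    intro i l
    rw [hy]
    refine ⟨?_, ?_⟩
    · change star (v l) * p i * v l * (star (v l) * p i * v l) = star (v l) * p i * v l
      rw [hmulp _ (hp i).1 _ (hp i).1, (hp i).2.isIdempotentElem.eq]
    · rw [IsSelfAdjoint]
      simp only
      rw [star_mul, star_mul, star_star, (hp i).2.isSelfAdjoint.star_eq, mul_assoc]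
  have hyo : ∀ i j, i ≠ j → ∀ l, y i l * y j l = 0 := by
    intro i j hij l
    rw [hy]
    simp only
    rw [hmulp _ (hp i).1 _ (hp j).1, hpo i j hij, mul_zero, zero_mul]
  have hys : ∀ l, ∑ i, y i l = g := by
    intro l
    rw [hy]
    simp only
    rw [← Finset.sum_mul, ← Finset.mul_sum, hps, mul_one, hvv']
  have hgy : ∀ i l, g * y i l = y i l := by
    intro i l
    have h1 : g * star (v l) = star (v l) := by
      have h2 : v l * g = v l := by rw [hv]; exact Fr.vg l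
      have := congrArg star h2
      rwa [star_mul, Fr.gP.isSelfAdjoint.star_eq] at this
    rw [hy]
    simp only
    rw [← mul_assoc, ← mul_assoc, h1]
  obtain ⟨z, hz⟩ : ∃ z : Fin (2 ^ m) → Fin (2 ^ m) → (H →L[ℂ] H),
    z = fun k l => ∑ i, y i k * y i l := ⟨_, rfl⟩
  have hzA : ∀ k l, z k l ∈ A := fun k l => by
    rw [hz]; exact sum_mem fun i _ => mul_mem (hyA i k) (hyA i l)
  have hzp : ∀ k l, IsStarProjection (z k l) := fun k l => by
    rw [hz]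
    refine isStarProjection_sum (fun i => mul_proj_of_comm (hyp i k) (hyp i l)
      (hc _ (hyA i k) _ (hyA i l))) fun i j hij => ?_
    have h1 : y i l * y j k = y j k * y i l := hc _ (hyA i l) _ (hyA j k)
    calc y i k * y i l * (y j k * y j l) = y i k * (y i l * y j k) * y j l := by
          simp only [mul_assoc]
      _ = y i k * y j k * (y i l * y j l) := by rw [h1]; simp only [mul_assoc]
      _ = 0 := by rw [hyo i j hij, zero_mul]
  have hgz : ∀ k l, g * z k l = z k l := by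
    intro k l
    rw [hz]
    simp only
    rw [Finset.mul_sum]
    exact Finset.sum_congr rfl fun i _ => by rw [← mul_assoc, hgy]
  have hzd : ∀ l, z l l = g := by
    intro l
    rw [← hys l, hz]
    exact Finset.sum_congr rfl fun i _ => (hyp i l).isIdempotentElem.eq
  refine ⟨z, fun k l => ⟨hzA k l, hzp k l⟩, fun t ht ht1 ζ => ?_⟩
  rw [← hv, ← hN]
  -- norms
  have hvn : ∀ l η, ‖v l η‖ ^ 2 = ‖g η‖ ^ 2 := by
    intro l η
    have h1 : ⟪v l η, v l η⟫_ℂ = ⟪η, g η⟫_ℂ := by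
      have := star_apply_inner (star (v l)) η (v l η)
      rw [star_star] at this
      rw [this, ← hvv' l]
      rfl
    have h2 := proj_inner_self Fr.gP η
    rw [← h1, inner_self_re] at h2
    exact h2
  have hvn' : ∀ l η, ‖v l η‖ = ‖g η‖ := fun l η =>
    (sq_eq_sq₀ (norm_nonneg _) (norm_nonneg _)).1 (hvn l η)
  have hwn : ∀ k l, ‖v k (z k l ζ)‖ ^ 2 = ‖z k l ζ‖ ^ 2 := by
    intro k l
    rw [hvn]
    congr 2
    exact DFunLike.congr_fun (hgz k l) ζ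
  have hzn : ∀ k l, ‖z k l ζ‖ ^ 2 = ∑ i, (⟪y i k ζ, y i l ζ⟫_ℂ).re := by
    intro k l
    rw [← proj_inner_self (hzp k l), hz]
    simp only
    rw [_root_.sum_apply, inner_sum, Complex.re_sum]
    refine Finset.sum_congr rfl fun i _ => ?_
    rw [proj_inner (hyp i k)]
    rfl
  -- the pinching
  have hx : ∀ p ∈ A, ∀ l, ∀ ζ, Fr.x (p (v l ζ)) =
      ∑ k, ((h k l : ℝ) : ℂ) • v k ((star (v l) * p * v l) ζ) := by
    intro p hp l ζ
    have e1 : Fr.x = ∑ i, ∑ j, ((h i j : ℝ) : ℂ) • (v i * star (v j)) := by rw [hv, hh]; rfl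
    rw [e1, _root_.sum_apply]
    refine Finset.sum_congr rfl fun k _ => ?_
    rw [_root_.sum_apply, Finset.sum_eq_single l]
    · rfl
    · intro j _ hj
      change ((h k j : ℝ) : ℂ) • v k ((star (v j) * p * v l) ζ) = 0
      rw [hvo p hp j l hj, zero_apply, map_zero, smul_zero]
    · intro hi
      exact absurd (Finset.mem_univ l) hi
  have hT : ∀ l, (∑ i, p i * Fr.x * p i : H →L[ℂ] H) (v l ζ) =
      ∑ k, ((h k l : ℝ) : ℂ) • v k (z k l ζ) := by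
    intro l
    rw [_root_.sum_apply]
    have h1 : ∀ i, (p i * Fr.x * p i) (v l ζ) =
        ∑ k, ((h k l : ℝ) : ℂ) • v k ((y i k * y i l) ζ) := by
      intro i
      change p i (Fr.x (p i (v l ζ))) = _
      rw [hx _ (hp i).1, map_sum]
      refine Finset.sum_congr rfl fun k _ => ?_
      rw [map_smul]
      congr 1
      have h2 := DFunLike.congr_fun (hvp _ (hp i).1 k) (y i l ζ)
      rw [hy] at h2 ⊢
      exact h2.symm
    simp_rw [h1]
    rw [Finset.sum_comm]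
    refine Finset.sum_congr rfl fun k _ => ?_
    rw [← Finset.smul_sum, ← map_sum, ← _root_.sum_apply, hz]
  have hh2 : ∀ k l, h k l ^ 2 = 1 / N := fun k l => by rw [hh, Fr.h2, hcard]
  obtain ⟨S, hS⟩ : ∃ S, S = ∑ i, p i * Fr.x * p i - a := ⟨_, rfl⟩
  rw [← hS] at hqS
  have hSn : ‖S‖ ≤ 2 := by
    rw [hS]
    calc _ ≤ ‖∑ i, p i * Fr.x * p i‖ + ‖a‖ := norm_sub_le _ _
      _ ≤ ‖Fr.x‖ + 1 := add_le_add
          (norm_pinch_le (A := A.toStarSubalgebra) hp hpo hps _) ha1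
      _ ≤ 2 := by linarith only [Fr.x_norm]
  obtain ⟨s, hs⟩ : ∃ s : Fin (2 ^ m) → H,
    s = fun l => ∑ k ∈ Finset.univ.erase l, ((h k l : ℝ) : ℂ) • v k (z k l ζ) := ⟨_, rfl⟩
  have horth : ∀ k l, k ≠ l → ∀ η η', ⟪v k η, v l η'⟫_ℂ = 0 := by
    intro k l hkl η η'
    have h1 : ⟪v k η, v l η'⟫_ℂ = ⟪η, (star (v k) * 1 * v l) η'⟫_ℂ := by
      have := star_apply_inner (star (v k)) η (v l η')
      rw [star_star] at this
      rw [this, mul_one]
      rfl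
    rw [h1, hvo 1 (one_mem A) k l hkl, zero_apply, inner_zero_right]
  have hsn : ∀ l, ‖s l‖ ^ 2 = ∑ k ∈ Finset.univ.erase l, 1 / N * ‖z k l ζ‖ ^ 2 := by
    intro l
    rw [hs]
    simp only
    rw [norm_sum_sq_of_orth]
    · refine Finset.sum_congr rfl fun k _ => ?_
      rw [norm_smul, Complex.norm_real, Real.norm_eq_abs, mul_pow, sq_abs, hh2, hwn]
    · intro i _ j _ hij
      rw [inner_smul_left, inner_smul_right, horth i j hij, mul_zero, mul_zero]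
  have hsS : ∀ l, ⟪s l, S (v l ζ)⟫_ℂ = ⟪s l, s l⟫_ℂ := by
    intro l
    have h1 : S (v l ζ) = s l + (((h l l : ℝ) : ℂ) • v l (z l l ζ) - a (v l ζ)) := by
      rw [hS, _root_.sub_apply, hT, hs]
      simp only
      rw [← Finset.add_sum_erase _ _ (Finset.mem_univ l)]
      abel
    have h2 : a (v l ζ) = v l ((star (v l) * a * v l) ζ) :=
      (DFunLike.congr_fun (hvp a haA l) ζ).symm
    rw [h1, inner_add_right, h2, ← map_smul, ← map_sub]
    have h3 : ∀ η, ⟪s l, v l η⟫_ℂ = 0 := by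
      intro η
      rw [hs]
      simp only
      rw [sum_inner]
      refine Finset.sum_eq_zero fun k hk => ?_
      rw [inner_smul_left, horth k l (Finset.ne_of_mem_erase hk), mul_zero]
    rw [h3, add_zero]
  -- lower bound
  have hr0 : (0 : ℝ) < r := by exact_mod_cast hr
  have hlow : (N / r - 1) * ‖g ζ‖ ^ 2 ≤ ∑ l, ‖s l‖ ^ 2 := by
    have h1 : ∀ l, ‖s l‖ ^ 2 = 1 / N * (∑ k, ‖z k l ζ‖ ^ 2 - ‖g ζ‖ ^ 2) := by
      intro l
      rw [hsn, ← Finset.mul_sum, ← Finset.add_sum_erase _ _ (Finset.mem_univ l), hzd]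
      ring
    have h2 : ∑ l, ∑ k, ‖z k l ζ‖ ^ 2 = ∑ i, ‖∑ l, y i l ζ‖ ^ 2 := by
      simp_rw [hzn]
      calc ∑ l, ∑ k, ∑ i, (⟪y i k ζ, y i l ζ⟫_ℂ).re
          = ∑ l, ∑ i, ∑ k, (⟪y i k ζ, y i l ζ⟫_ℂ).re :=
            Finset.sum_congr rfl fun l _ => Finset.sum_comm
        _ = ∑ i, ∑ l, ∑ k, (⟪y i k ζ, y i l ζ⟫_ℂ).re := Finset.sum_comm
        _ = _ := by
            refine Finset.sum_congr rfl fun i _ => ?_
            rw [← inner_self_re, inner_sum, Complex.re_sum]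
            refine Finset.sum_congr rfl fun l _ => ?_
            rw [sum_inner, Complex.re_sum]
    have h3 : N ^ 2 * ‖g ζ‖ ^ 2 / r ≤ ∑ i, ‖∑ l, y i l ζ‖ ^ 2 := by
      rw [div_le_iff₀ hr0]
      have h4 : ∑ i, ∑ l, y i l ζ = (N : ℂ) • g ζ := by
        rw [Finset.sum_comm]
        have h5 : ∀ l, ∑ i, y i l ζ = g ζ := by
          intro l
          rw [← _root_.sum_apply, hys]
        simp_rw [h5]
        rw [Finset.sum_const, Finset.card_univ, Fintype.card_fin, ← Nat.cast_smul_eq_nsmul ℂ]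
        congr 1
        rw [hN]
        push_cast
        rfl
      have h5 : ‖∑ i, ∑ l, y i l ζ‖ = N * ‖g ζ‖ := by
        rw [h4, norm_smul, Complex.norm_real, Real.norm_of_nonneg hNpos.le]
      calc N ^ 2 * ‖g ζ‖ ^ 2 = ‖∑ i, ∑ l, y i l ζ‖ ^ 2 := by rw [h5]; ring
        _ ≤ (∑ i, ‖∑ l, y i l ζ‖) ^ 2 := pow_le_pow_left₀ (norm_nonneg _) (norm_sum_le _ _) 2
        _ ≤ (Finset.univ : Finset (Fin r)).card * ∑ i, ‖∑ l, y i l ζ‖ ^ 2 :=
            sq_sum_le_card_mul_sum_sq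
        _ = _ := by rw [Finset.card_univ, Fintype.card_fin, mul_comm]
    simp_rw [h1]
    rw [← Finset.mul_sum, Finset.sum_sub_distrib, h2, Finset.sum_const, Finset.card_univ,
      nsmul_eq_mul, hcard]
    have h4 : (N / r - 1) * ‖g ζ‖ ^ 2 = 1 / N * (N ^ 2 * ‖g ζ‖ ^ 2 / r - N * ‖g ζ‖ ^ 2) := by
      field_simp
    rw [h4]
    exact mul_le_mul_of_nonneg_left (by linarith only [h3]) (by positivity)
  -- upper bound
  have hup : ∀ l, (1 - t) * ‖s l‖ ^ 2 ≤ (ε ^ 2 + 4 * t) * ‖g ζ‖ ^ 2 +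
      4 / t * ‖v l ζ - q (v l ζ)‖ ^ 2 + 1 / t * ∑ k, ‖v k (z k l ζ) - q (v k (z k l ζ))‖ ^ 2 := by
    intro l
    have h1 := vec_ineq (s := s l) (y := S (v l ζ)) (y1 := (q * S * q) (v l ζ))
      (y2 := q (S (v l ζ - q (v l ζ)))) hq ht (by
        change _ = q (S (q (v l ζ))) + _
        rw [← map_add, ← map_add, add_sub_cancel]) (by rw [hsS, inner_self_re])
    have h2 : ‖(q * S * q) (v l ζ)‖ ^ 2 ≤ ε ^ 2 * ‖g ζ‖ ^ 2 := by
      rw [← mul_pow, ← hvn' l]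
      exact pow_le_pow_left₀ (norm_nonneg _) ((q * S * q).le_of_opNorm_le hqS _) 2
    have h3 : ‖q (S (v l ζ - q (v l ζ)))‖ ^ 2 ≤ 4 * ‖v l ζ - q (v l ζ)‖ ^ 2 := by
      have h4 : ‖q (S (v l ζ - q (v l ζ)))‖ ≤ 2 * ‖v l ζ - q (v l ζ)‖ :=
        (proj_norm_le hq _).trans (S.le_of_opNorm_le hSn _)
      calc _ ≤ (2 * ‖v l ζ - q (v l ζ)‖) ^ 2 := pow_le_pow_left₀ (norm_nonneg _) h4 2
        _ = _ := by ring
    have h4 : ‖S (v l ζ)‖ ^ 2 ≤ 4 * ‖g ζ‖ ^ 2 := by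
      have h5 : ‖S (v l ζ)‖ ≤ 2 * ‖g ζ‖ := by
        rw [← hvn' l]; exact S.le_of_opNorm_le hSn _
      calc _ ≤ (2 * ‖g ζ‖) ^ 2 := pow_le_pow_left₀ (norm_nonneg _) h5 2
        _ = _ := by ring
    have h5 : ‖s l - q (s l)‖ ^ 2 ≤ ∑ k, ‖v k (z k l ζ) - q (v k (z k l ζ))‖ ^ 2 := by
      have e1 : s l - q (s l) = ∑ k ∈ Finset.univ.erase l,
          ((h k l : ℝ) : ℂ) • (v k (z k l ζ) - q (v k (z k l ζ))) := by
        rw [hs]
        simp only
        rw [map_sum, ← Finset.sum_sub_distrib]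
        refine Finset.sum_congr rfl fun k _ => ?_
        rw [map_smul, smul_sub]
      have e2 : ‖s l - q (s l)‖ ≤ ∑ k ∈ Finset.univ.erase l,
          |h k l| * ‖v k (z k l ζ) - q (v k (z k l ζ))‖ := by
        rw [e1]
        refine (norm_sum_le _ _).trans (Finset.sum_le_sum fun k _ => ?_)
        rw [norm_smul, Complex.norm_real, Real.norm_eq_abs]
      have e3 : ∑ k ∈ Finset.univ.erase l, |h k l| ^ 2 ≤ 1 := by
        calc ∑ k ∈ Finset.univ.erase l, |h k l| ^ 2 ≤ ∑ k, |h k l| ^ 2 :=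
              Finset.sum_le_sum_of_subset_of_nonneg (Finset.erase_subset _ _)
                fun _ _ _ => sq_nonneg _
          _ = ∑ _k : Fin (2 ^ m), 1 / N :=
              Finset.sum_congr rfl fun k _ => by rw [sq_abs, hh2]
          _ = 1 := by
              rw [Finset.sum_const, Finset.card_univ, nsmul_eq_mul, hcard]
              field_simp
      calc ‖s l - q (s l)‖ ^ 2 ≤ (∑ k ∈ Finset.univ.erase l,
            |h k l| * ‖v k (z k l ζ) - q (v k (z k l ζ))‖) ^ 2 :=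
            pow_le_pow_left₀ (norm_nonneg _) e2 2
        _ ≤ (∑ k ∈ Finset.univ.erase l, |h k l| ^ 2) *
            ∑ k ∈ Finset.univ.erase l, ‖v k (z k l ζ) - q (v k (z k l ζ))‖ ^ 2 :=
            Finset.sum_mul_sq_le_sq_mul_sq _ _ _
        _ ≤ 1 * ∑ k, ‖v k (z k l ζ) - q (v k (z k l ζ))‖ ^ 2 := by
            refine mul_le_mul e3 ?_ (Finset.sum_nonneg fun _ _ => sq_nonneg _) zero_le_one
            exact Finset.sum_le_sum_of_subset_of_nonneg (Finset.erase_subset _ _)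
              fun _ _ _ => sq_nonneg _
        _ = _ := one_mul _
    have ht' : 0 ≤ 1 / t := by positivity
    have h6 := mul_le_mul_of_nonneg_left h3 ht'
    have h7 := mul_le_mul_of_nonneg_left h5 ht'
    have h8 := mul_le_mul_of_nonneg_left h4 ht.le
    have h9 : 1 / t * (4 * ‖v l ζ - q (v l ζ)‖ ^ 2) = 4 / t * ‖v l ζ - q (v l ζ)‖ ^ 2 := by ring
    rw [h9] at h6
    have h10 : (ε ^ 2 + 4 * t) * ‖g ζ‖ ^ 2 = ε ^ 2 * ‖g ζ‖ ^ 2 + t * (4 * ‖g ζ‖ ^ 2) := by ring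
    rw [h10]
    linarith only [h1, h2, h6, h7, h8]
  calc (1 - t) * ((N / r - 1) * ‖g ζ‖ ^ 2) ≤ (1 - t) * ∑ l, ‖s l‖ ^ 2 :=
        mul_le_mul_of_nonneg_left hlow (by linarith only [ht1])
    _ = ∑ l, (1 - t) * ‖s l‖ ^ 2 := Finset.mul_sum _ _ _
    _ ≤ ∑ l, ((ε ^ 2 + 4 * t) * ‖g ζ‖ ^ 2 + 4 / t * ‖v l ζ - q (v l ζ)‖ ^ 2 +
        1 / t * ∑ k, ‖v k (z k l ζ) - q (v k (z k l ζ))‖ ^ 2) :=
        Finset.sum_le_sum fun l _ => hup l
    _ = _ := by
        rw [Finset.sum_add_distrib, Finset.sum_add_distrib, Finset.sum_const, Finset.card_univ,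
          nsmul_eq_mul, hcard, ← Finset.mul_sum, ← Finset.mul_sum]
        ring

end Vale.Agent.P078
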