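import Vale.Agent.P078.H598.Rate16
import Vale.Agent.P078.Bdl.Fast

set_option linter.all false
attribute [local instance] Vale.Agent.P078.Fast.a01 Vale.Agent.P078.Fast.a02
  Vale.Agent.P078.Fast.a03 Vale.Agent.P078.Fast.a04 Vale.Agent.P078.Fast.a05
  Vale.Agent.P078.Fast.a06 Vale.Agent.P078.Fast.a07 Vale.Agent.P078.Fast.a08
  Vale.Agent.P078.Fast.a09 Vale.Agent.P078.Fast.a10 Vale.Agent.P078.Fast.a11
  Vale.Agent.P078.Fast.a12 Vale.Agent.P078.Fast.a13 Vale.Agent.P078.Fast.a14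
  Vale.Agent.P078.Fast.a15 Vale.Agent.P078.Fast.a16 Vale.Agent.P078.Fast.a17
  Vale.Agent.P078.Fast.a18 Vale.Agent.P078.Fast.a19 Vale.Agent.P078.Fast.a20
  Vale.Agent.P078.Fast.a21 Vale.Agent.P078.Fast.a22 Vale.Agent.P078.Fast.a23
  Vale.Agent.P078.Fast.a24 Vale.Agent.P078.Fast.a25 Vale.Agent.P078.Fast.a26
  Vale.Agent.P078.Fast.a27 Vale.Agent.P078.Fast.a28 Vale.Agent.P078.Fast.a29
  Vale.Agent.P078.Fast.a30 Vale.Agent.P078.Fast.a31 Vale.Agent.P078.Fast.a32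
  Vale.Agent.P078.Fast.a33 Vale.Agent.P078.Fast.a34 Vale.Agent.P078.Fast.a35
  Vale.Agent.P078.Fast.a36 Vale.Agent.P078.Fast.a37 Vale.Agent.P078.Fast.a38
  Vale.Agent.P078.Fast.a39 Vale.Agent.P078.Fast.a40 Vale.Agent.P078.Fast.a41
  Vale.Agent.P078.Fast.a42 Vale.Agent.P078.Fast.a43 Vale.Agent.P078.Fast.a44
  Vale.Agent.P078.Fast.a45 Vale.Agent.P078.Fast.a46 Vale.Agent.P078.Fast.a47
  Vale.Agent.P078.Fast.a48 Vale.Agent.P078.Fast.a49 Vale.Agent.P078.Fast.a50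
  Vale.Agent.P078.Fast.a51 Vale.Agent.P078.Fast.a52 Vale.Agent.P078.Fast.a53
  Vale.Agent.P078.Fast.a54

/-! Rates of growth of the so-paving number: central normal functionals and frames of normalizing
partial isometries. -/

namespace Vale.Agent.P078

open Filter Topology Vale.Agent.P078.C Vale.Agent.P078.G
open scoped InnerProductSpace

universe u

variable {H : Type u} [NormedAddCommGroup H] [InnerProductSpace ℂ H] [CompleteSpace H]
variable {M A : VonNeumannAlgebra H}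

theorem CentralNormal.re_nonneg {ψ : (H →L[ℂ] H) →ₗ[ℂ] ℂ}
    (hψ : CentralNormal M A.toStarSubalgebra ψ) {x : H →L[ℂ] H} (hx : x ∈ M) (h0 : 0 ≤ x) :
    0 ≤ (ψ x).re := (hψ.nonneg x hx h0).1

/-- compressions by projections of `A` decrease central functionals -/
theorem CentralNormal.compress_le (hA : SO.IsMASA A M) {ψ : (H →L[ℂ] H) →ₗ[ℂ] ℂ}
    (hψ : CentralNormal M A.toStarSubalgebra ψ) {B z : H →L[ℂ] H} (hB : B ∈ M) (hB0 : 0 ≤ B)
    (hz : z ∈ A) (hzp : IsStarProjection z) : (ψ (z * B * z)).re ≤ (ψ B).re := by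
  have hzM := hA.1 _ hz
  have h1z : 1 - z ∈ A := sub_mem (one_mem A) hz
  have h1zp : IsStarProjection (1 - z) := hzp.one_sub
  have e1 : ψ (z * B * z) = ψ (z * B) := by
    rw [mul_assoc, hψ.central z hz hzp _ (mul_mem hB hzM), mul_assoc, hzp.isIdempotentElem.eq,
      hψ.central z hz hzp _ hB]
  have e2 : ψ ((1 - z) * B * (1 - z)) = ψ ((1 - z) * B) := by
    rw [mul_assoc, hψ.central _ h1z h1zp _ (mul_mem hB (hA.1 _ h1z)), mul_assoc,
      h1zp.isIdempotentElem.eq, hψ.central _ h1z h1zp _ hB]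
  have e3 : ψ B = ψ (z * B * z) + ψ ((1 - z) * B * (1 - z)) := by
    rw [e1, e2, ← map_add, ← add_mul, add_sub_cancel, one_mul]
  have e4 : 0 ≤ (ψ ((1 - z) * B * (1 - z))).re := by
    refine hψ.re_nonneg (mul_mem (mul_mem (hA.1 _ h1z) hB) (hA.1 _ h1z)) ?_
    exact conj_nonneg' h1zp hB0
  rw [e3, Complex.add_re]
  linarith only [e4]

/-- one inequality for each frame of normalizing partial isometries -/
theorem normal_bound (hA : SO.IsMASA A M) {ψ : (H →L[ℂ] H) →ₗ[ℂ] ℂ}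
    (hψ : CentralNormal M A.toStarSubalgebra ψ) {ε : ℝ} (hε : 0 ≤ ε) {r : ℕ} (hr : 0 < r)
    (hpave : ∀ x ∈ M, IsSelfAdjoint x → SOPavable M A.toStarSubalgebra 1 x ε r) {m : ℕ}
    {g : H →L[ℂ] H} (Fr : HFrame M A.toStarSubalgebra 1 g (Fin (2 ^ m))) (hgψ : ψ g ≠ 0)
    (hvv : ∀ l, star (Fr.v l) * Fr.v l = g) (hve : ∀ l, Fr.v l * star (Fr.v l) = Fr.e l)
    (hn : ∀ l, ∀ a ∈ A, star (Fr.v l) * a * Fr.v l ∈ A) :
    1 / (r : ℝ) ≤ ε ^ 2 + 1 / 2 ^ m := by
  classical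
  obtain ⟨v, hv⟩ : ∃ v, v = Fr.v := ⟨_, rfl⟩
  obtain ⟨N, hN⟩ : ∃ N : ℝ, N = (2 : ℝ) ^ m := ⟨_, rfl⟩
  have hNpos : 0 < N := by rw [hN]; positivity
  have hcard : (Fintype.card (Fin (2 ^ m)) : ℝ) = N := by
    rw [Fintype.card_fin, hN]; push_cast; rfl
  have hvM : ∀ l, v l ∈ M := fun l => by rw [hv]; exact Fr.vM l
  have hgM : g ∈ M := Fr.gM
  obtain ⟨γ, hγ⟩ : ∃ γ, γ = (ψ g).re := ⟨_, rfl⟩
  have hγ0 : 0 < γ := by
    obtain ⟨h1, h2⟩ := hψ.nonneg g hgM Fr.gP.nonneg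
    rw [hγ]
    refine lt_of_le_of_ne h1 fun h3 => hgψ ?_
    exact Complex.ext h3.symm h2
  have hr0 : (0 : ℝ) < r := by exact_mod_cast hr
  -- the summed functional
  obtain ⟨φ, hφ⟩ : ∃ φ : (H →L[ℂ] H) →ₗ[ℂ] ℂ, φ = ∑ k, (ψ.comp
      (LinearMap.mulLeft ℂ (star (v k)))).comp (LinearMap.mulRight ℂ (v k)) := ⟨_, rfl⟩
  have hφ' : ∀ b, φ b = ∑ k, ψ (star (v k) * (b * v k)) := by
    intro b
    rw [hφ, LinearMap.sum_apply]
    rfl
  have hφw : WCont M φ := by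
    refine (WCont.sum Finset.univ fun k _ =>
      ((hψ.wcont.mul_left (star_mem (hvM k))).mul_right (hvM k))).congr fun x _ => ?_
    rw [hφ']
  have key : ∀ t : ℝ, 0 < t → t < 1 → ∀ κ : ℝ, 0 < κ →
      (1 - t) * ((N / r - 1) * γ) ≤ N * (ε ^ 2 + 4 * t) * γ + (4 / t + N / t) * κ := by
    intro t ht ht1 κ hκ
    obtain ⟨d, ⟨q, hqM, hq, hd, p, a, hp, hpo, hps, haA, ha1, hqS⟩, hdκ⟩ :=
      L.small_of_strong hφw (D := {d | ∃ q ∈ M, IsStarProjection q ∧ d = 1 - q ∧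
        ∃ (p : Fin r → (H →L[ℂ] H)) (a : H →L[ℂ] H), (∀ i, p i ∈ A ∧ IsStarProjection (p i)) ∧
          (∀ i j, i ≠ j → p i * p j = 0) ∧ ∑ i, p i = 1 ∧ a ∈ A ∧ ‖a‖ ≤ 1 ∧
          ‖q * (∑ i, p i * Fr.x * p i - a) * q‖ ≤ ε}) (C := 1) (by
            rintro d ⟨q, hqM, hq, rfl, -⟩
            exact ⟨sub_mem (one_mem M) hqM, proj_opNorm_le hq.one_sub⟩) (by
            intro G δ hδ
            obtain ⟨p, a, q, hp, hpo, hps, haA, -, has, han, hqM, -, hqp, hqF, hqS⟩ :=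
              hpave Fr.x Fr.x_mem Fr.x_sa G (fun ζ _ => rfl) δ hδ
            refine ⟨1 - q, ⟨q, hqM, hqp, rfl, p, a, hp, hpo, hps, haA, han.trans Fr.x_norm,
              ?_⟩, fun ζ hζ => ?_⟩
            · calc _ ≤ ε * ‖Fr.x‖ := hqS
                _ ≤ ε * 1 := mul_le_mul_of_nonneg_left Fr.x_norm hε
                _ = ε := mul_one _
            · have := hqF ζ hζ
              rwa [_root_.sub_apply]) hκ
    obtain ⟨z, hz, hvec⟩ := frame_vec hA hε hr Fr hvv hve hn hp hpo hps haA ha1 hq hqS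
    have h1q : IsStarProjection (1 - q) := hq.one_sub
    have h1qM : 1 - q ∈ M := sub_mem (one_mem M) hqM
    obtain ⟨B, hB⟩ : ∃ B : Fin (2 ^ m) → (H →L[ℂ] H), B = fun k => star (v k) * (1 - q) * v k :=
      ⟨_, rfl⟩
    have hBM : ∀ k, B k ∈ M := fun k => by
      rw [hB]; exact mul_mem (mul_mem (star_mem (hvM k)) h1qM) (hvM k)
    have hBs : ∀ k, IsSelfAdjoint (B k) := by
      intro k
      rw [IsSelfAdjoint, hB]
      simp only
      rw [star_mul, star_mul, star_star, h1q.isSelfAdjoint.star_eq, mul_assoc]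
    have hBζ : ∀ k ζ, (⟪ζ, B k ζ⟫_ℂ).re = ‖v k ζ - q (v k ζ)‖ ^ 2 := by
      intro k ζ
      have h1 : ⟪ζ, B k ζ⟫_ℂ = ⟪v k ζ, (1 - q) (v k ζ)⟫_ℂ := by
        have := star_apply_inner (star (v k)) ζ ((1 - q) (v k ζ))
        rw [star_star] at this
        rw [this, hB]
        rfl
      rw [h1, proj_inner_self h1q]
      rfl
    have hB0 : ∀ k, 0 ≤ B k := fun k =>
      nonneg_of_inner (hBs k) fun ζ => by rw [hBζ]; positivity
    have hBκ : ∑ k, (ψ (B k)).re < κ := by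
      have h1 : star d * d = 1 - q := by
        rw [hd, h1q.isSelfAdjoint.star_eq, h1q.isIdempotentElem.eq]
      rw [h1, hφ', Complex.re_sum] at hdκ
      simp_rw [← mul_assoc] at hdκ
      rw [hB]
      exact hdκ
    obtain ⟨c, hc⟩ : ∃ c : ℝ, c = (1 - t) * (N / r - 1) - N * (ε ^ 2 + 4 * t) := ⟨_, rfl⟩
    obtain ⟨R, hR⟩ : ∃ R : H →L[ℂ] H, R = ((4 / t : ℝ) : ℂ) • ∑ l, B l +
        ((1 / t : ℝ) : ℂ) • ∑ l, ∑ k, z k l * B k * z k l - ((c : ℝ) : ℂ) • g := ⟨_, rfl⟩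
    have hRM : R ∈ M := by
      rw [hR]
      exact sub_mem (add_mem (M.toStarSubalgebra.smul_mem (sum_mem fun l _ => hBM l) _)
        (M.toStarSubalgebra.smul_mem (sum_mem fun l _ => sum_mem fun k _ =>
          mul_mem (mul_mem (hA.1 _ (hz k l).1) (hBM k)) (hA.1 _ (hz k l).1)) _))
        (M.toStarSubalgebra.smul_mem hgM _)
    have hsm : ∀ (b : ℝ) (x : H →L[ℂ] H), IsSelfAdjoint x → IsSelfAdjoint ((b : ℂ) • x) := by
      intro b x hx
      rw [IsSelfAdjoint, star_smul, Complex.star_def, Complex.conj_ofReal, hx.star_eq]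
    have hzBs : ∀ k l, IsSelfAdjoint (z k l * B k * z k l) := by
      intro k l
      rw [IsSelfAdjoint, star_mul, star_mul, (hz k l).2.isSelfAdjoint.star_eq, (hBs k).star_eq,
        mul_assoc]
    have hRs : IsSelfAdjoint R := by
      rw [hR]
      refine IsSelfAdjoint.sub (IsSelfAdjoint.add (hsm _ _ ?_) (hsm _ _ ?_))
        (hsm _ _ Fr.gP.isSelfAdjoint)
      · exact isSelfAdjoint_sum _ fun l _ => hBs l
      · exact isSelfAdjoint_sum _ fun l _ => isSelfAdjoint_sum _ fun k _ => hzBs k l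
    have hre : ∀ (b : ℝ) (x : H →L[ℂ] H) (ζ : H),
        (⟪ζ, ((b : ℂ) • x) ζ⟫_ℂ).re = b * (⟪ζ, x ζ⟫_ℂ).re := by
      intro b x ζ
      rw [smul_apply, inner_smul_right, Complex.re_ofReal_mul]
    have hR0 : 0 ≤ R := by
      refine nonneg_of_inner hRs fun ζ => ?_
      have h1 := hvec t ht ht1 ζ
      have h2 : (⟪ζ, R ζ⟫_ℂ).re = 4 / t * ∑ l, ‖v l ζ - q (v l ζ)‖ ^ 2 +
          1 / t * ∑ l, ∑ k, ‖v k (z k l ζ) - q (v k (z k l ζ))‖ ^ 2 - c * ‖g ζ‖ ^ 2 := by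
        rw [hR, _root_.sub_apply, _root_.add_apply, inner_sub_right, inner_add_right,
          Complex.sub_re, Complex.add_re, hre, hre, hre, proj_inner_self Fr.gP,
          _root_.sum_apply, inner_sum, Complex.re_sum, _root_.sum_apply, inner_sum,
          Complex.re_sum]
        congr 2
        · congr 1
          exact Finset.sum_congr rfl fun l _ => hBζ l ζ
        · congr 1
          refine Finset.sum_congr rfl fun l _ => ?_
          rw [_root_.sum_apply, inner_sum, Complex.re_sum]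
          refine Finset.sum_congr rfl fun k _ => ?_
          have h3 : ⟪ζ, (z k l * B k * z k l) ζ⟫_ℂ = ⟪z k l ζ, B k (z k l ζ)⟫_ℂ := by
            rw [proj_inner (hz k l).2]
            rfl
          rw [h3, hBζ]
      rw [h2, hc]
      rw [← hv, ← hN] at h1
      have h3 : ((1 - t) * (N / r - 1) - N * (ε ^ 2 + 4 * t)) * ‖g ζ‖ ^ 2 =
          (1 - t) * ((N / r - 1) * ‖g ζ‖ ^ 2) - N * (ε ^ 2 + 4 * t) * ‖g ζ‖ ^ 2 := by ring
      rw [h3]
      linarith only [h1]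
    have h4 := hψ.re_nonneg hRM hR0
    have h5 : (ψ R).re = 4 / t * ∑ l, (ψ (B l)).re +
        1 / t * ∑ l, ∑ k, (ψ (z k l * B k * z k l)).re - c * γ := by
      rw [hR, map_sub, map_add, map_smul, map_smul, map_smul, smul_eq_mul, smul_eq_mul,
        smul_eq_mul, Complex.sub_re, Complex.add_re, Complex.re_ofReal_mul,
        Complex.re_ofReal_mul, Complex.re_ofReal_mul, map_sum, map_sum, Complex.re_sum,
        Complex.re_sum, hγ]
      simp_rw [map_sum, Complex.re_sum]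
    have h6 : ∑ l, ∑ k, (ψ (z k l * B k * z k l)).re ≤ N * ∑ k, (ψ (B k)).re := by
      calc _ ≤ ∑ _l : Fin (2 ^ m), ∑ k, (ψ (B k)).re :=
            Finset.sum_le_sum fun l _ => Finset.sum_le_sum fun k _ =>
              hψ.compress_le hA (hBM k) (hB0 k) (hz k l).1 (hz k l).2
        _ = _ := by
            rw [Finset.sum_const, Finset.card_univ, nsmul_eq_mul, hcard]
    have h7 : 1 / t * ∑ l, ∑ k, (ψ (z k l * B k * z k l)).re ≤ 1 / t * (N * κ) :=
      mul_le_mul_of_nonneg_left (h6.trans (mul_le_mul_of_nonneg_left hBκ.le hNpos.le))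
        (by positivity)
    have h8 : 4 / t * ∑ l, (ψ (B l)).re ≤ 4 / t * κ :=
      mul_le_mul_of_nonneg_left hBκ.le (by positivity)
    rw [h5, hc] at h4
    have h9 : ((1 - t) * (N / r - 1) - N * (ε ^ 2 + 4 * t)) * γ =
        (1 - t) * ((N / r - 1) * γ) - N * (ε ^ 2 + 4 * t) * γ := by ring
    rw [h9] at h4
    have h10 : (4 / t + N / t) * κ = 4 / t * κ + 1 / t * (N * κ) := by ring
    rw [h10]
    linarith only [h4, h7, h8]
  -- the limits
  have h1 : ∀ t : ℝ, 0 < t → t < 1 → (1 - t) * (N / r - 1) ≤ N * (ε ^ 2 + 4 * t) := by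
    intro t ht ht1
    have h2 : (1 - t) * ((N / r - 1) * γ) ≤ N * (ε ^ 2 + 4 * t) * γ := by
      refine le_of_forall_pos_le_add fun δ hδ => ?_
      have h3 : 0 < 4 / t + N / t := by positivity
      have h4 := key t ht ht1 (δ / (4 / t + N / t)) (by positivity)
      rwa [mul_div_cancel₀ _ h3.ne'] at h4
    have h3 : (1 - t) * (N / r - 1) * γ ≤ N * (ε ^ 2 + 4 * t) * γ := by
      rw [mul_assoc]; exact h2
    exact le_of_mul_le_mul_right h3 hγ0
  have h2 : N / r - 1 ≤ N * ε ^ 2 := by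
    have hl : Tendsto (fun t : ℝ => (1 - t) * (N / r - 1)) (𝓝[>] 0) (𝓝 ((1 - 0) * (N / r - 1))) :=
      ((continuous_const.sub continuous_id).mul continuous_const).continuousAt.tendsto.mono_left
        nhdsWithin_le_nhds
    have hl' : Tendsto (fun t : ℝ => N * (ε ^ 2 + 4 * t)) (𝓝[>] 0) (𝓝 (N * (ε ^ 2 + 4 * 0))) :=
      (continuous_const.mul (continuous_const.add
        (continuous_const.mul continuous_id))).continuousAt.tendsto.mono_left nhdsWithin_le_nhds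
    rw [sub_zero, one_mul] at hl
    rw [mul_zero, add_zero] at hl'
    refine le_of_tendsto_of_tendsto hl hl' ?_
    filter_upwards [Ioo_mem_nhdsGT (show (0 : ℝ) < 1 by norm_num)] with t ht
    exact h1 t ht.1 ht.2
  rw [← hN]
  have h3 : 1 / (r : ℝ) = 1 / N * (N / r - 1) + 1 / N := by
    field_simp
    ring
  rw [h3]
  have h4 : 1 / N * (N / r - 1) ≤ 1 / N * (N * ε ^ 2) :=
    mul_le_mul_of_nonneg_left h2 (by positivity)
  have h5 : 1 / N * (N * ε ^ 2) = ε ^ 2 := by field_simp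
  linarith only [h4, h5]

end Vale.Agent.P078
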