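import Vale.Agent.P078.H598.Rate17
import Vale.Agent.P078.Bdl.Fast

set_option linter.all false
attribute [local instance] Vale.Agent.P078.Fast.a01 Vale.Agent.P078.Fast.a02
  Vale.Agent.P078.Fast.a03 Vale.Agent.P078.Fast.a04 Vale.Agent.P078.Fast.a05
  Vale.Agent.P078.Fast.a06 Vale.Agent.P078.Fast.a07 Vale.Agent.P078.Fast.a08
  Vale.Agent.P078.Fast.a09 Vale.Agent.P078.Fast.a10 Vale.Agent.P078.Fast.a11
  Vale.Agent.P078.Fast.a12 Vale.Agent.P078.Fast.a13 Vale.Agent.P078.Fast.a14
  Vale.Agent.P078.Fast.a15 Vale.Agent.P078.Fast.a16 Vale.Agent.P078.Fast.a17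
  Vale.Agent.P078.Fast.a18 Vale.Agent.P078.Fast.a19 Vale.Agent.P078.Fast.a20
  Vale.Agent.P078.Fast.a21 Vale.Agent.P078.Fast.a22 Vale.Agent.P078.Fast.a23
  Vale.Agent.P078.Fast.a24 Vale.Agent.P078.Fast.a25 Vale.Agent.P078.Fast.a26
  Vale.Agent.P078.Fast.a27 Vale.Agent.P078.Fast.a28 Vale.Agent.P078.Fast.a29
  Vale.Agent.P078.Fast.a30 Vale.Agent.P078.Fast.a31 Vale.Agent.P078.Fast.a32
  Vale.Agent.P078.Fast.a33 Vale.Agent.P078.Fast.a34 Vale.Agent.P078.Fast.a35
  Vale.Agent.P078.Fast.a36 Vale.Agent.P078.Fast.a37 Vale.Agent.P078.Fast.a38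
  Vale.Agent.P078.Fast.a39 Vale.Agent.P078.Fast.a40 Vale.Agent.P078.Fast.a41
  Vale.Agent.P078.Fast.a42 Vale.Agent.P078.Fast.a43 Vale.Agent.P078.Fast.a44
  Vale.Agent.P078.Fast.a45 Vale.Agent.P078.Fast.a46 Vale.Agent.P078.Fast.a47
  Vale.Agent.P078.Fast.a48 Vale.Agent.P078.Fast.a49 Vale.Agent.P078.Fast.a50
  Vale.Agent.P078.Fast.a51 Vale.Agent.P078.Fast.a52 Vale.Agent.P078.Fast.a53
  Vale.Agent.P078.Fast.a54

/-! Rates of growth of the so-paving number: Cartan subalgebras of arbitrary type. -/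

namespace Vale.Agent.P078

open Filter Topology Vale.Agent.P078.C Vale.Agent.P078.G
open scoped InnerProductSpace

universe u

variable {H : Type u} [NormedAddCommGroup H] [InnerProductSpace ℂ H] [CompleteSpace H]
variable {M A : VonNeumannAlgebra H}

theorem Normalizes.mul {u w : H →L[ℂ] H} (hu : C.Normalizes M A u) (hw : C.Normalizes M A w) :
    C.Normalizes M A (u * w) := by
  obtain ⟨h1, h2, h3, h4⟩ := hu
  obtain ⟨k1, k2, k3, k4⟩ := hw
  refine ⟨mul_mem h1 k1, ?_, ?_, fun a ha => ⟨?_, ?_⟩⟩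
  · rw [star_mul, mul_assoc, ← mul_assoc (star u), h2, one_mul, k2]
  · rw [star_mul, mul_assoc, ← mul_assoc w, k3, one_mul, h3]
  · have := (h4 _ (k4 a ha).1).1
    rw [star_mul]
    simpa only [mul_assoc] using this
  · have := (k4 _ (h4 a ha).2).2
    rw [star_mul]
    simpa only [mul_assoc] using this

theorem Normalizes.star {u : H →L[ℂ] H} (hu : C.Normalizes M A u) :
    C.Normalizes M A (star u) := by
  obtain ⟨h1, h2, h3, h4⟩ := hu
  refine ⟨star_mem h1, by rw [star_star, h3], by rw [star_star, h2], fun a ha => ?_⟩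
  rw [star_star]
  exact ⟨(h4 a ha).2, (h4 a ha).1⟩

theorem Normalizes.one (M A : VonNeumannAlgebra H) : C.Normalizes M A (1 : H →L[ℂ] H) := by
  refine ⟨one_mem M, by rw [star_one, one_mul], by rw [star_one, one_mul], fun a ha => ?_⟩
  rw [star_one, one_mul, mul_one]
  exact ⟨ha, ha⟩

/-- the normalizer connects projections of `A` which are connected by `M` -/
theorem exists_normalizer (hC : ∀ T : H →L[ℂ] H, (∀ u, C.Normalizes M A u → T * u = u * T) →
    ∀ m ∈ M, T * m = m * T) {k b x : H →L[ℂ] H} (hx : x ∈ M) (hne : k * x * b ≠ 0) :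
    ∃ u, C.Normalizes M A u ∧ k * u * b ≠ 0 := by
  by_contra hcon
  push Not at hcon
  apply hne
  let K : Submodule ℂ H :=
    (Submodule.span ℂ {w : H | ∃ u, C.Normalizes M A u ∧ ∃ v, w = u (b v)}).topologicalClosure
  have hKc : IsClosed (K : Set H) := Submodule.isClosed_topologicalClosure _
  have : CompleteSpace K := hKc.completeSpace_coe
  have hgen : ∀ u, C.Normalizes M A u → ∀ v, u (b v) ∈ K := fun u hu v =>
    Submodule.le_topologicalClosure _ (Submodule.subset_span ⟨u, hu, v, rfl⟩)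
  have hle : ∀ L : Submodule ℂ H, IsClosed (L : Set H) →
      (∀ u, C.Normalizes M A u → ∀ v, u (b v) ∈ L) → K ≤ L := by
    intro L hL h
    refine Submodule.topologicalClosure_minimal _ ?_ hL
    rw [Submodule.span_le]
    rintro _ ⟨u, hu, v, rfl⟩
    exact h u hu v
  have hinv : ∀ w, C.Normalizes M A w → ∀ v ∈ K, w v ∈ K := by
    intro w hw
    have h1 : K ≤ K.comap (w : H →ₗ[ℂ] H) := by
      refine hle _ (hKc.preimage w.continuous) fun u hu v => ?_
      exact hgen (w * u) (Normalizes.mul hw hu) v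
    exact h1
  have hP : ∀ m ∈ M, K.starProjection * m = m * K.starProjection :=
    hC _ fun u hu => (commute_starProjection K (hinv u hu) (hinv _ (Normalizes.star hu))).symm
  have hPb : K.starProjection * b = b := by
    ext v
    exact Submodule.starProjection_eq_self_iff.mpr (hgen 1 (Normalizes.one M A) v)
  have hkP : k * K.starProjection = 0 := by
    have hker : K ≤ LinearMap.ker (k : H →ₗ[ℂ] H) := by
      refine hle _ (ContinuousLinearMap.isClosed_ker k) fun u hu v => ?_
      rw [LinearMap.mem_ker]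
      exact DFunLike.congr_fun (hcon u hu) v
    ext w
    exact LinearMap.mem_ker.mp (hker (Submodule.starProjection_apply_mem _ w))
  rw [← hPb, ← mul_assoc, mul_assoc k, ← hP x hx, ← mul_assoc, hkP, zero_mul, zero_mul]

/-- equivalent projections of `A`, with normalizing partial isometries -/
def NUnits (M A : VonNeumannAlgebra H) (w : H →L[ℂ] H) (m : ℕ) : Prop :=
  ∃ (ι : Type) (_ : Fintype ι) (g : H →L[ℂ] H) (v : ι → (H →L[ℂ] H)),
    Fintype.card ι = 2 ^ m ∧ g ∈ A ∧ IsStarProjection g ∧ g ≠ 0 ∧ w * g = g ∧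
    (∀ i, v i ∈ M ∧ star (v i) * v i = g ∧ w * v i = v i) ∧
    (∀ i j, i ≠ j → star (v i) * v j = 0) ∧
    ∀ i, ∀ a ∈ A, v i * a * star (v i) ∈ A ∧ star (v i) * a * v i ∈ A

theorem nunits_diffuse (hA : SO.IsMASA A M)
    (hC : ∀ T : H →L[ℂ] H, (∀ u, C.Normalizes M A u → T * u = u * T) → ∀ m ∈ M, T * m = m * T)
    (m : ℕ) : ∀ w ∈ A, IsStarProjection w → w ≠ 0 →
    (∀ g ∈ A, IsStarProjection g → w * g = g → g ≠ 0 → ¬ ∀ x ∈ M, g * x * g ∈ A) →
    NUnits M A w m := by
  induction m with
  | zero =>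
    intro w hw hwp hw0 _
    have hww : w * w = w := hwp.isIdempotentElem.eq
    refine ⟨Unit, inferInstance, w, fun _ => w, by simp, hw, hwp, hw0, hww,
      fun _ => ⟨hA.1 _ hw, by rw [hwp.isSelfAdjoint.star_eq, hww], hww⟩,
      fun i j hij => absurd (Subsingleton.elim i j) hij, fun _ a ha => ?_⟩
    rw [hwp.isSelfAdjoint.star_eq]
    exact ⟨mul_mem (mul_mem hw ha) hw, mul_mem (mul_mem hw ha) hw⟩
  | succ m ih =>
    intro w hw hwp hw0 hnab
    have hww : w * w = w := hwp.isIdempotentElem.eq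
    obtain ⟨k, hkA, hkp, hwk, x, hx, hne⟩ := exists_split_of_not_ab hA hw hwp
      (hnab w hw hwp hww hw0)
    obtain ⟨u, hu, hune⟩ := exists_normalizer hC hx hne
    obtain ⟨huM, hu1, hu2, huA⟩ := hu
    have hkw : k * w = k := by rw [hA.2.1 _ hkA _ hw, hwk]
    have hkk : k * k = k := hkp.isIdempotentElem.eq
    have hbp : IsStarProjection (w - k) := sub_proj_of_le hwp hkp hwk
    have hbA : w - k ∈ A := sub_mem hw hkA
    have hwb : w * (w - k) = w - k := by rw [mul_sub, hww, hwk]
    have hkb : k * (w - k) = 0 := by rw [mul_sub, hkw, hkk, sub_self]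
    have hbk : (w - k) * k = 0 := by rw [hA.2.1 _ hbA _ hkA, hkb]
    have hk'A : star u * k * u ∈ A := (huA k hkA).2
    have hk'p : IsStarProjection (star u * k * u) := by
      refine ⟨?_, ?_⟩
      · change star u * k * u * (star u * k * u) = star u * k * u
        calc star u * k * u * (star u * k * u) = star u * k * (u * star u) * k * u := by
              simp only [mul_assoc]
          _ = star u * (k * k) * u := by rw [hu2, mul_one]; simp only [mul_assoc]
          _ = _ := by rw [hkk]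
      · rw [IsSelfAdjoint, star_mul, star_mul, star_star, hkp.isSelfAdjoint.star_eq, mul_assoc]
    obtain ⟨g1, hg1⟩ : ∃ g1, g1 = (star u * k * u) * (w - k) := ⟨_, rfl⟩
    have hcomm : (star u * k * u) * (w - k) = (w - k) * (star u * k * u) := hA.2.1 _ hk'A _ hbA
    have hg1A : g1 ∈ A := by rw [hg1]; exact mul_mem hk'A hbA
    have hg1p : IsStarProjection g1 := by rw [hg1]; exact mul_proj_of_comm hk'p hbp hcomm
    have hug1 : u * g1 = k * u * (w - k) := by
      rw [hg1]
      calc u * (star u * k * u * (w - k)) = (u * star u) * k * u * (w - k) := by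
            simp only [mul_assoc]
        _ = _ := by rw [hu2, one_mul]
    have hg10 : g1 ≠ 0 := by
      intro h0
      rw [h0, mul_zero] at hug1
      exact hune hug1.symm
    have hbg1 : (w - k) * g1 = g1 := by
      rw [hg1, hcomm, ← mul_assoc, hbp.isIdempotentElem.eq]
    have hwg1 : w * g1 = g1 := by rw [← hbg1, ← mul_assoc, hwb]
    have hkg1 : k * g1 = 0 := by rw [← hbg1, ← mul_assoc, hkb, zero_mul]
    have hg1k : g1 * k = 0 := by rw [hA.2.1 _ hg1A _ hkA, hkg1]
    obtain ⟨ι, F, g, v, hcard, hgA, hgp, hg0, hg1g, hv, ho, hn⟩ := ih g1 hg1A hg1p hg10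
      fun g hg hgp hgg hg0 => hnab g hg hgp (by rw [← hgg, ← mul_assoc, hwg1]) hg0
    have huv : ∀ i, k * (u * v i) = u * v i := by
      intro i
      have h1 : u * v i = k * u * (w - k) * v i := by
        rw [← hug1, mul_assoc, (hv i).2.2]
      rw [h1]
      simp only [← mul_assoc]
      rw [hkk]
    have hsg1 : ∀ i, star (v i) * g1 = star (v i) := by
      intro i
      have := congrArg star (hv i).2.2
      rwa [star_mul, hg1p.isSelfAdjoint.star_eq] at this
    have h12 : ∀ i j, star (v i) * (u * v j) = 0 := by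
      intro i j
      rw [← hsg1, ← huv, ← mul_assoc, mul_assoc (star (v i)), hg1k, mul_zero, zero_mul]
    have h21 : ∀ i j, star (u * v i) * v j = 0 := by
      intro i j
      have := congrArg star (h12 j i)
      rwa [star_mul, star_star, star_zero] at this
    refine ⟨ι ⊕ ι, inferInstance, g, Sum.elim v fun i => u * v i, ?_, hgA, hgp, hg0, ?_, ?_, ?_,
      ?_⟩
    · rw [Fintype.card_sum, hcard]
      ring
    · rw [← hg1g, ← mul_assoc, hwg1]
    · rintro (i | i)
      · exact ⟨(hv i).1, (hv i).2.1, by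
          change w * v i = v i
          rw [← (hv i).2.2, ← mul_assoc, hwg1]⟩
      · refine ⟨mul_mem huM (hv i).1, ?_, ?_⟩
        · change star (u * v i) * (u * v i) = g
          rw [star_mul, mul_assoc, ← mul_assoc (star u), hu1, one_mul, (hv i).2.1]
        · change w * (u * v i) = u * v i
          rw [← huv, ← mul_assoc, hwk]
    · rintro (i | i) (j | j) hij
      · exact ho i j fun h => hij (by rw [h])
      · exact h12 i j
      · exact h21 i j
      · change star (u * v i) * (u * v j) = 0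
        rw [star_mul, mul_assoc, ← mul_assoc (star u), hu1, one_mul,
          ho i j fun h => hij (by rw [h])]
    · rintro (i | i) a ha
      · exact hn i a ha
      · change u * v i * a * star (u * v i) ∈ A ∧ star (u * v i) * a * (u * v i) ∈ A
        rw [star_mul]
        refine ⟨?_, ?_⟩
        · have := (huA _ (hn i a ha).1).1
          simpa only [mul_assoc] using this
        · have := (hn i _ (huA a ha).2).2
          simpa only [mul_assoc] using this

/-- normalizing frames, if `z` is not a finite sum of abelian projections -/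
theorem nunits_of_not_sum (hA : SO.IsMASA A M)
    (hC : ∀ T : H →L[ℂ] H, (∀ u, C.Normalizes M A u → T * u = u * T) → ∀ m ∈ M, T * m = m * T)
    {z : H →L[ℂ] H} (hz : z ∈ A) (hzp : IsStarProjection z)
    (hinf : ∀ N, ¬ SumAbelian M A.toStarSubalgebra z N) (m : ℕ) : NUnits M A z m := by
  classical
  by_cases hab : ∀ w ∈ A, IsStarProjection w → z * w = w → w ≠ 0 →
      ∃ g, AbProj M A g ∧ g ≠ 0 ∧ w * g = g
  · obtain ⟨e, he, ho, hb⟩ := exists_family (M := M) hA hz hzp (2 ^ m)
    obtain ⟨s, hs⟩ : ∃ s, s = ∑ i, e i := ⟨_, rfl⟩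
    have hsA : s ∈ A := by rw [hs]; exact sum_mem fun i _ => (he i).1.1
    have hsp : IsStarProjection s := by
      rw [hs]; exact isStarProjection_sum (fun i => (he i).1.2.1) ho
    have hzs : z * s = s := by
      rw [hs, Finset.mul_sum]
      exact Finset.sum_congr rfl fun i _ => (he i).2
    have hzz : z * z = z := hzp.isIdempotentElem.eq
    have hes : ∀ i, e i * s = e i := by
      intro i
      rw [hs, Finset.mul_sum, Finset.sum_eq_single i]
      · exact (he i).1.2.1.isIdempotentElem.eq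
      · intro j _ hj
        exact ho i j hj.symm
      · intro hi
        exact absurd (Finset.mem_univ i) hi
    have hez : ∀ i, e i * z = e i := fun i => by rw [hA.2.1 _ (he i).1.1 _ hz, (he i).2]
    have hwp : IsStarProjection (z - s) := sub_proj_of_le hzp hsp hzs
    have hzw : z * (z - s) = z - s := by rw [mul_sub, hzz, hzs]
    have hw0 : z - s ≠ 0 := fun h0 => hinf (2 ^ m)
      ⟨e, fun i => (he i).1, ho, by rw [← hs]; exact (sub_eq_zero.1 h0).symm⟩
    obtain ⟨g, hg, hg0, hwg⟩ := hab (z - s) (sub_mem hz hsA) hwp hzw hw0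
    have hzg : z * g = g := by rw [← hwg, ← mul_assoc, hzw]
    have heg : ∀ i, e i * g = 0 := fun i => by
      rw [← hwg, ← mul_assoc, mul_sub, hez, hes, sub_self, zero_mul]
    obtain ⟨g', hg', hg'0, hgg', v, hv⟩ := exists_units hA he hb hg hzg heg hg0 Finset.univ
    have hvM : ∀ i, v i ∈ M := fun i => (hv i (Finset.mem_univ i)).1
    have hvv : ∀ i, star (v i) * v i = g' := fun i => (hv i (Finset.mem_univ i)).2.1
    have hev : ∀ i, e i * v i = v i := fun i => (hv i (Finset.mem_univ i)).2.2.2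
    have hsv : ∀ i, star (v i) * e i = star (v i) := by
      intro i
      have := congrArg star (hev i)
      rwa [star_mul, (he i).1.2.1.isSelfAdjoint.star_eq] at this
    have hg'g' : g' * g' = g' := hg'.2.1.isIdempotentElem.eq
    have hvg : ∀ i, v i * g' = v i := by
      intro l
      have h2 : star (v l * g' - v l) * (v l * g' - v l) = 0 := by
        have h3 : star (v l) * v l = g' := hvv l
        rw [star_sub, star_mul, hg'.2.1.isSelfAdjoint.star_eq, sub_mul, mul_sub, mul_sub]
        have e1 : g' * star (v l) * (v l * g') = g' := by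
          rw [mul_assoc, ← mul_assoc (star (v l)), h3, hg'g', hg'g']
        have e2 : g' * star (v l) * v l = g' := by rw [mul_assoc, h3, hg'g']
        have e3 : star (v l) * (v l * g') = g' := by rw [← mul_assoc, h3, hg'g']
        rw [e1, e2, e3, h3, sub_self]
      exact sub_eq_zero.1 ((CStarRing.star_mul_self_eq_zero_iff _).1 h2)
    have hgv : ∀ i, g' * star (v i) = star (v i) := by
      intro i
      have := congrArg star (hvg i)
      rwa [star_mul, hg'.2.1.isSelfAdjoint.star_eq] at this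
    refine ⟨Fin (2 ^ m), inferInstance, g', v, Fintype.card_fin _, hg'.1, hg'.2.1, hg'0, ?_,
      fun i => ⟨hvM i, hvv i, ?_⟩, fun i j hij => ?_, fun i a ha => ⟨?_, ?_⟩⟩
    · rw [← hgg', ← mul_assoc, hzg]
    · rw [← hev, ← mul_assoc, (he i).2]
    · rw [← hsv, ← hev j, mul_assoc, ← mul_assoc (e i), ho i j hij, zero_mul, mul_zero]
    · exact (he i).1.conj_mem (hvM i) (hA.1 _ ha) (hev i)
    · have h1 := hg'.2.2 _ (mul_mem (mul_mem (star_mem (hvM i)) (hA.1 _ ha)) (hvM i))
      have e1 : g' * (star (v i) * a * v i) * g' = star (v i) * a * v i := by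
        rw [← mul_assoc, ← mul_assoc, hgv, mul_assoc, hvg]
      rwa [e1] at h1
  · push Not at hab
    obtain ⟨w, hw, hwp, hzw, hw0, hnab⟩ := hab
    obtain ⟨ι, F, g, v, h1, h2, h3, h4, h5, h6, h7, h8⟩ := nunits_diffuse hA hC m w hw hwp hw0
      fun g hg hgp hwg hg0 hx => hnab g ⟨hg, hgp, hx⟩ hg0 hwg
    exact ⟨ι, F, g, v, h1, h2, h3, h4, by rw [← h5, ← mul_assoc, hzw],
      fun i => ⟨(h6 i).1, (h6 i).2.1, by rw [← (h6 i).2.2, ← mul_assoc, hzw]⟩, h7, h8⟩

theorem NUnits.mono {M' : VonNeumannAlgebra H} (h : ∀ x ∈ M', x ∈ M) {w : H →L[ℂ] H} {m : ℕ}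
    (hN : NUnits M' A w m) : NUnits M A w m := by
  obtain ⟨ι, F, g, v, h1, h2, h3, h4, h5, h6, h7, h8⟩ := hN
  exact ⟨ι, F, g, v, h1, h2, h3, h4, h5, fun i => ⟨h _ (h6 i).1, (h6 i).2⟩, h7, h8⟩

/-- the quadratic lower bound from normalizing frames -/
theorem quadratic_of_nunits (hA : SO.IsMASA A M) {z : H →L[ℂ] H} (hz : z ∈ A)
    (hzp : IsStarProjection z) {E : (H →L[ℂ] H) →ₗ[ℂ] (H →L[ℂ] H)}
    (hE : IsNormalExpectation M A.toStarSubalgebra z E) (h : ∀ m, NUnits M A z m) {ε : ℝ}
    (hε : 0 < ε) : (⌈1 / ε ^ 2⌉₊ : ℕ∞) ≤ pavingNumber M A.toStarSubalgebra 1 ε := by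
  classical
  have hA' := SO.IsMASA.toStar hA
  refine le_pavingNumber fun r hr hpave => ?_
  have hr0 : (0 : ℝ) < r := by exact_mod_cast (show 0 < r by omega)
  have key : ∀ m : ℕ, 1 / (r : ℝ) ≤ ε ^ 2 + 1 / 2 ^ m := by
    intro m
    obtain ⟨ι, F, g, v', hcard, hgA, hgp, hg0, hzg, hv', ho', hn'⟩ := h m
    let σ : Fin (2 ^ m) ≃ ι := (Fintype.equivFinOfCardEq hcard).symm
    obtain ⟨v, hv⟩ : ∃ v : Fin (2 ^ m) → (H →L[ℂ] H), v = fun i => v' (σ i) := ⟨_, rfl⟩
    have hvM : ∀ i, v i ∈ M := fun i => by rw [hv]; exact (hv' _).1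
    have hvv : ∀ i, star (v i) * v i = g := fun i => by rw [hv]; exact (hv' _).2.1
    have ho : ∀ i j, i ≠ j → star (v i) * v j = 0 := fun i j hij => by
      rw [hv]; exact ho' _ _ fun h => hij (σ.injective h)
    have hn : ∀ i, ∀ a ∈ A, v i * a * star (v i) ∈ A ∧ star (v i) * a * v i ∈ A := fun i => by
      rw [hv]; exact hn' _
    have hgg : g * g = g := hgp.isIdempotentElem.eq
    have hvg : ∀ l, v l * g = v l := by
      intro l
      have h2 : star (v l * g - v l) * (v l * g - v l) = 0 := by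
        have h3 : star (v l) * v l = g := hvv l
        rw [star_sub, star_mul, hgp.isSelfAdjoint.star_eq, sub_mul, mul_sub, mul_sub]
        have e1 : g * star (v l) * (v l * g) = g := by
          rw [mul_assoc, ← mul_assoc (star (v l)), h3, hgg, hgg]
        have e2 : g * star (v l) * v l = g := by rw [mul_assoc, h3, hgg]
        have e3 : star (v l) * (v l * g) = g := by rw [← mul_assoc, h3, hgg]
        rw [e1, e2, e3, h3, sub_self]
      exact sub_eq_zero.1 ((CStarRing.star_mul_self_eq_zero_iff _).1 h2)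
    have hvn : ∀ l, ‖v l‖ ≤ 1 := by
      intro l
      have h2 : ‖v l‖ * ‖v l‖ ≤ 1 := by
        rw [← CStarRing.norm_star_mul_self, hvv l]
        exact proj_opNorm_le hgp
      nlinarith only [h2]
    have heA : ∀ l, v l * star (v l) ∈ A := fun l => by
      have := (hn l 1 (one_mem A)).1
      rwa [mul_one] at this
    have hvvv : ∀ l, v l * star (v l) * v l = v l := fun l => by
      rw [mul_assoc, hvv, hvg]
    obtain ⟨h', hh1, hh2, hh3⟩ := exists_walsh m
    let Fr : HFrame M A.toStarSubalgebra 1 g (Fin (2 ^ m)) :=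
      { e := fun l => v l * star (v l)
        v := v
        h := h'
        eA := heA
        eP := fun l => ⟨by
          change v l * star (v l) * (v l * star (v l)) = v l * star (v l)
          rw [← mul_assoc, hvvv], IsSelfAdjoint.mul_star_self _⟩
        eo := fun i j hij => by
          rw [mul_assoc, ← mul_assoc (star (v i)), ho i j hij, zero_mul, mul_zero]
        ee := fun l => one_mul _
        gM := hA.1 _ hgA
        gP := hgp
        eg := one_mul _
        vM := hvM
        ev := hvvv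
        vg := hvg
        vn := hvn
        hs := hh1
        h2 := fun i j => by rw [hh2, Fintype.card_fin]; push_cast; rfl
        ho := hh3 }
    obtain ⟨ψ, hψ, hψg⟩ : ∃ ψ : (H →L[ℂ] H) →ₗ[ℂ] ℂ, CentralNormal M A.toStarSubalgebra ψ ∧
        ψ g ≠ 0 := by
      by_contra hcon
      push Not at hcon
      have h1 := mul_eq_zero_of_isNormalExpectation hA' hgA hgp hcon hz hzp hE
      have h2 : g * z = g := by rw [hA.2.1 _ hgA _ hz, hzg]
      rw [h2] at h1
      exact hg0 h1
    exact normal_bound hA hψ hε.le (by omega) (fun x hx hxs => hpave x hx hxs (by simp)) Fr hψg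
      hvv (fun l => rfl) fun l a ha => (hn l a ha).2
  have h3 : 1 / (r : ℝ) ≤ ε ^ 2 := by
    have ht : Tendsto (fun m : ℕ => ε ^ 2 + 1 / 2 ^ m) atTop (𝓝 (ε ^ 2 + 0)) := by
      refine tendsto_const_nhds.add ?_
      have h1 : ∀ m : ℕ, (1 : ℝ) / 2 ^ m = (1 / 2) ^ m := fun m => by rw [div_pow, one_pow]
      simp_rw [h1]
      exact tendsto_pow_atTop_nhds_zero_of_lt_one (by norm_num) (by norm_num)
    rw [add_zero] at ht
    exact ge_of_tendsto' ht key
  rw [Nat.cast_le, Nat.ceil_le]
  rw [div_le_iff₀ hr0] at h3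
  rw [div_le_iff₀ (by positivity)]
  linarith only [h3]

/-- the quadratic lower bound over Cartan subalgebras of intermediate algebras, for all types -/
theorem quadratic_cartan {M' : VonNeumannAlgebra H} (hM : ∀ x ∈ M', x ∈ M)
    (hA : SO.IsMASA A M) (hC : C.IsCartanMASA A M') {z : H →L[ℂ] H} (hz : z ∈ A)
    (hzp : IsStarProjection z) {E : (H →L[ℂ] H) →ₗ[ℂ] (H →L[ℂ] H)}
    (hE : IsNormalExpectation M A.toStarSubalgebra z E)
    (hinf : ∀ N, ¬ SumAbelian M' A.toStarSubalgebra z N) {ε : ℝ}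
    (hε : 0 < ε) : (⌈1 / ε ^ 2⌉₊ : ℕ∞) ≤ pavingNumber M A.toStarSubalgebra 1 ε :=
  quadratic_of_nunits hA hz hzp hE
    (fun m => (nunits_of_not_sum hC.1 hC.2 hz hzp hinf m).mono hM) hε

end Vale.Agent.P078
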