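import Vale.Agent.P078.H598.Rate18
import Vale.Agent.P078.Bdl.Fast

set_option linter.all false
attribute [local instance] Vale.Agent.P078.Fast.a01 Vale.Agent.P078.Fast.a02
  Vale.Agent.P078.Fast.a03 Vale.Agent.P078.Fast.a04 Vale.Agent.P078.Fast.a05
  Vale.Agent.P078.Fast.a06 Vale.Agent.P078.Fast.a07 Vale.Agent.P078.Fast.a08
  Vale.Agent.P078.Fast.a09 Vale.Agent.P078.Fast.a10 Vale.Agent.P078.Fast.a11
  Vale.Agent.P078.Fast.a12 Vale.Agent.P078.Fast.a13 Vale.Agent.P078.Fast.a14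
  Vale.Agent.P078.Fast.a15 Vale.Agent.P078.Fast.a16 Vale.Agent.P078.Fast.a17
  Vale.Agent.P078.Fast.a18 Vale.Agent.P078.Fast.a19 Vale.Agent.P078.Fast.a20
  Vale.Agent.P078.Fast.a21 Vale.Agent.P078.Fast.a22 Vale.Agent.P078.Fast.a23
  Vale.Agent.P078.Fast.a24 Vale.Agent.P078.Fast.a25 Vale.Agent.P078.Fast.a26
  Vale.Agent.P078.Fast.a27 Vale.Agent.P078.Fast.a28 Vale.Agent.P078.Fast.a29
  Vale.Agent.P078.Fast.a30 Vale.Agent.P078.Fast.a31 Vale.Agent.P078.Fast.a32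
  Vale.Agent.P078.Fast.a33 Vale.Agent.P078.Fast.a34 Vale.Agent.P078.Fast.a35
  Vale.Agent.P078.Fast.a36 Vale.Agent.P078.Fast.a37 Vale.Agent.P078.Fast.a38
  Vale.Agent.P078.Fast.a39 Vale.Agent.P078.Fast.a40 Vale.Agent.P078.Fast.a41
  Vale.Agent.P078.Fast.a42 Vale.Agent.P078.Fast.a43 Vale.Agent.P078.Fast.a44
  Vale.Agent.P078.Fast.a45 Vale.Agent.P078.Fast.a46 Vale.Agent.P078.Fast.a47
  Vale.Agent.P078.Fast.a48 Vale.Agent.P078.Fast.a49 Vale.Agent.P078.Fast.a50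
  Vale.Agent.P078.Fast.a51 Vale.Agent.P078.Fast.a52 Vale.Agent.P078.Fast.a53
  Vale.Agent.P078.Fast.a54

/-! Rates of growth of the so-paving number: final statement. -/

namespace Vale.Agent.P078.WG

open Vale.Agent.P078

universe u

variable {H : Type u} [NormedAddCommGroup H] [InnerProductSpace ℂ H] [CompleteSpace H]
variable {M A : VonNeumannAlgebra H}

/-- restriction of an expectation to a smaller corner -/
theorem expectation_mono {z w : H →L[ℂ] H} (hww : w * w = w)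
    (hzw : z * w = w) (hwz : w * z = w) (hw : w ∈ A)
    {E : (H →L[ℂ] H) →ₗ[ℂ] (H →L[ℂ] H)} (hE : SO.IsNormalExpectation M A z E) :
    SO.IsNormalExpectation M A w E := by
  have hc : ∀ x : H →L[ℂ] H, w * x * w = x → z * x * z = x := by
    intro x hx
    rw [← hx, ← mul_assoc, ← mul_assoc, hzw, mul_assoc, hwz]
  refine ⟨fun x hx hwx => ⟨(hE.mem x hx (hc x hwx)).1, ?_⟩, fun a ha haw => ?_,
    fun x hx hx' h0 => hE.nonneg x hx (hc x hx') h0,
    fun a ha b hb x hx hx' => hE.bimod a ha b hb x hx (hc x hx'),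
    fun D hne hdir hD y hy => hE.normal D hne hdir (fun x hx => ⟨(hD x hx).1, hc x (hD x hx).2⟩)
      y hy⟩
  · have h1 := hE.bimod w hw 1 (one_mem A) x hx (hc x hwx)
    have h2 : w * x = x := by rw [← hwx, ← mul_assoc, ← mul_assoc, hww]
    rw [mul_one, mul_one, h2] at h1
    exact h1.symm
  · exact hE.idem a ha (by rw [← haw, ← mul_assoc, hzw])

/-- growth of the so-paving number, for all maximal abelian subalgebras -/
theorem growth_types (hA : SO.IsMASA A M) :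
    ∃ z, SO.IsLargestExpected M A z ∧
      (∀ N : ℕ, SO.IsSumOfAbelian M A z N →
        ∀ ε : ℝ, 0 < ε → SO.pavingNumber M A 1 ε ≤ (N + (⌊1 / ε⌋₊ + 1) : ℕ)) ∧
      ∀ w ∈ A, IsStarProjection w → w ≤ z →
        ((SO.IsSemifinite M 1 ∨ SO.IsSemifinite M w) ∧ (∀ N : ℕ, ¬ SO.IsSumOfAbelian M A w N) ∨
          ∃ M' : VonNeumannAlgebra H, (∀ x ∈ M', x ∈ M) ∧ C.IsCartanMASA A M' ∧
            ∀ N : ℕ, ¬ SO.IsSumOfAbelian M' A w N) →
        ∀ ε : ℝ, 0 < ε → ⌈1 / ε ^ 2⌉₊ ≤ SO.pavingNumber M A 1 ε := by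
  obtain ⟨z, hz, -, -, h3, -⟩ := growth_all hA
  obtain ⟨⟨hzA, hzp, E, hE⟩, hmax⟩ := id hz
  refine ⟨z, hz, h3, fun w hwA hwp hwz h ε hε => ?_⟩
  have hzw : z * w = w := (IsStarProjection.le_iff_mul_eq_right hwp hzp).1 hwz
  have hwz' : w * z = w := by rw [hA.2.1 _ hwA _ hzA, hzw]
  have hEw := expectation_mono hwp.isIdempotentElem.eq hzw hwz' hwA hE
  rcases h with ⟨hsf, hinf⟩ | ⟨M', hM', hC, hinf⟩
  · obtain ⟨ι, η, hη⟩ : SO.IsSemifinite M w := hsf.elim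
      (fun h => Vale.Agent.P078.G.isSemifinite_corner h hwp) id
    exact quadratic_general hA hwA hwp hEw hη hinf hε
  · exact quadratic_cartan hM' hA hC hwA hwp (SO.isNormalExpectation_iff.1 hEw) hinf hε

end Vale.Agent.P078.WG
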