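import Vale.Agent.P078.H598.Rate1
import Vale.Agent.P078.Bdl.Fast

set_option linter.all false
attribute [local instance] Vale.Agent.P078.Fast.a01 Vale.Agent.P078.Fast.a02
  Vale.Agent.P078.Fast.a03 Vale.Agent.P078.Fast.a04 Vale.Agent.P078.Fast.a05
  Vale.Agent.P078.Fast.a06 Vale.Agent.P078.Fast.a07 Vale.Agent.P078.Fast.a08
  Vale.Agent.P078.Fast.a09 Vale.Agent.P078.Fast.a10 Vale.Agent.P078.Fast.a11
  Vale.Agent.P078.Fast.a12 Vale.Agent.P078.Fast.a13 Vale.Agent.P078.Fast.a14
  Vale.Agent.P078.Fast.a15 Vale.Agent.P078.Fast.a16 Vale.Agent.P078.Fast.a17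
  Vale.Agent.P078.Fast.a18 Vale.Agent.P078.Fast.a19 Vale.Agent.P078.Fast.a20
  Vale.Agent.P078.Fast.a21 Vale.Agent.P078.Fast.a22 Vale.Agent.P078.Fast.a23
  Vale.Agent.P078.Fast.a24 Vale.Agent.P078.Fast.a25 Vale.Agent.P078.Fast.a26
  Vale.Agent.P078.Fast.a27 Vale.Agent.P078.Fast.a28 Vale.Agent.P078.Fast.a29
  Vale.Agent.P078.Fast.a30 Vale.Agent.P078.Fast.a31 Vale.Agent.P078.Fast.a32
  Vale.Agent.P078.Fast.a33 Vale.Agent.P078.Fast.a34 Vale.Agent.P078.Fast.a35
  Vale.Agent.P078.Fast.a36 Vale.Agent.P078.Fast.a37 Vale.Agent.P078.Fast.a38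
  Vale.Agent.P078.Fast.a39 Vale.Agent.P078.Fast.a40 Vale.Agent.P078.Fast.a41
  Vale.Agent.P078.Fast.a42 Vale.Agent.P078.Fast.a43 Vale.Agent.P078.Fast.a44
  Vale.Agent.P078.Fast.a45 Vale.Agent.P078.Fast.a46 Vale.Agent.P078.Fast.a47
  Vale.Agent.P078.Fast.a48 Vale.Agent.P078.Fast.a49 Vale.Agent.P078.Fast.a50
  Vale.Agent.P078.Fast.a51 Vale.Agent.P078.Fast.a52 Vale.Agent.P078.Fast.a53
  Vale.Agent.P078.Fast.a54

/-! Rates of growth of the so-paving number: abelian parts, frames from minimal projections. -/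

namespace Vale.Agent.P078

open Filter Topology
open scoped InnerProductSpace

variable {H : Type*} [NormedAddCommGroup H] [InnerProductSpace ℂ H] [CompleteSpace H]
variable {M : VonNeumannAlgebra H} {A : StarSubalgebra ℂ (H →L[ℂ] H)}

/-- `z` is the sum of `N` mutually orthogonal projections `f` of `A` with `f M f ⊆ A` -/
def SumAbelian (M : VonNeumannAlgebra H) (A : StarSubalgebra ℂ (H →L[ℂ] H)) (z : H →L[ℂ] H)
    (N : ℕ) : Prop :=
  ∃ f : Fin N → (H →L[ℂ] H),
    (∀ i, f i ∈ A ∧ IsStarProjection (f i) ∧ ∀ x ∈ M, f i * x * f i ∈ A) ∧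
    (∀ i j, i ≠ j → f i * f j = 0) ∧ ∑ i, f i = z

theorem proj_opNorm_le {p : H →L[ℂ] H} (hp : IsStarProjection p) : ‖p‖ ≤ 1 :=
  ContinuousLinearMap.opNorm_le_bound _ zero_le_one fun v => by
    rw [one_mul]; exact proj_norm_le hp v

theorem SumAbelian.jPav {z : H →L[ℂ] H} (hz : z ∈ A) (hzp : IsStarProjection z) {N : ℕ}
    (h : SumAbelian M A z N) (hAM : ∀ a ∈ A, a ∈ M) {k : ℕ} {x : Fin k → (H →L[ℂ] H)}
    (hx : ∀ j, x j ∈ M) (hxs : ∀ j, IsSelfAdjoint (x j)) {ε : ℝ} (hε : 0 ≤ ε) :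
    JPav M A z x ε N := by
  classical
  obtain ⟨f, hf, ho, hs⟩ := h
  intro F hF δ hδ
  have hzf : ∀ i, z * f i = f i := by
    intro i
    rw [← hs, Finset.sum_mul, Finset.sum_eq_single i]
    · exact (hf i).2.1.isIdempotentElem.eq
    · intro j _ hj
      exact ho j i hj
    · intro hi
      exact absurd (Finset.mem_univ i) hi
  have hfz : ∀ i, f i * z = f i := by
    intro i
    rw [← hs, Finset.mul_sum, Finset.sum_eq_single i]
    · exact (hf i).2.1.isIdempotentElem.eq
    · intro j _ hj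
      exact ho i j hj.symm
    · intro hi
      exact absurd (Finset.mem_univ i) hi
  have hzz : z * z = z := hzp.isIdempotentElem.eq
  let P : Part A :=
    { ι := Option (Fin N)
      e := fun o => o.elim (1 - z) f
      mem := fun o => by
        cases o with
        | none => exact sub_mem (one_mem A) hz
        | some i => exact (hf i).1
      proj := fun o => by
        cases o with
        | none => exact hzp.one_sub
        | some i => exact (hf i).2.1
      orth := fun o o' hoo => by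
        cases o with
        | none =>
          cases o' with
          | none => exact absurd rfl hoo
          | some j =>
            change (1 - z) * f j = 0
            rw [sub_mul, one_mul, hzf, sub_self]
        | some i =>
          cases o' with
          | none =>
            change f i * (1 - z) = 0
            rw [mul_sub, mul_one, hfz, sub_self]
          | some j => exact ho i j fun h => hoo (by rw [h])
      sum_eq := by
        rw [Fintype.sum_option]
        change (1 - z) + ∑ i, f i = 1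
        rw [hs]
        abel }
  have hE : ∀ y : H →L[ℂ] H, z * P.E y = ∑ i, f i * y * f i := by
    intro y
    have h1 : P.E y = (1 - z) * y * (1 - z) + ∑ i, f i * y * f i := by
      have h0 : P.E y = ∑ o : Option (Fin N), (o.elim (1 - z) f) * y * (o.elim (1 - z) f) := rfl
      rw [h0, Fintype.sum_option]
      rfl
    have hz1 : z * (1 - z) = 0 := by rw [mul_sub, mul_one, hzz, sub_self]
    rw [h1, mul_add, ← mul_assoc, ← mul_assoc, hz1, zero_mul, zero_mul, zero_add,
      Finset.mul_sum]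
    refine Finset.sum_congr rfl fun i _ => ?_
    rw [← mul_assoc, ← mul_assoc, hzf]
  refine ⟨f, fun j => ∑ i, f i * x j * f i, z, fun i => ⟨(hf i).1, (hf i).2.1⟩, ho, hs,
    fun j => ⟨sum_mem fun i _ => (hf i).2.2 _ (hx j), ?_, ?_, ?_⟩, hAM z hz, hzz, hzp, ?_, ?_⟩
  · rw [Finset.mul_sum]
    refine Finset.sum_congr rfl fun i _ => ?_
    rw [← mul_assoc, ← mul_assoc, hzf]
  · rw [IsSelfAdjoint, star_sum]
    refine Finset.sum_congr rfl fun i _ => ?_
    rw [star_mul, star_mul, (hf i).2.1.isSelfAdjoint.star_eq, (hxs j).star_eq, mul_assoc]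
  · change ‖∑ i, f i * x j * f i‖ ≤ ‖x j‖
    rw [← hE]
    calc ‖z * P.E (x j)‖ ≤ ‖z‖ * ‖P.E (x j)‖ := norm_mul_le _ _
      _ ≤ 1 * ‖x j‖ := mul_le_mul (proj_opNorm_le hzp) (P.norm_E_le _) (norm_nonneg _) zero_le_one
      _ = ‖x j‖ := one_mul _
  · intro ξ hξ
    rw [hF ξ hξ, sub_self, norm_zero]
    exact hδ
  · intro j
    rw [sub_self, mul_zero, zero_mul, norm_zero]
    exact mul_nonneg hε (norm_nonneg _)

/-- complementary corners: `N` pieces for an abelian part, `⌊1/ε⌋ + 1` for a small part -/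
theorem joint_le_of_small {M A : VonNeumannAlgebra H} (hA : SO.IsMASA A M) {z : H →L[ℂ] H}
    (hzA : z ∈ A) (hzp : IsStarProjection z) (hS : SmallProp M A.toStarSubalgebra (1 - z)) {N : ℕ}
    (h : SumAbelian M A.toStarSubalgebra z N) {ε : ℝ} (hε : 0 < ε) (k : ℕ) :
    SO.jointPavingNumber M A k ε ≤ ((N + (⌊1 / ε⌋₊ + 1) : ℕ) : ℕ∞) := by
  have hA' := SO.IsMASA.toStar hA
  have hwA : 1 - z ∈ A.toStarSubalgebra := sub_mem (one_mem A) hzA
  have hzM : z ∈ M := hA.1 z hzA
  have hwM : 1 - z ∈ M := hA.1 (1 - z) hwA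
  have hww : (1 - z) * (1 - z) = 1 - z := hzp.one_sub.isIdempotentElem
  refine iInf₂_le (f := fun (r : ℕ) (_ : r ∈ {r : ℕ | 1 ≤ r ∧ ∀ x : Fin k → (H →L[ℂ] H),
    (∀ j, x j ∈ M ∧ IsSelfAdjoint (x j)) → SO.JointlySOPavable M A x ε r}) => (r : ℕ∞)) _
    ⟨by omega, fun x hx => WG.joint_of_jPav ?_⟩
  refine JPav.glue hA' hzA hzp hε.le
    (SumAbelian.jPav hzA hzp h (fun a ha => hA.1 a ha)
      (fun j => mul_mem (mul_mem hzM (hx j).1) hzM) (fun j => ?_) hε.le)
    (hS.jPav hA' hwA hzp.one_sub (fun j => mul_mem (mul_mem hwM (hx j).1) hwM) (fun j => ?_)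
      (fun j => ?_) (Nat.succ_pos _) (one_div_floor_lt hε))
  · rw [IsSelfAdjoint, star_mul, star_mul, hzp.isSelfAdjoint.star_eq, (hx j).2.star_eq, mul_assoc]
  · rw [IsSelfAdjoint, star_mul, star_mul, hzp.one_sub.isSelfAdjoint.star_eq, (hx j).2.star_eq,
      mul_assoc]
  · exact corner_corner hww (x j)

end Vale.Agent.P078
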