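import Vale.Agent.P078.H598.Rate19
import Vale.Agent.P078.Bdl.Fast

set_option linter.all false
attribute [local instance] Vale.Agent.P078.Fast.a01 Vale.Agent.P078.Fast.a02
  Vale.Agent.P078.Fast.a03 Vale.Agent.P078.Fast.a04 Vale.Agent.P078.Fast.a05
  Vale.Agent.P078.Fast.a06 Vale.Agent.P078.Fast.a07 Vale.Agent.P078.Fast.a08
  Vale.Agent.P078.Fast.a09 Vale.Agent.P078.Fast.a10 Vale.Agent.P078.Fast.a11
  Vale.Agent.P078.Fast.a12 Vale.Agent.P078.Fast.a13 Vale.Agent.P078.Fast.a14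
  Vale.Agent.P078.Fast.a15 Vale.Agent.P078.Fast.a16 Vale.Agent.P078.Fast.a17
  Vale.Agent.P078.Fast.a18 Vale.Agent.P078.Fast.a19 Vale.Agent.P078.Fast.a20
  Vale.Agent.P078.Fast.a21 Vale.Agent.P078.Fast.a22 Vale.Agent.P078.Fast.a23
  Vale.Agent.P078.Fast.a24 Vale.Agent.P078.Fast.a25 Vale.Agent.P078.Fast.a26
  Vale.Agent.P078.Fast.a27 Vale.Agent.P078.Fast.a28 Vale.Agent.P078.Fast.a29
  Vale.Agent.P078.Fast.a30 Vale.Agent.P078.Fast.a31 Vale.Agent.P078.Fast.a32
  Vale.Agent.P078.Fast.a33 Vale.Agent.P078.Fast.a34 Vale.Agent.P078.Fast.a35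
  Vale.Agent.P078.Fast.a36 Vale.Agent.P078.Fast.a37 Vale.Agent.P078.Fast.a38
  Vale.Agent.P078.Fast.a39 Vale.Agent.P078.Fast.a40 Vale.Agent.P078.Fast.a41
  Vale.Agent.P078.Fast.a42 Vale.Agent.P078.Fast.a43 Vale.Agent.P078.Fast.a44
  Vale.Agent.P078.Fast.a45 Vale.Agent.P078.Fast.a46 Vale.Agent.P078.Fast.a47
  Vale.Agent.P078.Fast.a48 Vale.Agent.P078.Fast.a49 Vale.Agent.P078.Fast.a50
  Vale.Agent.P078.Fast.a51 Vale.Agent.P078.Fast.a52 Vale.Agent.P078.Fast.a53
  Vale.Agent.P078.Fast.a54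

/-! Rates of growth of the joint so-paving number: frames of normalizing partial isometries and
several operators. -/

namespace Vale.Agent.P078

open Filter Topology Vale.Agent.P078.C Vale.Agent.P078.G
open scoped InnerProductSpace

universe u

variable {H : Type u} [NormedAddCommGroup H] [InnerProductSpace ℂ H] [CompleteSpace H]
variable {M A : VonNeumannAlgebra H}

/-- normalizing matrix units -/
structure NFrame (M A : VonNeumannAlgebra H) (g : H →L[ℂ] H) {ι : Type}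
    (v : ι → (H →L[ℂ] H)) : Prop where
  gA : g ∈ A
  gP : IsStarProjection g
  vM : ∀ i, v i ∈ M
  vv : ∀ i, star (v i) * v i = g
  vo : ∀ i j, i ≠ j → star (v i) * v j = 0
  vA : ∀ i, ∀ a ∈ A, v i * a * star (v i) ∈ A ∧ star (v i) * a * v i ∈ A

namespace NFrame

variable {g : H →L[ℂ] H} {ι : Type} {v : ι → (H →L[ℂ] H)} (Fr : NFrame M A g v)
include Fr

theorem vg (l : ι) : v l * g = v l := by
  have hgg : g * g = g := Fr.gP.isIdempotentElem.eq
  have h2 : star (v l * g - v l) * (v l * g - v l) = 0 := by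
    have h3 : star (v l) * v l = g := Fr.vv l
    rw [star_sub, star_mul, Fr.gP.isSelfAdjoint.star_eq, sub_mul, mul_sub, mul_sub]
    have e1 : g * star (v l) * (v l * g) = g := by
      rw [mul_assoc, ← mul_assoc (star (v l)), h3, hgg, hgg]
    have e2 : g * star (v l) * v l = g := by rw [mul_assoc, h3, hgg]
    have e3 : star (v l) * (v l * g) = g := by rw [← mul_assoc, h3, hgg]
    rw [e1, e2, e3, h3, sub_self]
  exact sub_eq_zero.1 ((CStarRing.star_mul_self_eq_zero_iff _).1 h2)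

theorem gv (l : ι) : g * star (v l) = star (v l) := by
  have := congrArg star (Fr.vg l)
  rwa [star_mul, Fr.gP.isSelfAdjoint.star_eq] at this

theorem eA (l : ι) : v l * star (v l) ∈ A := by
  have := (Fr.vA l 1 (one_mem A)).1
  rwa [mul_one] at this

theorem vvv (l : ι) : v l * star (v l) * v l = v l := by rw [mul_assoc, Fr.vv, Fr.vg]

theorem svv (l : ι) : star (v l) * (v l * star (v l)) = star (v l) := by
  rw [← mul_assoc, Fr.vv, Fr.gv]

theorem eP (l : ι) : IsStarProjection (v l * star (v l)) := by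
  refine ⟨?_, IsSelfAdjoint.mul_star_self _⟩
  change v l * star (v l) * (v l * star (v l)) = v l * star (v l)
  rw [← mul_assoc, Fr.vvv]

theorem vpo (hA : SO.IsMASA A M) {p : H →L[ℂ] H} (hp : p ∈ A) {k l : ι} (hkl : k ≠ l) :
    star (v k) * p * v l = 0 := by
  have h1 : v k * star (v k) * p = p * (v k * star (v k)) := hA.2.1 _ (Fr.eA k) _ hp
  calc star (v k) * p * v l = star (v k) * (v k * star (v k)) * p * v l := by rw [Fr.svv]
    _ = star (v k) * (v k * star (v k) * p) * v l := by simp only [mul_assoc]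
    _ = star (v k) * p * v k * (star (v k) * v l) := by rw [h1]; simp only [mul_assoc]
    _ = 0 := by rw [Fr.vo k l hkl, mul_zero]

theorem vp (hA : SO.IsMASA A M) {p : H →L[ℂ] H} (hp : p ∈ A) (k : ι) :
    v k * (star (v k) * p * v k) = p * v k := by
  have h1 : v k * star (v k) * p = p * (v k * star (v k)) := hA.2.1 _ (Fr.eA k) _ hp
  rw [← mul_assoc, ← mul_assoc, h1, mul_assoc, Fr.vvv]

theorem mulp (hA : SO.IsMASA A M) {p p' : H →L[ℂ] H} (hp' : p' ∈ A) (k : ι) :
    (star (v k) * p * v k) * (star (v k) * p' * v k) = star (v k) * (p * p') * v k := by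
  rw [mul_assoc (star (v k) * p), Fr.vp hA hp']
  simp only [mul_assoc]

theorem vn_sq (l : ι) (η : H) : ‖v l η‖ ^ 2 = ‖g η‖ ^ 2 := by
  have h1 : ⟪v l η, v l η⟫_ℂ = ⟪η, g η⟫_ℂ := by
    have := star_apply_inner (star (v l)) η (v l η)
    rw [star_star] at this
    rw [this, ← Fr.vv l]
    rfl
  have h2 := proj_inner_self Fr.gP η
  rw [← h1, inner_self_re] at h2
  exact h2

theorem vn (l : ι) (η : H) : ‖v l η‖ = ‖g η‖ :=
  (sq_eq_sq₀ (norm_nonneg _) (norm_nonneg _)).1 (Fr.vn_sq l η)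

theorem orth {k l : ι} (hkl : k ≠ l) (η η' : H) : ⟪v k η, v l η'⟫_ℂ = 0 := by
  have h1 : ⟪v k η, v l η'⟫_ℂ = ⟪η, (star (v k) * v l) η'⟫_ℂ := by
    have := star_apply_inner (star (v k)) η (v l η')
    rw [star_star] at this
    exact this
  rw [h1, Fr.vo k l hkl, zero_apply, inner_zero_right]

end NFrame

/-- the operator of a matrix -/
noncomputable def mop {ι : Type} [Fintype ι] (v : ι → (H →L[ℂ] H)) (X : ι → ι → ℝ) :
    H →L[ℂ] H := ∑ i, ∑ j, ((X i j : ℝ) : ℂ) • (v i * star (v j))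

section mop

variable {g : H →L[ℂ] H} {ι : Type} [Fintype ι] {v : ι → (H →L[ℂ] H)}

theorem mop_mem (Fr : NFrame M A g v) (X : ι → ι → ℝ) : mop v X ∈ M :=
  sum_mem fun i _ => sum_mem fun j _ =>
    M.toStarSubalgebra.smul_mem (mul_mem (Fr.vM i) (star_mem (Fr.vM j))) _

theorem mop_sa (v : ι → (H →L[ℂ] H)) {X : ι → ι → ℝ} (hX : ∀ i j, X i j = X j i) :
    IsSelfAdjoint (mop v X) := by
  rw [IsSelfAdjoint]
  unfold mop
  simp only [star_sum, star_smul, star_mul, star_star, Complex.star_def, Complex.conj_ofReal]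
  rw [Finset.sum_comm]
  refine Finset.sum_congr rfl fun i _ => Finset.sum_congr rfl fun j _ => ?_
  rw [hX]

theorem mop_norm [DecidableEq ι] (Fr : NFrame M A g v) {X : ι → ι → ℝ}
    (ho : ∀ i l, ∑ j, X j i * X j l = if i = l then (1 : ℝ) else 0) : ‖mop v X‖ ≤ 1 := by
  classical
  refine ContinuousLinearMap.opNorm_le_bound _ zero_le_one fun ζ => ?_
  rw [one_mul]
  have h1 : mop v X ζ = ∑ i, v i (∑ j, ((X i j : ℝ) : ℂ) • star (v j) ζ) := by
    unfold mop
    rw [_root_.sum_apply]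
    refine Finset.sum_congr rfl fun i _ => ?_
    rw [_root_.sum_apply, map_sum]
    refine Finset.sum_congr rfl fun j _ => ?_
    rw [map_smul]
    rfl
  have h2 : ‖mop v X ζ‖ ^ 2 ≤ ‖ζ‖ ^ 2 := by
    rw [h1, norm_sum_sq_of_orth _ _ fun i _ j _ hij => Fr.orth hij _ _]
    have h3 : ∀ i, ‖v i (∑ j, ((X i j : ℝ) : ℂ) • star (v j) ζ)‖ ^ 2 ≤
        ‖∑ j, ((X i j : ℝ) : ℂ) • star (v j) ζ‖ ^ 2 := by
      intro i
      rw [Fr.vn]
      exact pow_le_pow_left₀ (norm_nonneg _) (proj_norm_le Fr.gP _) 2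
    refine (Finset.sum_le_sum fun i _ => h3 i).trans ?_
    have h4 : ∑ i, ‖∑ j, ((X i j : ℝ) : ℂ) • star (v j) ζ‖ ^ 2 = ∑ j, ‖star (v j) ζ‖ ^ 2 := by
      have h5 : ∀ i, ‖∑ j, ((X i j : ℝ) : ℂ) • star (v j) ζ‖ ^ 2 =
          ∑ j, ∑ l, X i j * X i l * (⟪star (v j) ζ, star (v l) ζ⟫_ℂ).re := by
        intro i
        rw [← inner_self_re, sum_inner, Complex.re_sum]
        refine Finset.sum_congr rfl fun j _ => ?_
        rw [inner_sum, Complex.re_sum]
        refine Finset.sum_congr rfl fun l _ => ?_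
        rw [inner_smul_left, inner_smul_right, Complex.conj_ofReal, ← mul_assoc,
          ← Complex.ofReal_mul, Complex.re_ofReal_mul]
      simp_rw [h5]
      rw [Finset.sum_comm]
      refine Finset.sum_congr rfl fun j _ => ?_
      rw [Finset.sum_comm]
      simp_rw [← Finset.sum_mul, ho]
      rw [Finset.sum_eq_single j]
      · rw [if_pos rfl, one_mul, inner_self_re]
      · intro l _ hl
        rw [if_neg (Ne.symm hl), zero_mul]
      · intro hi
        exact absurd (Finset.mem_univ j) hi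
    rw [h4]
    have h6 : ∀ j, ‖star (v j) ζ‖ ^ 2 = ‖(v j * star (v j)) ζ‖ ^ 2 := by
      intro j
      rw [← proj_inner_self (Fr.eP j)]
      have h7 : ⟪ζ, (v j * star (v j)) ζ⟫_ℂ = ⟪star (v j) ζ, star (v j) ζ⟫_ℂ :=
        (star_apply_inner (v j) ζ (star (v j) ζ)).symm
      rw [h7, inner_self_re]
    simp_rw [h6]
    have h8 : ∑ j, ‖(v j * star (v j)) ζ‖ ^ 2 = ‖(∑ j, v j * star (v j) : H →L[ℂ] H) ζ‖ ^ 2 := by
      rw [_root_.sum_apply, norm_sum_sq_of_orth _ _ fun i _ j _ hij => ?_]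
      exact Fr.orth hij _ _
    rw [h8]
    have h9 : IsStarProjection (∑ j, v j * star (v j)) := by
      refine ⟨?_, isSelfAdjoint_sum _ fun j _ => (Fr.eP j).isSelfAdjoint⟩
      change (∑ j, v j * star (v j)) * (∑ j, v j * star (v j)) = ∑ j, v j * star (v j)
      rw [Finset.sum_mul_sum]
      refine Finset.sum_congr rfl fun i _ => ?_
      rw [Finset.sum_eq_single i]
      · exact (Fr.eP i).isIdempotentElem.eq
      · intro j _ hj
        rw [mul_assoc, ← mul_assoc (star (v i)), Fr.vo i j (Ne.symm hj), zero_mul, mul_zero]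
      · intro hi
        exact absurd (Finset.mem_univ i) hi
    exact pow_le_pow_left₀ (norm_nonneg _) (proj_norm_le h9 _) 2
  exact (sq_le_sq₀ (norm_nonneg _) (norm_nonneg _)).mp h2

theorem mop_compress [DecidableEq ι] (hA : SO.IsMASA A M) (Fr : NFrame M A g v) (X : ι → ι → ℝ)
    {p : H →L[ℂ] H} (hp : p ∈ A) (s t : ι) :
    star (v s) * (p * mop v X * p) * v t =
      ((X s t : ℝ) : ℂ) • ((star (v s) * p * v s) * (star (v t) * p * v t)) := by
  unfold mop
  have h1 : star (v s) * (p * (∑ i, ∑ j, ((X i j : ℝ) : ℂ) • (v i * star (v j))) * p) * v t =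
      ∑ i, ∑ j, ((X i j : ℝ) : ℂ) • ((star (v s) * p * v i) * (star (v j) * p * v t)) := by
    simp only [Finset.mul_sum, Finset.sum_mul, mul_smul_comm, smul_mul_assoc, mul_assoc]
  rw [h1, Finset.sum_eq_single s]
  · rw [Finset.sum_eq_single t]
    · intro j _ hj
      rw [Fr.vpo hA hp hj, mul_zero, smul_zero]
    · intro hi
      exact absurd (Finset.mem_univ t) hi
  · intro i _ hi
    refine Finset.sum_eq_zero fun j _ => ?_
    rw [Fr.vpo hA hp (Ne.symm hi), zero_mul, smul_zero]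
  · intro hi
    exact absurd (Finset.mem_univ s) hi

end mop

end Vale.Agent.P078
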