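import Vale.Agent.P078.H598.Rate20
import Vale.Agent.P078.Bdl.Fast

set_option linter.all false
attribute [local instance] Vale.Agent.P078.Fast.a01 Vale.Agent.P078.Fast.a02
  Vale.Agent.P078.Fast.a03 Vale.Agent.P078.Fast.a04 Vale.Agent.P078.Fast.a05
  Vale.Agent.P078.Fast.a06 Vale.Agent.P078.Fast.a07 Vale.Agent.P078.Fast.a08
  Vale.Agent.P078.Fast.a09 Vale.Agent.P078.Fast.a10 Vale.Agent.P078.Fast.a11
  Vale.Agent.P078.Fast.a12 Vale.Agent.P078.Fast.a13 Vale.Agent.P078.Fast.a14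
  Vale.Agent.P078.Fast.a15 Vale.Agent.P078.Fast.a16 Vale.Agent.P078.Fast.a17
  Vale.Agent.P078.Fast.a18 Vale.Agent.P078.Fast.a19 Vale.Agent.P078.Fast.a20
  Vale.Agent.P078.Fast.a21 Vale.Agent.P078.Fast.a22 Vale.Agent.P078.Fast.a23
  Vale.Agent.P078.Fast.a24 Vale.Agent.P078.Fast.a25 Vale.Agent.P078.Fast.a26
  Vale.Agent.P078.Fast.a27 Vale.Agent.P078.Fast.a28 Vale.Agent.P078.Fast.a29
  Vale.Agent.P078.Fast.a30 Vale.Agent.P078.Fast.a31 Vale.Agent.P078.Fast.a32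
  Vale.Agent.P078.Fast.a33 Vale.Agent.P078.Fast.a34 Vale.Agent.P078.Fast.a35
  Vale.Agent.P078.Fast.a36 Vale.Agent.P078.Fast.a37 Vale.Agent.P078.Fast.a38
  Vale.Agent.P078.Fast.a39 Vale.Agent.P078.Fast.a40 Vale.Agent.P078.Fast.a41
  Vale.Agent.P078.Fast.a42 Vale.Agent.P078.Fast.a43 Vale.Agent.P078.Fast.a44
  Vale.Agent.P078.Fast.a45 Vale.Agent.P078.Fast.a46 Vale.Agent.P078.Fast.a47
  Vale.Agent.P078.Fast.a48 Vale.Agent.P078.Fast.a49 Vale.Agent.P078.Fast.a50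
  Vale.Agent.P078.Fast.a51 Vale.Agent.P078.Fast.a52 Vale.Agent.P078.Fast.a53
  Vale.Agent.P078.Fast.a54

/-! Rates of growth of the joint so-paving number: counting. -/

namespace Vale.Agent.P078

open Filter Topology Vale.Agent.P078.C Vale.Agent.P078.G
open scoped InnerProductSpace

universe u

variable {H : Type u} [NormedAddCommGroup H] [InnerProductSpace ℂ H] [CompleteSpace H]
variable {M A : VonNeumannAlgebra H}

theorem isStarProjection_sum' {κ : Type*} [Fintype κ] {p : κ → (H →L[ℂ] H)}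
    (hp : ∀ i, IsStarProjection (p i)) (ho : ∀ i j, i ≠ j → p i * p j = 0) :
    IsStarProjection (∑ i, p i) := by
  refine ⟨?_, isSelfAdjoint_sum _ fun j _ => (hp j).isSelfAdjoint⟩
  change (∑ i, p i) * (∑ i, p i) = ∑ i, p i
  rw [Finset.sum_mul_sum]
  refine Finset.sum_congr rfl fun i _ => ?_
  rw [Finset.sum_eq_single i]
  · exact (hp i).isIdempotentElem.eq
  · intro j _ hj
    exact ho i j (Ne.symm hj)
  · intro hi
    exact absurd (Finset.mem_univ i) hi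

/-- the inequality of a frame for several operators -/
theorem joint_vec (hA : SO.IsMASA A M) {g : H →L[ℂ] H} {ι : Type} [Fintype ι] [DecidableEq ι]
    {v : ι → (H →L[ℂ] H)} (Fr : NFrame M A g v) {k : ℕ} {X : Fin k → ι → ι → ℝ}
    (hXn : ∀ l, ‖mop v (X l)‖ ≤ 1) {ε c : ℝ} (hε : 0 ≤ ε) (hc : ε < c)
    (hpair : ∀ s t, s ≠ t → ∃ l, c ≤ |X l s t|) {r : ℕ} (hr : 0 < r)
    {p : Fin r → (H →L[ℂ] H)} (hp : ∀ i, p i ∈ A ∧ IsStarProjection (p i))
    (hpo : ∀ i j, i ≠ j → p i * p j = 0) (hps : ∑ i, p i = 1) {a : Fin k → (H →L[ℂ] H)}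
    (haA : ∀ l, a l ∈ A) (ha1 : ∀ l, ‖a l‖ ≤ 1) {q : H →L[ℂ] H} (hq : IsStarProjection q)
    (hqS : ∀ l, ‖q * (∑ i, p i * mop v (X l) * p i - a l) * q‖ ≤ ε) :
    ∃ z : ι → ι → (H →L[ℂ] H), (∀ s t, z s t ∈ A ∧ IsStarProjection (z s t)) ∧ ∀ ζ : H,
      ((Fintype.card ι : ℝ) ^ 2 / r - Fintype.card ι) * ‖g ζ‖ ^ 2 ≤
        8 / (c - ε) ^ 2 * ∑ s, ∑ t, (‖v s (z s t ζ) - q (v s (z s t ζ))‖ ^ 2 +
          ‖v t (z s t ζ) - q (v t (z s t ζ))‖ ^ 2) := by
  have hcA := hA.2.1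
  obtain ⟨y, hy⟩ : ∃ y : Fin r → ι → (H →L[ℂ] H), y = fun i l => star (v l) * p i * v l :=
    ⟨_, rfl⟩
  have hyA : ∀ i l, y i l ∈ A := fun i l => by rw [hy]; exact (Fr.vA l _ (hp i).1).2
  have hyp : ∀ i l, IsStarProjection (y i l) := by
    intro i l
    rw [hy]
    refine ⟨?_, ?_⟩
    · change star (v l) * p i * v l * (star (v l) * p i * v l) = star (v l) * p i * v l
      rw [Fr.mulp hA (hp i).1, (hp i).2.isIdempotentElem.eq]
    · rw [IsSelfAdjoint]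
      simp only
      rw [star_mul, star_mul, star_star, (hp i).2.isSelfAdjoint.star_eq, mul_assoc]
  have hyo : ∀ i j, i ≠ j → ∀ l, y i l * y j l = 0 := by
    intro i j hij l
    rw [hy]
    simp only
    rw [Fr.mulp hA (hp j).1, hpo i j hij, mul_zero, zero_mul]
  have hys : ∀ l, ∑ i, y i l = g := by
    intro l
    rw [hy]
    simp only
    rw [← Finset.sum_mul, ← Finset.mul_sum, hps, mul_one, Fr.vv]
  have hgy : ∀ i l, g * y i l = y i l := by
    intro i l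
    rw [hy]
    simp only
    rw [← mul_assoc, ← mul_assoc, Fr.gv]
  obtain ⟨z, hz⟩ : ∃ z : ι → ι → (H →L[ℂ] H), z = fun k l => ∑ i, y i k * y i l := ⟨_, rfl⟩
  have hzA : ∀ k l, z k l ∈ A := fun k l => by
    rw [hz]; exact sum_mem fun i _ => mul_mem (hyA i k) (hyA i l)
  have hzp : ∀ k l, IsStarProjection (z k l) := fun k l => by
    rw [hz]
    refine isStarProjection_sum' (fun i => mul_proj_of_comm (hyp i k) (hyp i l)
      (hcA _ (hyA i k) _ (hyA i l))) fun i j hij => ?_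
    have h1 : y i l * y j k = y j k * y i l := hcA _ (hyA i l) _ (hyA j k)
    calc y i k * y i l * (y j k * y j l) = y i k * (y i l * y j k) * y j l := by
          simp only [mul_assoc]
      _ = y i k * y j k * (y i l * y j l) := by rw [h1]; simp only [mul_assoc]
      _ = 0 := by rw [hyo i j hij, zero_mul]
  have hgz : ∀ k l, g * z k l = z k l := by
    intro k l
    rw [hz]
    simp only
    rw [Finset.mul_sum]
    exact Finset.sum_congr rfl fun i _ => by rw [← mul_assoc, hgy]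
  have hzd : ∀ l, z l l = g := by
    intro l
    rw [← hys l, hz]
    exact Finset.sum_congr rfl fun i _ => (hyp i l).isIdempotentElem.eq
  refine ⟨z, fun k l => ⟨hzA k l, hzp k l⟩, fun ζ => ?_⟩
  have hzn : ∀ k l, ‖z k l ζ‖ ^ 2 = ∑ i, (⟪y i k ζ, y i l ζ⟫_ℂ).re := by
    intro k l
    rw [← proj_inner_self (hzp k l), hz]
    simp only
    rw [_root_.sum_apply, inner_sum, Complex.re_sum]
    refine Finset.sum_congr rfl fun i _ => ?_
    rw [proj_inner (hyp i k)]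
    rfl
  have hr0 : (0 : ℝ) < r := by exact_mod_cast hr
  obtain ⟨N, hN⟩ : ∃ N : ℝ, N = (Fintype.card ι : ℝ) := ⟨_, rfl⟩
  rw [← hN]
  have hN0 : 0 ≤ N := by rw [hN]; positivity
  have hlow : N ^ 2 / r * ‖g ζ‖ ^ 2 ≤ ∑ s, ∑ t, ‖z s t ζ‖ ^ 2 := by
    have h2 : ∑ s, ∑ t, ‖z s t ζ‖ ^ 2 = ∑ i, ‖∑ l, y i l ζ‖ ^ 2 := by
      simp_rw [hzn]
      calc ∑ s, ∑ t, ∑ i, (⟪y i s ζ, y i t ζ⟫_ℂ).re
          = ∑ s, ∑ i, ∑ t, (⟪y i s ζ, y i t ζ⟫_ℂ).re :=
            Finset.sum_congr rfl fun l _ => Finset.sum_comm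
        _ = ∑ i, ∑ s, ∑ t, (⟪y i s ζ, y i t ζ⟫_ℂ).re := Finset.sum_comm
        _ = _ := by
            refine Finset.sum_congr rfl fun i _ => ?_
            rw [← inner_self_re, sum_inner, Complex.re_sum]
            refine Finset.sum_congr rfl fun l _ => ?_
            rw [inner_sum, Complex.re_sum]
    have h4 : ∑ i, ∑ l, y i l ζ = (N : ℂ) • g ζ := by
      rw [Finset.sum_comm]
      have h5 : ∀ l, ∑ i, y i l ζ = g ζ := by
        intro l
        rw [← _root_.sum_apply, hys]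
      simp_rw [h5]
      rw [Finset.sum_const, Finset.card_univ, ← Nat.cast_smul_eq_nsmul ℂ, hN]
      push_cast
      rfl
    have h5 : ‖∑ i, ∑ l, y i l ζ‖ = N * ‖g ζ‖ := by
      rw [h4, norm_smul, Complex.norm_real, Real.norm_of_nonneg hN0]
    have h6 : N ^ 2 / r * ‖g ζ‖ ^ 2 = (N * ‖g ζ‖) ^ 2 / r := by ring
    rw [h2, h6, div_le_iff₀ hr0, ← h5]
    calc ‖∑ i, ∑ l, y i l ζ‖ ^ 2
        ≤ (∑ i, ‖∑ l, y i l ζ‖) ^ 2 := pow_le_pow_left₀ (norm_nonneg _) (norm_sum_le _ _) 2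
      _ ≤ (Finset.univ : Finset (Fin r)).card * ∑ i, ‖∑ l, y i l ζ‖ ^ 2 :=
          sq_sum_le_card_mul_sum_sq
      _ = _ := by rw [Finset.card_univ, Fintype.card_fin, mul_comm]
  obtain ⟨d, hd⟩ : ∃ d : ℝ, d = c - ε := ⟨_, rfl⟩
  have hd0 : 0 < d := by rw [hd]; linarith only [hc]
  rw [← hd]
  have hoff : ∀ s t, s ≠ t → ‖z s t ζ‖ ^ 2 ≤ 8 / d ^ 2 *
      (‖v s (z s t ζ) - q (v s (z s t ζ))‖ ^ 2 + ‖v t (z s t ζ) - q (v t (z s t ζ))‖ ^ 2) := by
    intro s t hst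
    obtain ⟨l, hl⟩ := hpair s t hst
    obtain ⟨S, hS⟩ : ∃ S, S = ∑ i, p i * mop v (X l) * p i - a l := ⟨_, rfl⟩
    have hqS' := hqS l
    rw [← hS] at hqS'
    have hSn : ‖S‖ ≤ 2 := by
      rw [hS]
      calc _ ≤ ‖∑ i, p i * mop v (X l) * p i‖ + ‖a l‖ := norm_sub_le _ _
        _ ≤ ‖mop v (X l)‖ + 1 := add_le_add
            (norm_pinch_le (A := A.toStarSubalgebra) hp hpo hps _) (ha1 l)
        _ ≤ 2 := by linarith only [hXn l]
    have hcomp : star (v s) * S * v t = ((X l s t : ℝ) : ℂ) • z s t := by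
      rw [hS, mul_sub, sub_mul, Fr.vpo hA (haA l) hst, sub_zero, Finset.mul_sum, Finset.sum_mul,
        hz]
      simp only
      rw [Finset.smul_sum]
      refine Finset.sum_congr rfl fun i _ => ?_
      rw [mop_compress hA Fr _ (hp i).1, hy]
    obtain ⟨w, hw⟩ : ∃ w, w = z s t ζ := ⟨_, rfl⟩
    have hzw : z s t w = w := by rw [hw]; exact proj_apply_apply (hzp s t) ζ
    have hgw : g w = w := by
      rw [← hzw]
      exact DFunLike.congr_fun (hgz s t) w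
    rw [← hw]
    have hvw : ∀ i, ‖v i w‖ = ‖w‖ := fun i => by rw [Fr.vn, hgw]
    have h1 : ⟪v s w, S (v t w)⟫_ℂ = ((X l s t * ‖w‖ ^ 2 : ℝ) : ℂ) := by
      have h2 : ⟪v s w, S (v t w)⟫_ℂ = ⟪w, (star (v s) * S * v t) w⟫_ℂ := by
        have := star_apply_inner (star (v s)) w (S (v t w))
        rw [star_star] at this
        exact this
      rw [h2, hcomp, smul_apply, inner_smul_right, hzw, inner_self_eq_norm_sq_to_K]
      push_cast
      rfl
    have h2 : ⟪v s w, S (v t w)⟫_ℂ = ⟪v s w, (q * S * q) (v t w)⟫_ℂ +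
        ⟪v s w - q (v s w), S (q (v t w))⟫_ℂ + ⟪v s w, S (v t w - q (v t w))⟫_ℂ := by
      have e1 : ⟪v s w, (q * S * q) (v t w)⟫_ℂ = ⟪q (v s w), S (q (v t w))⟫_ℂ := by
        rw [proj_inner hq]
        rfl
      rw [e1, map_sub, inner_sub_left, inner_sub_right]
      ring
    obtain ⟨α, hα⟩ : ∃ α, α = ‖v s w - q (v s w)‖ := ⟨_, rfl⟩
    obtain ⟨β, hβ⟩ : ∃ β, β = ‖v t w - q (v t w)‖ := ⟨_, rfl⟩
    obtain ⟨W, hW⟩ : ∃ W, W = ‖w‖ := ⟨_, rfl⟩
    have hα0 : 0 ≤ α := by rw [hα]; positivity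
    have hβ0 : 0 ≤ β := by rw [hβ]; positivity
    have hW0 : 0 ≤ W := by rw [hW]; positivity
    have h3 : ‖⟪v s w, (q * S * q) (v t w)⟫_ℂ‖ ≤ ε * W ^ 2 := by
      calc _ ≤ ‖v s w‖ * ‖(q * S * q) (v t w)‖ := norm_inner_le_norm _ _
        _ ≤ W * (ε * W) := by
            rw [hvw, ← hW]
            refine mul_le_mul_of_nonneg_left ?_ hW0
            refine ((q * S * q).le_of_opNorm_le hqS' _).trans ?_
            rw [hvw, ← hW]
        _ = _ := by ring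
    have h4 : ‖⟪v s w - q (v s w), S (q (v t w))⟫_ℂ‖ ≤ 2 * α * W := by
      calc _ ≤ ‖v s w - q (v s w)‖ * ‖S (q (v t w))‖ := norm_inner_le_norm _ _
        _ ≤ α * (2 * W) := by
            rw [← hα]
            refine mul_le_mul_of_nonneg_left ?_ hα0
            refine (S.le_of_opNorm_le hSn _).trans ?_
            refine mul_le_mul_of_nonneg_left ?_ zero_le_two
            refine (proj_norm_le hq _).trans ?_
            rw [hvw, ← hW]
        _ = _ := by ring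
    have h5 : ‖⟪v s w, S (v t w - q (v t w))⟫_ℂ‖ ≤ 2 * β * W := by
      calc _ ≤ ‖v s w‖ * ‖S (v t w - q (v t w))‖ := norm_inner_le_norm _ _
        _ ≤ W * (2 * β) := by
            rw [hvw, ← hW]
            refine mul_le_mul_of_nonneg_left ?_ hW0
            refine (S.le_of_opNorm_le hSn _).trans ?_
            rw [← hβ]
        _ = _ := by ring
    have h6 : c * W ^ 2 ≤ ε * W ^ 2 + 2 * α * W + 2 * β * W := by
      calc c * W ^ 2 ≤ |X l s t| * W ^ 2 := mul_le_mul_of_nonneg_right hl (sq_nonneg _)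
        _ = ‖⟪v s w, S (v t w)⟫_ℂ‖ := by
            rw [h1, Complex.norm_real, Real.norm_eq_abs, abs_mul, abs_of_nonneg (sq_nonneg ‖w‖),
              hW]
        _ ≤ ‖⟪v s w, (q * S * q) (v t w)⟫_ℂ‖ + ‖⟪v s w - q (v s w), S (q (v t w))⟫_ℂ‖ +
            ‖⟪v s w, S (v t w - q (v t w))⟫_ℂ‖ := by rw [h2]; exact norm_add₃_le
        _ ≤ _ := by linarith only [h3, h4, h5]
    have h7 : d * W ^ 2 ≤ 2 * (α + β) * W := by
      rw [hd]
      linarith only [h6]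
    have h8 : d ^ 2 * W ^ 2 ≤ 8 * (α ^ 2 + β ^ 2) := by
      have e1 : d * (d * W ^ 2) ≤ d * (2 * (α + β) * W) := mul_le_mul_of_nonneg_left h7 hd0.le
      nlinarith only [e1, sq_nonneg (d * W - 2 * (α + β)), sq_nonneg (α - β)]
    rw [← hα, ← hβ, ← hW]
    have h9 : 8 / d ^ 2 * (α ^ 2 + β ^ 2) = 8 * (α ^ 2 + β ^ 2) / d ^ 2 := by ring
    rw [h9, le_div_iff₀ (by positivity)]
    linarith only [h8]
  have hall : ∀ s t, ‖z s t ζ‖ ^ 2 ≤ 8 / d ^ 2 *
      (‖v s (z s t ζ) - q (v s (z s t ζ))‖ ^ 2 + ‖v t (z s t ζ) - q (v t (z s t ζ))‖ ^ 2) +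
        (if s = t then ‖g ζ‖ ^ 2 else 0) := by
    intro s t
    by_cases hst : s = t
    · rw [if_pos hst, ← hst, hzd]
      have : 0 ≤ 8 / d ^ 2 * (‖v s (g ζ) - q (v s (g ζ))‖ ^ 2 + ‖v s (g ζ) - q (v s (g ζ))‖ ^ 2) :=
        by positivity
      linarith only [this]
    · rw [if_neg hst, add_zero]
      exact hoff s t hst
  have hsum := Finset.sum_le_sum fun s (_ : s ∈ Finset.univ) =>
    Finset.sum_le_sum fun t (_ : t ∈ Finset.univ) => hall s t
  have hδ : ∑ s : ι, ∑ t : ι, (if s = t then ‖g ζ‖ ^ 2 else 0) = N * ‖g ζ‖ ^ 2 := by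
    have : ∀ s : ι, ∑ t : ι, (if s = t then ‖g ζ‖ ^ 2 else 0) = ‖g ζ‖ ^ 2 := by
      intro s
      rw [Finset.sum_ite_eq, if_pos (Finset.mem_univ s)]
    simp_rw [this]
    rw [Finset.sum_const, Finset.card_univ, nsmul_eq_mul, hN]
  simp_rw [Finset.sum_add_distrib] at hsum
  rw [hδ] at hsum
  have hfin : ∑ s, ∑ t, 8 / d ^ 2 * (‖v s (z s t ζ) - q (v s (z s t ζ))‖ ^ 2 +
      ‖v t (z s t ζ) - q (v t (z s t ζ))‖ ^ 2) = 8 / d ^ 2 * ∑ s, ∑ t,
      (‖v s (z s t ζ) - q (v s (z s t ζ))‖ ^ 2 + ‖v t (z s t ζ) - q (v t (z s t ζ))‖ ^ 2) := by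
    simp_rw [← Finset.mul_sum]
  rw [hfin] at hsum
  have h10 : (N ^ 2 / r - N) * ‖g ζ‖ ^ 2 = N ^ 2 / r * ‖g ζ‖ ^ 2 - N * ‖g ζ‖ ^ 2 := by ring
  rw [h10]
  linarith only [hlow, hsum]

/-- a frame with `card ι` elements needs `card ι` pieces -/
theorem joint_count (hA : SO.IsMASA A M) {ψ : (H →L[ℂ] H) →ₗ[ℂ] ℂ}
    (hψ : CentralNormal M A.toStarSubalgebra ψ) {g : H →L[ℂ] H} {ι : Type} [Fintype ι]
    [DecidableEq ι] [Nonempty ι] {v : ι → (H →L[ℂ] H)} (Fr : NFrame M A g v) (hgψ : ψ g ≠ 0)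
    {k : ℕ} {X : Fin k → ι → ι → ℝ} (hXn : ∀ l, ‖mop v (X l)‖ ≤ 1) {ε c : ℝ} (hε : 0 ≤ ε)
    (hc : ε < c) (hpair : ∀ s t, s ≠ t → ∃ l, c ≤ |X l s t|) {r : ℕ} (hr : 0 < r)
    (hpave : SO.JointlySOPavable M A (fun l => mop v (X l)) ε r) : Fintype.card ι ≤ r := by
  obtain ⟨N, hN⟩ : ∃ N : ℝ, N = (Fintype.card ι : ℝ) := ⟨_, rfl⟩
  have hNpos : 0 < N := by rw [hN]; exact_mod_cast Fintype.card_pos
  have hvM := Fr.vM
  have hgM : g ∈ M := hA.1 _ Fr.gA
  obtain ⟨γ, hγ⟩ : ∃ γ, γ = (ψ g).re := ⟨_, rfl⟩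
  have hγ0 : 0 < γ := by
    obtain ⟨h1, h2⟩ := hψ.nonneg g hgM Fr.gP.nonneg
    rw [hγ]
    refine lt_of_le_of_ne h1 fun h3 => hgψ ?_
    exact Complex.ext h3.symm h2
  have hr0 : (0 : ℝ) < r := by exact_mod_cast hr
  obtain ⟨φ, hφ⟩ : ∃ φ : (H →L[ℂ] H) →ₗ[ℂ] ℂ, φ = ∑ k, (ψ.comp
      (LinearMap.mulLeft ℂ (star (v k)))).comp (LinearMap.mulRight ℂ (v k)) := ⟨_, rfl⟩
  have hφ' : ∀ b, φ b = ∑ k, ψ (star (v k) * (b * v k)) := by
    intro b
    rw [hφ, LinearMap.sum_apply]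
    rfl
  have hφw : WCont M φ := by
    refine (WCont.sum Finset.univ fun k _ =>
      ((hψ.wcont.mul_left (star_mem (hvM k))).mul_right (hvM k))).congr fun x _ => ?_
    rw [hφ']
  obtain ⟨D, hD⟩ : ∃ D : ℝ, D = 8 / (c - ε) ^ 2 := ⟨_, rfl⟩
  have hD0 : 0 < D := by
    rw [hD]
    have : 0 < c - ε := by linarith only [hc]
    positivity
  have key : ∀ κ : ℝ, 0 < κ → (N ^ 2 / r - N) * γ ≤ D * (2 * N) * κ := by
    intro κ hκ
    obtain ⟨d, ⟨q, hqM, hq, hd, p, a, hp, hpo, hps, haA, ha1, hqS⟩, hdκ⟩ :=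
      L.small_of_strong hφw (D := {d | ∃ q ∈ M, IsStarProjection q ∧ d = 1 - q ∧
        ∃ (p : Fin r → (H →L[ℂ] H)) (a : Fin k → (H →L[ℂ] H)),
          (∀ i, p i ∈ A ∧ IsStarProjection (p i)) ∧
          (∀ i j, i ≠ j → p i * p j = 0) ∧ ∑ i, p i = 1 ∧ (∀ l, a l ∈ A) ∧ (∀ l, ‖a l‖ ≤ 1) ∧
          ∀ l, ‖q * (∑ i, p i * mop v (X l) * p i - a l) * q‖ ≤ ε}) (C := 1) (by
            rintro d ⟨q, hqM, hq, rfl, -⟩
            exact ⟨sub_mem (one_mem M) hqM, proj_opNorm_le hq.one_sub⟩) (by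
            intro G δ hδ
            obtain ⟨p, a, q, hp, hpo, hps, ha, hqM, hqp, hqF, hqS⟩ := hpave G δ hδ
            refine ⟨1 - q, ⟨q, hqM, hqp, rfl, p, a, hp, hpo, hps, fun l => (ha l).1,
              fun l => (ha l).2.2.trans (hXn l), fun l => ?_⟩, fun ζ hζ => ?_⟩
            · calc _ ≤ ε * ‖mop v (X l)‖ := hqS l
                _ ≤ ε * 1 := mul_le_mul_of_nonneg_left (hXn l) hε
                _ = ε := mul_one _
            · have := hqF ζ hζ
              rwa [_root_.sub_apply]) hκ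
    obtain ⟨z, hz, hvec⟩ := joint_vec hA Fr hXn hε hc hpair hr hp hpo hps haA ha1 hq hqS
    rw [← hN, ← hD] at hvec
    have h1q : IsStarProjection (1 - q) := hq.one_sub
    have h1qM : 1 - q ∈ M := sub_mem (one_mem M) hqM
    obtain ⟨B, hB⟩ : ∃ B : ι → (H →L[ℂ] H), B = fun k => star (v k) * (1 - q) * v k :=
      ⟨_, rfl⟩
    have hBM : ∀ k, B k ∈ M := fun k => by
      rw [hB]; exact mul_mem (mul_mem (star_mem (hvM k)) h1qM) (hvM k)
    have hBs : ∀ k, IsSelfAdjoint (B k) := by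
      intro k
      rw [IsSelfAdjoint, hB]
      simp only
      rw [star_mul, star_mul, star_star, h1q.isSelfAdjoint.star_eq, mul_assoc]
    have hBζ : ∀ k ζ, (⟪ζ, B k ζ⟫_ℂ).re = ‖v k ζ - q (v k ζ)‖ ^ 2 := by
      intro k ζ
      have h1 : ⟪ζ, B k ζ⟫_ℂ = ⟪v k ζ, (1 - q) (v k ζ)⟫_ℂ := by
        have := star_apply_inner (star (v k)) ζ ((1 - q) (v k ζ))
        rw [star_star] at this
        rw [this, hB]
        rfl
      rw [h1, proj_inner_self h1q]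
      rfl
    have hB0 : ∀ k, 0 ≤ B k := fun k =>
      nonneg_of_inner (hBs k) fun ζ => by rw [hBζ]; positivity
    have hBκ : ∑ k, (ψ (B k)).re < κ := by
      have h1 : star d * d = 1 - q := by
        rw [hd, h1q.isSelfAdjoint.star_eq, h1q.isIdempotentElem.eq]
      rw [h1, hφ', Complex.re_sum] at hdκ
      simp_rw [← mul_assoc] at hdκ
      rw [hB]
      exact hdκ
    obtain ⟨b, hb⟩ : ∃ b : ℝ, b = N ^ 2 / r - N := ⟨_, rfl⟩
    rw [← hb] at hvec
    rw [← hb]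
    obtain ⟨R, hR⟩ : ∃ R : H →L[ℂ] H, R = ((D : ℝ) : ℂ) • ∑ s, ∑ t, (z s t * B s * z s t +
        z s t * B t * z s t) - ((b : ℝ) : ℂ) • g := ⟨_, rfl⟩
    have hzBM : ∀ s t i, z s t * B i * z s t ∈ M := fun s t i =>
      mul_mem (mul_mem (hA.1 _ (hz s t).1) (hBM i)) (hA.1 _ (hz s t).1)
    have hRM : R ∈ M := by
      rw [hR]
      exact sub_mem (M.toStarSubalgebra.smul_mem (sum_mem fun s _ => sum_mem fun t _ =>
        add_mem (hzBM s t s) (hzBM s t t)) _) (M.toStarSubalgebra.smul_mem hgM _)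
    have hsm : ∀ (b : ℝ) (x : H →L[ℂ] H), IsSelfAdjoint x → IsSelfAdjoint ((b : ℂ) • x) := by
      intro b x hx
      rw [IsSelfAdjoint, star_smul, Complex.star_def, Complex.conj_ofReal, hx.star_eq]
    have hzBs : ∀ s t i, IsSelfAdjoint (z s t * B i * z s t) := by
      intro s t i
      rw [IsSelfAdjoint, star_mul, star_mul, (hz s t).2.isSelfAdjoint.star_eq, (hBs i).star_eq,
        mul_assoc]
    have hRs : IsSelfAdjoint R := by
      rw [hR]
      refine IsSelfAdjoint.sub (hsm _ _ ?_) (hsm _ _ Fr.gP.isSelfAdjoint)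
      exact isSelfAdjoint_sum _ fun s _ => isSelfAdjoint_sum _ fun t _ =>
        (hzBs s t s).add (hzBs s t t)
    have hre : ∀ (b : ℝ) (x : H →L[ℂ] H) (ζ : H),
        (⟪ζ, ((b : ℂ) • x) ζ⟫_ℂ).re = b * (⟪ζ, x ζ⟫_ℂ).re := by
      intro b x ζ
      rw [smul_apply, inner_smul_right, Complex.re_ofReal_mul]
    have hzB : ∀ s t i ζ, (⟪ζ, (z s t * B i * z s t) ζ⟫_ℂ).re =
        ‖v i (z s t ζ) - q (v i (z s t ζ))‖ ^ 2 := by
      intro s t i ζ
      have h3 : ⟪ζ, (z s t * B i * z s t) ζ⟫_ℂ = ⟪z s t ζ, B i (z s t ζ)⟫_ℂ := by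
        rw [proj_inner (hz s t).2]
        rfl
      rw [h3, hBζ]
    have hR0 : 0 ≤ R := by
      refine nonneg_of_inner hRs fun ζ => ?_
      have h1 := hvec ζ
      have h2 : (⟪ζ, R ζ⟫_ℂ).re = D * ∑ s, ∑ t, (‖v s (z s t ζ) - q (v s (z s t ζ))‖ ^ 2 +
          ‖v t (z s t ζ) - q (v t (z s t ζ))‖ ^ 2) - b * ‖g ζ‖ ^ 2 := by
        rw [hR, _root_.sub_apply, inner_sub_right, Complex.sub_re, hre, hre,
          proj_inner_self Fr.gP, _root_.sum_apply, inner_sum, Complex.re_sum]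
        congr 2
        refine Finset.sum_congr rfl fun s _ => ?_
        rw [_root_.sum_apply, inner_sum, Complex.re_sum]
        refine Finset.sum_congr rfl fun t _ => ?_
        rw [_root_.add_apply, inner_add_right, Complex.add_re, hzB, hzB]
      rw [h2]
      linarith only [h1]
    have h4 := hψ.re_nonneg hRM hR0
    have h5 : (ψ R).re = D * ∑ s, ∑ t, ((ψ (z s t * B s * z s t)).re +
        (ψ (z s t * B t * z s t)).re) - b * γ := by
      rw [hR, map_sub, map_smul, map_smul, smul_eq_mul, smul_eq_mul, Complex.sub_re,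
        Complex.re_ofReal_mul, Complex.re_ofReal_mul, map_sum, Complex.re_sum, hγ]
      simp_rw [map_sum, Complex.re_sum, map_add, Complex.add_re]
    have h6 : ∑ s, ∑ t, ((ψ (z s t * B s * z s t)).re + (ψ (z s t * B t * z s t)).re) ≤
        2 * N * ∑ k, (ψ (B k)).re := by
      calc _ ≤ ∑ s, ∑ t, ((ψ (B s)).re + (ψ (B t)).re) :=
            Finset.sum_le_sum fun s _ => Finset.sum_le_sum fun t _ => add_le_add
              (hψ.compress_le hA (hBM s) (hB0 s) (hz s t).1 (hz s t).2)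
              (hψ.compress_le hA (hBM t) (hB0 t) (hz s t).1 (hz s t).2)
        _ = _ := by
            simp_rw [Finset.sum_add_distrib, Finset.sum_const, Finset.card_univ, nsmul_eq_mul]
            rw [← Finset.mul_sum, hN]
            ring
    rw [h5] at h4
    have h7 : D * ∑ s, ∑ t, ((ψ (z s t * B s * z s t)).re + (ψ (z s t * B t * z s t)).re) ≤
        D * (2 * N * κ) := by
      refine mul_le_mul_of_nonneg_left (h6.trans ?_) hD0.le
      exact mul_le_mul_of_nonneg_left hBκ.le (by positivity)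
    linarith only [h4, h7]
  have h1 : (N ^ 2 / r - N) * γ ≤ 0 := by
    refine le_of_forall_pos_le_add fun δ hδ => ?_
    have h3 : 0 < D * (2 * N) := by positivity
    have h4 := key (δ / (D * (2 * N))) (by positivity)
    rw [mul_div_cancel₀ _ h3.ne'] at h4
    linarith only [h4]
  have h2 : N ^ 2 / r - N ≤ 0 := by
    by_contra hcon
    push Not at hcon
    have := mul_pos hcon hγ0
    linarith only [this, h1]
  have h3 : N ≤ r := by
    have h4 : N ^ 2 / r ≤ N := by linarith only [h2]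
    rw [div_le_iff₀ hr0] at h4
    nlinarith only [h4, hNpos]
  rw [hN] at h3
  exact_mod_cast h3

end Vale.Agent.P078
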