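import Vale.Agent.P078.H598.Rate21
import Vale.Agent.P078.H291.XPav
import Vale.Agent.P078.H291.XDiag
import Vale.Agent.P078.Bdl.Fast

set_option linter.all false
attribute [local instance] Vale.Agent.P078.Fast.a01 Vale.Agent.P078.Fast.a02
  Vale.Agent.P078.Fast.a03 Vale.Agent.P078.Fast.a04 Vale.Agent.P078.Fast.a05
  Vale.Agent.P078.Fast.a06 Vale.Agent.P078.Fast.a07 Vale.Agent.P078.Fast.a08
  Vale.Agent.P078.Fast.a09 Vale.Agent.P078.Fast.a10 Vale.Agent.P078.Fast.a11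
  Vale.Agent.P078.Fast.a12 Vale.Agent.P078.Fast.a13 Vale.Agent.P078.Fast.a14
  Vale.Agent.P078.Fast.a15 Vale.Agent.P078.Fast.a16 Vale.Agent.P078.Fast.a17
  Vale.Agent.P078.Fast.a18 Vale.Agent.P078.Fast.a19 Vale.Agent.P078.Fast.a20
  Vale.Agent.P078.Fast.a21 Vale.Agent.P078.Fast.a22 Vale.Agent.P078.Fast.a23
  Vale.Agent.P078.Fast.a24 Vale.Agent.P078.Fast.a25 Vale.Agent.P078.Fast.a26
  Vale.Agent.P078.Fast.a27 Vale.Agent.P078.Fast.a28 Vale.Agent.P078.Fast.a29
  Vale.Agent.P078.Fast.a30 Vale.Agent.P078.Fast.a31 Vale.Agent.P078.Fast.a32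
  Vale.Agent.P078.Fast.a33 Vale.Agent.P078.Fast.a34 Vale.Agent.P078.Fast.a35
  Vale.Agent.P078.Fast.a36 Vale.Agent.P078.Fast.a37 Vale.Agent.P078.Fast.a38
  Vale.Agent.P078.Fast.a39 Vale.Agent.P078.Fast.a40 Vale.Agent.P078.Fast.a41
  Vale.Agent.P078.Fast.a42 Vale.Agent.P078.Fast.a43 Vale.Agent.P078.Fast.a44
  Vale.Agent.P078.Fast.a45 Vale.Agent.P078.Fast.a46 Vale.Agent.P078.Fast.a47
  Vale.Agent.P078.Fast.a48 Vale.Agent.P078.Fast.a49 Vale.Agent.P078.Fast.a50
  Vale.Agent.P078.Fast.a51 Vale.Agent.P078.Fast.a52 Vale.Agent.P078.Fast.a53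
  Vale.Agent.P078.Fast.a54

/-! Rates of growth of the joint so-paving number: the lower bound for regular maximal abelian
subalgebras. -/

namespace Vale.Agent.P078

open Filter Topology Vale.Agent.P078.C Vale.Agent.P078.G
open scoped InnerProductSpace

universe u

variable {H : Type u} [NormedAddCommGroup H] [InnerProductSpace ℂ H] [CompleteSpace H]
variable {M A : VonNeumannAlgebra H}

/-- block Walsh-Hadamard matrices -/
noncomputable def bwh {k t : ℕ} [NeZero k] (l : Fin k) (i j : Fin k × (Fin t → Bool)) : ℝ :=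
  if j.1 = l - i.1 then WG.had i.2 j.2 / Real.sqrt (2 ^ t) else 0

section bwh

variable {k t : ℕ} [NeZero k]

theorem bwh_symm (l : Fin k) (i j : Fin k × (Fin t → Bool)) : bwh l i j = bwh l j i := by
  unfold bwh
  have h : j.1 = l - i.1 ↔ i.1 = l - j.1 := by
    constructor
    · intro h; rw [h, sub_sub_cancel]
    · intro h; rw [h, sub_sub_cancel]
  by_cases h1 : j.1 = l - i.1
  · rw [if_pos h1, if_pos (h.1 h1), WG.had_comm]
  · rw [if_neg h1, if_neg fun h2 => h1 (h.2 h2)]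

theorem bwh_orth (l : Fin k) (i i' : Fin k × (Fin t → Bool)) :
    ∑ j, bwh l j i * bwh l j i' = if i = i' then (1 : ℝ) else 0 := by
  have ht : (0 : ℝ) < 2 ^ t := by positivity
  simp_rw [fun j => bwh_symm l j i, fun j => bwh_symm l j i']
  rw [Fintype.sum_prod_type]
  unfold bwh
  simp only
  by_cases h : i.1 = i'.1
  · rw [Finset.sum_eq_single (l - i.1)]
    · have h1 : ∀ u : Fin t → Bool, (if l - i.1 = l - i.1 then WG.had i.2 u / Real.sqrt (2 ^ t)
          else 0) * (if l - i.1 = l - i'.1 then WG.had i'.2 u / Real.sqrt (2 ^ t) else 0) =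
          (WG.had i.2 u * WG.had i'.2 u) / 2 ^ t := by
        intro u
        rw [if_pos rfl, if_pos (by rw [h]), div_mul_div_comm, Real.mul_self_sqrt ht.le]
      rw [Finset.sum_congr rfl fun u _ => h1 u, ← Finset.sum_div, WG.had_orth]
      by_cases h2 : i.2 = i'.2
      · rw [if_pos h2, if_pos (Prod.ext h h2), div_self ht.ne']
      · rw [if_neg h2, if_neg (fun h3 => h2 (congrArg Prod.snd h3)), zero_div]
    · intro a _ ha
      refine Finset.sum_eq_zero fun u _ => ?_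
      rw [if_neg ha, zero_mul]
    · intro hi
      exact absurd (Finset.mem_univ _) hi
  · rw [if_neg (fun h3 => h (congrArg Prod.fst h3))]
    refine Finset.sum_eq_zero fun a _ => Finset.sum_eq_zero fun u _ => ?_
    by_cases h1 : a = l - i.1
    · rw [if_neg (show ¬ a = l - i'.1 from fun h2 => h (sub_right_injective (h1.symm.trans h2))),
        mul_zero]
    · rw [if_neg h1, zero_mul]

theorem bwh_abs (i j : Fin k × (Fin t → Bool)) :
    |bwh (i.1 + j.1) i j| = 1 / Real.sqrt (2 ^ t) := by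
  unfold bwh
  rw [if_pos (by rw [add_sub_cancel_left]), abs_div, WG.had_abs,
    abs_of_nonneg (Real.sqrt_nonneg _)]

end bwh

/-- the lower bound `k / (2 ε²)` for `k` operators from normalizing frames -/
theorem joint_of_nunits (hA : SO.IsMASA A M) {z : H →L[ℂ] H} (hz : z ∈ A)
    (hzp : IsStarProjection z) {E : (H →L[ℂ] H) →ₗ[ℂ] (H →L[ℂ] H)}
    (hE : IsNormalExpectation M A.toStarSubalgebra z E) (h : ∀ m, NUnits M A z m) {k : ℕ}
    (hk : 1 ≤ k) {ε : ℝ} (h0 : 0 < ε) (h1 : ε < 1) :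
    (⌈(k : ℝ) / (2 * ε ^ 2)⌉₊ : ℕ∞) ≤ SO.jointPavingNumber M A k ε := by
  classical
  have hA' := SO.IsMASA.toStar hA
  have : NeZero k := ⟨by omega⟩
  refine le_iInf₂ fun r hr => ?_
  obtain ⟨hr1, hr⟩ := hr
  have hε2 : 0 < ε ^ 2 := by positivity
  have hε1 : ε ^ 2 < 1 := pow_lt_one₀ h0.le h1 two_ne_zero
  have hex : ∃ m : ℕ, 1 ≤ ε ^ 2 * 2 ^ m := by
    obtain ⟨m, hm⟩ := pow_unbounded_of_one_lt (1 / ε ^ 2) (one_lt_two (α := ℝ))
    refine ⟨m, ?_⟩
    rw [div_lt_iff₀ hε2] at hm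
    linarith
  obtain ⟨t, ht1, ht2⟩ : ∃ t : ℕ, ε ^ 2 * 2 ^ t < 1 ∧ 1 ≤ ε ^ 2 * 2 ^ (t + 1) := by
    have h2 := Nat.find_spec hex
    have h3 : 0 < Nat.find hex := by
      by_contra hcon
      have h4 : Nat.find hex = 0 := by omega
      rw [h4, pow_zero, mul_one] at h2
      linarith
    refine ⟨Nat.find hex - 1, ?_, ?_⟩
    · exact not_le.1 (Nat.find_min hex (by omega))
    · rw [Nat.sub_add_cancel h3]
      exact h2
  have ht : (0 : ℝ) < 2 ^ t := by positivity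
  have hs : 0 < Real.sqrt (2 ^ t) := Real.sqrt_pos.2 ht
  have hc : ε < 1 / Real.sqrt (2 ^ t) := by
    rw [lt_div_iff₀ hs]
    have h2 : (ε * Real.sqrt (2 ^ t)) ^ 2 < 1 ^ 2 := by
      rw [mul_pow, Real.sq_sqrt ht.le, one_pow]
      exact ht1
    exact lt_of_pow_lt_pow_left₀ 2 zero_le_one h2
  obtain ⟨ι, F, g, v', hcard, hgA, hgp, hg0, hzg, hv', ho', hn'⟩ := h (k * 2 ^ t)
  obtain ⟨f⟩ : Nonempty ((Fin k × (Fin t → Bool)) ↪ ι) := by
    refine Function.Embedding.nonempty_of_card_le ?_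
    rw [hcard]
    have : Fintype.card (Fin k × (Fin t → Bool)) = k * 2 ^ t := by simp
    rw [this]
    exact Nat.lt_two_pow_self.le
  have : Nonempty (Fin k × (Fin t → Bool)) := ⟨(⟨0, by omega⟩, fun _ => false)⟩
  have Fr : NFrame M A g (fun i : Fin k × (Fin t → Bool) => v' (f i)) :=
    ⟨hgA, hgp, fun i => (hv' _).1, fun i => (hv' _).2.1,
      fun i j hij => ho' _ _ fun h => hij (f.injective h), fun i => hn' _⟩
  obtain ⟨ψ, hψ, hψg⟩ : ∃ ψ : (H →L[ℂ] H) →ₗ[ℂ] ℂ, CentralNormal M A.toStarSubalgebra ψ ∧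
      ψ g ≠ 0 := by
    by_contra hcon
    push Not at hcon
    have h1 := mul_eq_zero_of_isNormalExpectation hA' hgA hgp hcon hz hzp hE
    have h2 : g * z = g := by rw [hA.2.1 _ hgA _ hz, hzg]
    rw [h2] at h1
    exact hg0 h1
  have h2 := joint_count hA hψ Fr hψg (X := fun l => bwh (k := k) (t := t) l)
    (fun l => mop_norm Fr (bwh_orth l)) h0.le hc
    (fun s t _ => ⟨s.1 + t.1, (bwh_abs s t).ge⟩) (by omega)
    (hr _ fun l => ⟨mop_mem Fr _, mop_sa _ (bwh_symm l)⟩)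
  have h3 : (k : ℝ) * 2 ^ t ≤ r := by
    have : Fintype.card (Fin k × (Fin t → Bool)) = k * 2 ^ t := by simp
    rw [this] at h2
    exact_mod_cast h2
  rw [Nat.cast_le, Nat.ceil_le]
  refine le_trans ?_ h3
  rw [div_le_iff₀ (by positivity)]
  have h4 : (1 : ℝ) ≤ 2 ^ t * (2 * ε ^ 2) := by
    have e : (2 : ℝ) ^ (t + 1) = 2 ^ t * 2 := pow_succ 2 t
    rw [e] at ht2
    linarith
  have h5 : (0 : ℝ) ≤ k := Nat.cast_nonneg k
  nlinarith

end Vale.Agent.P078
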