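import Vale.Agent.P078.H598.Rate22
import Vale.Agent.P078.Bdl.Fast

set_option linter.all false
attribute [local instance] Vale.Agent.P078.Fast.a01 Vale.Agent.P078.Fast.a02
  Vale.Agent.P078.Fast.a03 Vale.Agent.P078.Fast.a04 Vale.Agent.P078.Fast.a05
  Vale.Agent.P078.Fast.a06 Vale.Agent.P078.Fast.a07 Vale.Agent.P078.Fast.a08
  Vale.Agent.P078.Fast.a09 Vale.Agent.P078.Fast.a10 Vale.Agent.P078.Fast.a11
  Vale.Agent.P078.Fast.a12 Vale.Agent.P078.Fast.a13 Vale.Agent.P078.Fast.a14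
  Vale.Agent.P078.Fast.a15 Vale.Agent.P078.Fast.a16 Vale.Agent.P078.Fast.a17
  Vale.Agent.P078.Fast.a18 Vale.Agent.P078.Fast.a19 Vale.Agent.P078.Fast.a20
  Vale.Agent.P078.Fast.a21 Vale.Agent.P078.Fast.a22 Vale.Agent.P078.Fast.a23
  Vale.Agent.P078.Fast.a24 Vale.Agent.P078.Fast.a25 Vale.Agent.P078.Fast.a26
  Vale.Agent.P078.Fast.a27 Vale.Agent.P078.Fast.a28 Vale.Agent.P078.Fast.a29
  Vale.Agent.P078.Fast.a30 Vale.Agent.P078.Fast.a31 Vale.Agent.P078.Fast.a32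
  Vale.Agent.P078.Fast.a33 Vale.Agent.P078.Fast.a34 Vale.Agent.P078.Fast.a35
  Vale.Agent.P078.Fast.a36 Vale.Agent.P078.Fast.a37 Vale.Agent.P078.Fast.a38
  Vale.Agent.P078.Fast.a39 Vale.Agent.P078.Fast.a40 Vale.Agent.P078.Fast.a41
  Vale.Agent.P078.Fast.a42 Vale.Agent.P078.Fast.a43 Vale.Agent.P078.Fast.a44
  Vale.Agent.P078.Fast.a45 Vale.Agent.P078.Fast.a46 Vale.Agent.P078.Fast.a47
  Vale.Agent.P078.Fast.a48 Vale.Agent.P078.Fast.a49 Vale.Agent.P078.Fast.a50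
  Vale.Agent.P078.Fast.a51 Vale.Agent.P078.Fast.a52 Vale.Agent.P078.Fast.a53
  Vale.Agent.P078.Fast.a54

/-! Rates of growth of the joint so-paving number: final statements. -/

namespace Vale.Agent.P078.WG

open Vale.Agent.P078
open scoped InnerProductSpace

universe u

variable {H : Type u} [NormedAddCommGroup H] [InnerProductSpace ℂ H] [CompleteSpace H]
variable {M A : VonNeumannAlgebra H}

/-- growth of the joint so-paving number, for all maximal abelian subalgebras -/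
theorem growth_joint (hA : SO.IsMASA A M) {k : ℕ} (hk : 1 ≤ k) :
    ∃ z, SO.IsLargestExpected M A z ∧
      (∀ N : ℕ, SO.IsSumOfAbelian M A z N →
        ∀ ε : ℝ, 0 < ε → SO.jointPavingNumber M A k ε ≤ (N + (⌊1 / ε⌋₊ + 1) : ℕ)) ∧
      ∀ w ∈ A, IsStarProjection w → w ≤ z →
        (SO.IsSemifinite M 1 ∨ SO.IsSemifinite M w → (∀ N : ℕ, ¬ SO.IsSumOfAbelian M A w N) →
          ∀ ε : ℝ, 0 < ε → ⌈1 / ε ^ 2⌉₊ ≤ SO.jointPavingNumber M A k ε) ∧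
        ∀ M' : VonNeumannAlgebra H, (∀ x ∈ M', x ∈ M) → C.IsCartanMASA A M' →
          (∀ N : ℕ, ¬ SO.IsSumOfAbelian M' A w N) →
          ∀ ε : ℝ, 0 < ε → ⌈1 / ε ^ 2⌉₊ ≤ SO.jointPavingNumber M A k ε ∧
            (ε < 1 → ⌈(k : ℝ) / (2 * ε ^ 2)⌉₊ ≤ SO.jointPavingNumber M A k ε) := by
  have hA' := SO.IsMASA.toStar hA
  obtain ⟨z, hzA, hzp, ⟨E, hE⟩, h0, hmax⟩ := exists_largest hA'
  have hwA : 1 - z ∈ A := sub_mem (one_mem A) hzA
  have hS := smallProp_of_null hA' hwA hzp.one_sub h0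
  have hE1 : SO.IsNormalExpectation M A z E := SO.isNormalExpectation_iff.2 hE
  refine ⟨z, ⟨⟨hzA, hzp, ⟨E, hE1⟩⟩, ?_⟩, ?_, fun w hwA hwp hwz => ?_⟩
  · rintro p hpA hp ⟨E', hE'⟩
    exact (IsStarProjection.le_iff_mul_eq_right hp hzp).2
      (hmax p hpA hp ⟨E', SO.isNormalExpectation_iff.1 hE'⟩)
  · intro N h ε hε
    exact joint_le_of_small hA hzA hzp hS h hε k
  · have hzw : z * w = w := (IsStarProjection.le_iff_mul_eq_right hwp hzp).1 hwz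
    have hwz' : w * z = w := by rw [hA.2.1 _ hwA _ hzA, hzw]
    have hEw := expectation_mono hwp.isIdempotentElem.eq hzw hwz' hwA hE1
    refine ⟨fun hsf hinf ε hε => ?_, fun M' hM' hC hinf ε hε => ⟨?_, fun hε1 => ?_⟩⟩
    · obtain ⟨ι, η, hη⟩ : SO.IsSemifinite M w := hsf.elim
        (fun h => Vale.Agent.P078.G.isSemifinite_corner h hwp) id
      exact (quadratic_general hA hwA hwp hEw hη hinf hε).trans (le_jointPavingNumber hk)
    · exact (quadratic_cartan hM' hA hC hwA hwp (SO.isNormalExpectation_iff.1 hEw) hinf hε).trans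
        (le_jointPavingNumber hk)
    · exact joint_of_nunits hA hwA hwp (SO.isNormalExpectation_iff.1 hEw)
        (fun m => (nunits_of_not_sum hC.1 hC.2 hwA hwp hinf m).mono hM') hk hε hε1

/-- the joint gap -/
theorem gap_joint (hA : SO.IsMASA A M) {k : ℕ} (hk : 1 ≤ k) :
    (∀ N : ℕ, 1 ≤ N → SO.IsSumOfAbelian M A 1 N →
      ∀ ε : ℝ, 0 < ε → SO.jointPavingNumber M A k ε ≤ N) ∧
    ((∀ N : ℕ, ¬ SO.IsSumOfAbelian M A 1 N) →
      ∀ ε : ℝ, 0 < ε → ⌈1 / ε⌉₊ ≤ SO.jointPavingNumber M A k ε) :=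
  ⟨fun _ hN h _ hε => joint_le_of_one hA hN h hε k,
    fun hinf _ hε => (linear_general hA hinf hε).trans (le_jointPavingNumber hk)⟩

/-- `k` operators over a maximal abelian subalgebra of `B(H)` with infinitely many atoms -/
theorem joint_atoms (hM : ∀ x, x ∈ M) (hA : SO.IsMASA A M) (hinf : (SO.atoms A).Infinite)
    {k : ℕ} (hk : 1 ≤ k) {ε : ℝ} (h0 : 0 < ε) (h1 : ε < 1) :
    (⌈(k : ℝ) / (2 * ε ^ 2)⌉₊ : ℕ∞) ≤ SO.jointPavingNumber M A k ε := by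
  classical
  have hA' := SO.IsMASA.toStar hA
  have : NeZero k := ⟨by omega⟩
  refine le_iInf₂ fun r hr => ?_
  obtain ⟨hr1, hr⟩ := hr
  have hε2 : 0 < ε ^ 2 := by positivity
  have hε1 : ε ^ 2 < 1 := pow_lt_one₀ h0.le h1 two_ne_zero
  have hex : ∃ m : ℕ, 1 ≤ ε ^ 2 * 2 ^ m := by
    obtain ⟨m, hm⟩ := pow_unbounded_of_one_lt (1 / ε ^ 2) (one_lt_two (α := ℝ))
    refine ⟨m, ?_⟩
    rw [div_lt_iff₀ hε2] at hm
    linarith
  obtain ⟨t, ht1, ht2⟩ : ∃ t : ℕ, ε ^ 2 * 2 ^ t < 1 ∧ 1 ≤ ε ^ 2 * 2 ^ (t + 1) := by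
    have h2 := Nat.find_spec hex
    have h3 : 0 < Nat.find hex := by
      by_contra hcon
      have h4 : Nat.find hex = 0 := by omega
      rw [h4, pow_zero, mul_one] at h2
      linarith
    refine ⟨Nat.find hex - 1, ?_, ?_⟩
    · exact not_le.1 (Nat.find_min hex (by omega))
    · rw [Nat.sub_add_cancel h3]
      exact h2
  obtain ⟨s, hs, hsc⟩ := hinf.exists_subset_card_eq (Fintype.card (Fin k × (Fin t → Bool)))
  let φ := (s.equivFinOfCardEq hsc).symm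
  obtain ⟨v, hv, hvf⟩ := exists_orthonormal_of_atoms hA'.2.1 (f := fun i => (φ i : H →L[ℂ] H))
    (fun i => hs (φ i).2) (fun i j hij => φ.injective (Subtype.ext hij))
  let e := Fintype.equivFin (Fin k × (Fin t → Bool))
  have h2 := mul_pow_le_of_joint hA hk (fun i => v (e i)) (hv.comp e e.injective)
    (fun i j => hM _) (fun i => by
      rw [← hvf]
      exact (hs (φ (e i)).2).1) h0 ht1 hr
  have h3 : (k : ℝ) * 2 ^ t ≤ r := by exact_mod_cast h2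
  rw [Nat.cast_le, Nat.ceil_le]
  refine le_trans ?_ h3
  rw [div_le_iff₀ (by positivity)]
  have h4 : (1 : ℝ) ≤ 2 ^ t * (2 * ε ^ 2) := by
    have e : (2 : ℝ) ^ (t + 1) = 2 ^ t * 2 := pow_succ 2 t
    rw [e] at ht2
    linarith
  have h5 : (0 : ℝ) ≤ k := Nat.cast_nonneg k
  nlinarith

/-- growth of the joint so-paving number for `B(H)` -/
theorem growth_BH_joint (hM : ∀ x, x ∈ M) (hA : SO.IsMASA A M) (hH : ¬ FiniteDimensional ℂ H)
    {k : ℕ} (hk : 1 ≤ k) :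
    (∀ N : ℕ, (SO.atoms A).encard = N → ∀ ε : ℝ, 0 < ε →
      ⌈1 / ε⌉₊ ≤ SO.jointPavingNumber M A k ε ∧
      SO.jointPavingNumber M A k ε ≤ (N + (⌊1 / ε⌋₊ + 1) : ℕ)) ∧
    ((SO.atoms A).Infinite → ∀ ε : ℝ, 0 < ε → ⌈1 / ε ^ 2⌉₊ ≤ SO.jointPavingNumber M A k ε ∧
      (ε < 1 → ⌈(k : ℝ) / (2 * ε ^ 2)⌉₊ ≤ SO.jointPavingNumber M A k ε)) := by
  have hA' := SO.IsMASA.toStar hA
  refine ⟨fun N hN ε hε => ?_, fun hinf ε hε =>
    ⟨(quadratic_of_infinite hM hA' hinf hε).trans (le_jointPavingNumber hk),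
      fun hε1 => joint_atoms hM hA hinf hk hε hε1⟩⟩
  obtain ⟨z, hzA, hzp, hab, hS, hz1⟩ := exists_split hM hA' hN
  exact ⟨(hS.le_paving hA' hzp.one_sub (hz1 hH) hε).trans (le_jointPavingNumber hk),
    joint_le_of_small hA hzA hzp hS hab hε k⟩

/-- the diagonal maximal abelian subalgebras -/
theorem growth_diag {ι : Type*} [Infinite ι] (b : HilbertBasis ι ℂ H) {k : ℕ} (hk : 1 ≤ k) :
    ∃ M A : VonNeumannAlgebra H,
      (∀ x, x ∈ M) ∧ (∀ x, x ∈ A ↔ ∀ i j, i ≠ j → ⟪b i, x (b j)⟫_ℂ = 0) ∧ SO.IsMASA A M ∧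
      ∀ ε : ℝ, 0 < ε → ε < 1 →
        ⌈(k : ℝ) / (2 * ε ^ 2)⌉₊ ≤ SO.jointPavingNumber M A k ε := by
  refine ⟨XD.comm ∅, XD.AA b, XD.mem_MM, fun _ => XD.mem_AA, XD.isMASA, fun ε hε hε1 =>
    le_iInf₂ fun r hr => ?_⟩
  exact_mod_cast Nat.ceil_le.2
    (WG.div_le_of_joint (XD.isMASA (b := b)) hk (fun i => b (Infinite.natEmbedding ι i))
      (b.orthonormal.comp _ (Infinite.natEmbedding ι).injective)
      (fun _ _ => XD.mem_MM _) (fun _ => XD.rankOne_mem_AA _) hε hε1 hr.2)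

end Vale.Agent.P078.WG
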