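import Vale.Agent.P078.H598.Rate2
import Vale.Agent.P078.Bdl.Fast

set_option linter.all false
attribute [local instance] Vale.Agent.P078.Fast.a01 Vale.Agent.P078.Fast.a02
  Vale.Agent.P078.Fast.a03 Vale.Agent.P078.Fast.a04 Vale.Agent.P078.Fast.a05
  Vale.Agent.P078.Fast.a06 Vale.Agent.P078.Fast.a07 Vale.Agent.P078.Fast.a08
  Vale.Agent.P078.Fast.a09 Vale.Agent.P078.Fast.a10 Vale.Agent.P078.Fast.a11
  Vale.Agent.P078.Fast.a12 Vale.Agent.P078.Fast.a13 Vale.Agent.P078.Fast.a14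
  Vale.Agent.P078.Fast.a15 Vale.Agent.P078.Fast.a16 Vale.Agent.P078.Fast.a17
  Vale.Agent.P078.Fast.a18 Vale.Agent.P078.Fast.a19 Vale.Agent.P078.Fast.a20
  Vale.Agent.P078.Fast.a21 Vale.Agent.P078.Fast.a22 Vale.Agent.P078.Fast.a23
  Vale.Agent.P078.Fast.a24 Vale.Agent.P078.Fast.a25 Vale.Agent.P078.Fast.a26
  Vale.Agent.P078.Fast.a27 Vale.Agent.P078.Fast.a28 Vale.Agent.P078.Fast.a29
  Vale.Agent.P078.Fast.a30 Vale.Agent.P078.Fast.a31 Vale.Agent.P078.Fast.a32
  Vale.Agent.P078.Fast.a33 Vale.Agent.P078.Fast.a34 Vale.Agent.P078.Fast.a35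
  Vale.Agent.P078.Fast.a36 Vale.Agent.P078.Fast.a37 Vale.Agent.P078.Fast.a38
  Vale.Agent.P078.Fast.a39 Vale.Agent.P078.Fast.a40 Vale.Agent.P078.Fast.a41
  Vale.Agent.P078.Fast.a42 Vale.Agent.P078.Fast.a43 Vale.Agent.P078.Fast.a44
  Vale.Agent.P078.Fast.a45 Vale.Agent.P078.Fast.a46 Vale.Agent.P078.Fast.a47
  Vale.Agent.P078.Fast.a48 Vale.Agent.P078.Fast.a49 Vale.Agent.P078.Fast.a50
  Vale.Agent.P078.Fast.a51 Vale.Agent.P078.Fast.a52 Vale.Agent.P078.Fast.a53
  Vale.Agent.P078.Fast.a54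

/-! Rates of growth of the so-paving number: the quadratic lower bound from frames of equivalent
projections of `A`. -/

namespace Vale.Agent.P078

open Filter Topology
open scoped InnerProductSpace

variable {H : Type*} [NormedAddCommGroup H] [InnerProductSpace ℂ H] [CompleteSpace H]
variable {M : VonNeumannAlgebra H} {A : StarSubalgebra ℂ (H →L[ℂ] H)}
variable {e0 g : H →L[ℂ] H} {ξ : ℕ → H}

/-- one inequality for each full frame -/
theorem frame_bound (T : CornerTrace M e0 ξ) (hA : IsMASA A M) (he0A : e0 ∈ A)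
    (h1 : ‖T.X 1‖ = 1) {ε : ℝ} (hε : 0 ≤ ε) {r : ℕ}
    (hr : 0 < r) (hpave : ∀ x ∈ M, IsSelfAdjoint x → SOPavable M A 1 x ε r) {m : ℕ}
    (Fr : HFrame M A e0 g (Fin (2 ^ m)))
    (hg : ‖T.X g‖ ^ 2 ≤ 1 / (Fintype.card (Fin (2 ^ m)) : ℝ))
    (hG : 1 ≤ (T.tr Fr.G).re) {κ : ℝ} (hκ : 0 < κ) :
    1 / (r : ℝ) - 2 / Real.sqrt (2 ^ m) ≤ (ε + 2 * κ + 2 * Real.sqrt κ) ^ 2 := by
  classical
  have hc := hA.2.1
  obtain ⟨F, δ, hδ, hFδ⟩ := exists_finset_small T.summable hκ
  obtain ⟨p, a, q, hp, hpo, hps, haA, -, has, han, hqM, -, hqp, hqF, hqS⟩ :=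
    hpave Fr.x Fr.x_mem Fr.x_sa (F.image ξ) (fun ζ _ => rfl) δ hδ
  have ha1 : ‖a‖ ≤ 1 := han.trans Fr.x_norm
  obtain ⟨S, hS⟩ : ∃ S, S = ∑ i, p i * Fr.x * p i - a := ⟨_, rfl⟩
  rw [← hS] at hqS
  have hpM : ∀ i, p i ∈ M := fun i => hA.1 (hp i).1
  have hSM : S ∈ M := by
    rw [hS]
    exact sub_mem (sum_mem fun i _ => mul_mem (mul_mem (hpM i) Fr.x_mem) (hpM i)) (hA.1 haA)
  have hSs : IsSelfAdjoint S := by
    rw [hS]
    refine IsSelfAdjoint.sub ?_ has
    rw [IsSelfAdjoint, star_sum]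
    refine Finset.sum_congr rfl fun i _ => ?_
    rw [star_mul, star_mul, (hp i).2.isSelfAdjoint.star_eq, Fr.x_sa.star_eq, mul_assoc]
  have h00 : e0 * e0 = e0 := T.proj.isIdempotentElem.eq
  have hx1 : e0 * Fr.x = Fr.x := by
    rw [← Fr.x_e0 T.proj, ← mul_assoc, ← mul_assoc, h00]
  have hx2 : Fr.x * e0 = Fr.x := by
    rw [← Fr.x_e0 T.proj, mul_assoc, h00]
  have hSe : e0 * S = S * e0 := by
    rw [hS, mul_sub, sub_mul, hc e0 he0A a haA, Finset.mul_sum, Finset.sum_mul]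
    congr 1
    refine Finset.sum_congr rfl fun i _ => ?_
    have hpe : e0 * p i = p i * e0 := hc _ he0A _ (hp i).1
    calc e0 * (p i * Fr.x * p i) = (e0 * p i) * Fr.x * p i := by simp only [mul_assoc]
      _ = p i * (e0 * Fr.x) * p i := by rw [hpe]; simp only [mul_assoc]
      _ = p i * (Fr.x * e0) * p i := by rw [hx1, hx2]
      _ = p i * Fr.x * (e0 * p i) := by simp only [mul_assoc]
      _ = p i * Fr.x * p i * e0 := by rw [hpe]; simp only [mul_assoc]
  have hSn : ‖S‖ ≤ 2 := by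
    rw [hS]
    calc _ ≤ ‖∑ i, p i * Fr.x * p i‖ + ‖a‖ := norm_sub_le _ _
      _ ≤ ‖Fr.x‖ + 1 := add_le_add (norm_pinch_le hp hpo hps _) ha1
      _ ≤ 2 := by linarith only [Fr.x_norm]
  have hκ1 : ‖T.X (1 - q)‖ ≤ κ := by
    refine hFδ q ?_ fun n hn => hqF _ (Finset.mem_image_of_mem _ hn)
    exact ContinuousLinearMap.opNorm_le_bound _ zero_le_one fun v => by
      rw [one_mul]; exact proj_norm_le hqp v
  have h2 := T.norm_X_le_of_compress hSM hSs hSe hqM hqp hSn h1.le hκ1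
  have h3 : ‖q * S * q‖ ≤ ε := by
    calc ‖q * S * q‖ ≤ ε * ‖Fr.x‖ := hqS
      _ ≤ ε * 1 := mul_le_mul_of_nonneg_left Fr.x_norm hε
      _ = ε := mul_one _
  have h4 := Fr.pinch_lower T hA.1 hc he0A hg (by rw [Fintype.card_fin]; (clear * -; positivity)) hr hp hpo hps
    haA has ha1
  rw [← hS, Fintype.card_fin] at h4
  push_cast at h4
  have hr0 : (0 : ℝ) < r := by exact_mod_cast hr
  calc 1 / (r : ℝ) - 2 / Real.sqrt (2 ^ m)
      ≤ (T.tr Fr.G).re ^ 2 / r - 2 / Real.sqrt (2 ^ m) := by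
        refine sub_le_sub_right ?_ _
        refine div_le_div_of_nonneg_right ?_ hr0.le
        exact one_le_pow₀ hG
    _ ≤ ‖T.X S‖ ^ 2 := h4
    _ ≤ (ε + 2 * κ + 2 * Real.sqrt κ) ^ 2 := by
        refine pow_le_pow_left₀ (norm_nonneg _) ?_ 2
        linarith only [h2, h3]

/-- the quadratic lower bound from full frames of all sizes -/
theorem quadratic_of_frames (hA : IsMASA A M) {ε : ℝ} (hε : 0 ≤ ε) {r : ℕ}
    (hr : 0 < r) (hpave : ∀ x ∈ M, IsSelfAdjoint x → SOPavable M A 1 x ε r)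
    (hfr : ∀ m : ℕ, ∃ (e0 g : H →L[ℂ] H) (ξ : ℕ → H) (T : CornerTrace M e0 ξ)
      (Fr : HFrame M A e0 g (Fin (2 ^ m))), e0 ∈ A ∧ ‖T.X 1‖ = 1 ∧
        ‖T.X g‖ ^ 2 ≤ 1 / (Fintype.card (Fin (2 ^ m)) : ℝ) ∧ 1 ≤ (T.tr Fr.G).re) :
    1 / (r : ℝ) ≤ ε ^ 2 := by
  have key : ∀ n : ℕ, 1 / (r : ℝ) - 2 / Real.sqrt (2 ^ n) ≤
      (ε + 2 * (1 / ((n : ℝ) + 1)) ^ 2 + 2 * (1 / ((n : ℝ) + 1))) ^ 2 := by
    intro n
    have hn : (0 : ℝ) < (n : ℝ) + 1 := by (clear * -; positivity)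
    obtain ⟨e0, g, ξ, T, Fr, he0A, h1, hg, hG⟩ := hfr n
    have h2 := frame_bound T hA he0A h1 hε hr hpave Fr hg hG
      (κ := (1 / ((n : ℝ) + 1)) ^ 2) (by (clear * -; (clear * -; positivity)))
    rw [Real.sqrt_sq (by (clear * -; positivity))] at h2
    exact h2
  have t0 : Tendsto (fun n : ℕ => 1 / ((n : ℝ) + 1)) atTop (𝓝 0) :=
    tendsto_one_div_add_atTop_nhds_zero_nat
  have t1 : Tendsto (fun n : ℕ => 2 / Real.sqrt (2 ^ n)) atTop (𝓝 0) := by
    have e1 : ∀ n : ℕ, 2 / Real.sqrt ((2 : ℝ) ^ n) = 2 * (1 / Real.sqrt 2) ^ n := by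
      intro n
      rw [one_div, inv_pow, ← div_eq_mul_inv]
      congr 1
      rw [Real.sqrt_eq_iff_mul_self_eq (by (clear * -; positivity)) (by (clear * -; positivity)), ← mul_pow,
        Real.mul_self_sqrt (by norm_num)]
    simp_rw [e1]
    have e2 : Tendsto (fun n : ℕ => (1 / Real.sqrt 2) ^ n) atTop (𝓝 0) := by
      refine tendsto_pow_atTop_nhds_zero_of_lt_one (by (clear * -; positivity)) ?_
      rw [div_lt_one (by (clear * -; positivity))]
      exact Real.lt_sqrt_of_sq_lt (by norm_num)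
    simpa only [one_div, inv_pow, mul_zero] using e2.const_mul 2
  have t2 : Tendsto (fun n : ℕ => 1 / (r : ℝ) - 2 / Real.sqrt (2 ^ n)) atTop
      (𝓝 (1 / (r : ℝ) - 0)) := tendsto_const_nhds.sub t1
  have t3 : Tendsto (fun n : ℕ => (ε + 2 * (1 / ((n : ℝ) + 1)) ^ 2 +
      2 * (1 / ((n : ℝ) + 1))) ^ 2) atTop (𝓝 ((ε + 2 * 0 ^ 2 + 2 * 0) ^ 2)) :=
    ((tendsto_const_nhds.add ((t0.pow 2).const_mul 2)).add (t0.const_mul 2)).pow 2
  have h2 := le_of_tendsto_of_tendsto' t2 t3 key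
  simpa only [one_div, ge_iff_le, sub_zero, one_pow, ne_eq, OfNat.ofNat_ne_zero, not_false_eq_true, zero_pow, mul_zero, add_zero] using h2

/-- a full frame from partial isometries with a common initial projection and orthogonal final
projections in `A` -/
theorem frame_of_units (T : CornerTrace M e0 ξ) (h1 : ‖T.X 1‖ = 1) (m : ℕ)
    {e v : Fin (2 ^ m) → (H →L[ℂ] H)} (he : ∀ l, e l ∈ A ∧ IsStarProjection (e l))
    (ho : ∀ l l', l ≠ l' → e l * e l' = 0) (hsum : ∑ l, e l = e0)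
    (hgM : g ∈ M) (hgp : IsStarProjection g) (heg : e0 * g = g)
    (hv : ∀ l, v l ∈ M ∧ v l * star (v l) = e l ∧ star (v l) * v l = g) :
    ∃ Fr : HFrame M A e0 g (Fin (2 ^ m)),
      ‖T.X g‖ ^ 2 ≤ 1 / (Fintype.card (Fin (2 ^ m)) : ℝ) ∧ 1 ≤ (T.tr Fr.G).re := by
  classical
  have hgg : g * g = g := hgp.isIdempotentElem.eq
  have h00 : e0 * e0 = e0 := T.proj.isIdempotentElem.eq
  have hge : g * e0 = g := by
    have := congrArg star heg
    rwa [star_mul, hgp.isSelfAdjoint.star_eq, T.proj.isSelfAdjoint.star_eq] at this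
  have hev : ∀ l, e l * v l = v l := by
    intro l
    have h2 : (e l * v l - v l) * star (e l * v l - v l) = 0 := by
      have h3 : v l * star (v l) = e l := (hv l).2.1
      have hee : e l * e l = e l := (he l).2.isIdempotentElem.eq
      rw [star_sub, star_mul, (he l).2.isSelfAdjoint.star_eq, sub_mul, mul_sub, mul_sub]
      have e1 : e l * v l * (star (v l) * e l) = e l := by
        rw [mul_assoc, ← mul_assoc (v l), h3, hee, hee]
      have e2 : e l * v l * star (v l) = e l := by rw [mul_assoc, h3, hee]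
      have e3 : v l * (star (v l) * e l) = e l := by rw [← mul_assoc, h3, hee]
      rw [e1, e2, e3, h3, sub_self]
    exact sub_eq_zero.1 ((CStarRing.mul_star_self_eq_zero_iff _).1 h2)
  have hvg : ∀ l, v l * g = v l := by
    intro l
    have h2 : star (v l * g - v l) * (v l * g - v l) = 0 := by
      have h3 : star (v l) * v l = g := (hv l).2.2
      rw [star_sub, star_mul, hgp.isSelfAdjoint.star_eq, sub_mul, mul_sub, mul_sub]
      have e1 : g * star (v l) * (v l * g) = g := by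
        rw [mul_assoc, ← mul_assoc (star (v l)), h3, hgg, hgg]
      have e2 : g * star (v l) * v l = g := by rw [mul_assoc, h3, hgg]
      have e3 : star (v l) * (v l * g) = g := by rw [← mul_assoc, h3, hgg]
      rw [e1, e2, e3, h3, sub_self]
    exact sub_eq_zero.1 ((CStarRing.star_mul_self_eq_zero_iff _).1 h2)
  have hee0 : ∀ l, e0 * e l = e l := by
    intro l
    rw [← hsum, Finset.sum_mul, Finset.sum_eq_single l]
    · exact (he l).2.isIdempotentElem.eq
    · intro j _ hj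
      exact ho j l hj
    · intro hi
      exact absurd (Finset.mem_univ l) hi
  have he0e : ∀ l, e l * e0 = e l := by
    intro l
    have := congrArg star (hee0 l)
    rwa [star_mul, (he l).2.isSelfAdjoint.star_eq, T.proj.isSelfAdjoint.star_eq] at this
  have hvn : ∀ l, ‖v l‖ ≤ 1 := by
    intro l
    have h2 : ‖v l‖ * ‖v l‖ ≤ 1 := by
      rw [← CStarRing.norm_self_mul_star, (hv l).2.1]
      exact proj_opNorm_le (he l).2
    nlinarith only [h2]
  obtain ⟨h, hh1, hh2, hh3⟩ := exists_walsh m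
  let Fr : HFrame M A e0 g (Fin (2 ^ m)) :=
    { e := e
      v := v
      h := h
      eA := fun l => (he l).1
      eP := fun l => (he l).2
      eo := ho
      ee := hee0
      gM := hgM
      gP := hgp
      eg := heg
      vM := fun l => (hv l).1
      ev := hev
      vg := hvg
      vn := hvn
      hs := hh1
      h2 := by intro i j; rw [hh2]; simp
      ho := hh3 }
  have hGe : Fr.G = e0 := by
    have h5 : Fr.G = ∑ l, v l * star (v l) := rfl
    rw [h5]
    exact (Finset.sum_congr rfl fun l _ => (hv l).2.1).trans hsum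
  have htr1 : (T.tr e0).re = 1 := by
    rw [← T.norm_X_proj_sq T.proj]
    have := T.X_mul_e0 1
    rw [one_mul] at this
    rw [this, h1, one_pow]
  have htrl : ∀ l, (T.tr (e l)).re = (T.tr g).re := by
    intro l
    have e1 : e0 * v l = v l := by rw [← hev l, ← mul_assoc, hee0]
    have e2 : v l * e0 = v l := by rw [← hvg l, mul_assoc, hge]
    have e3 : e0 * star (v l) = star (v l) := by
      have := congrArg star e2
      rwa [star_mul, T.proj.isSelfAdjoint.star_eq] at this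
    have e4 : star (v l) * e0 = star (v l) := by
      have := congrArg star e1
      rwa [star_mul, T.proj.isSelfAdjoint.star_eq] at this
    have h5 := T.tr_comm (hv l).1 (by rw [e1, e2]) (star_mem (hv l).1) (by rw [e3, e4])
    rw [(hv l).2.1, (hv l).2.2] at h5
    rw [h5]
  have hN : (Fintype.card (Fin (2 ^ m)) : ℝ) * (T.tr g).re = 1 := by
    have h6 : T.tr e0 = ∑ l, T.tr (e l) := by
      rw [← map_sum]
      exact congrArg T.tr hsum.symm
    rw [← htr1, h6, Complex.re_sum]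
    simp_rw [htrl]
    rw [Finset.sum_const, Finset.card_univ, nsmul_eq_mul]
  refine ⟨Fr, ?_, ?_⟩
  · rw [T.norm_X_proj_sq hgp]
    have hpos : (0 : ℝ) < (Fintype.card (Fin (2 ^ m)) : ℝ) := by
      rw [Fintype.card_fin]
      push_cast
      positivity
    rw [le_div_iff₀ hpos, mul_comm, hN]
  · rw [hGe, htr1]

end Vale.Agent.P078
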