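import Vale.Agent.P078.H598.Rate3
import Vale.Agent.P078.Bdl.Fast
import Mathlib.Analysis.InnerProductSpace.Adjoint
import Mathlib.Analysis.InnerProductSpace.Orthonormal

set_option linter.all false
attribute [local instance] Vale.Agent.P078.Fast.a01 Vale.Agent.P078.Fast.a02
  Vale.Agent.P078.Fast.a03 Vale.Agent.P078.Fast.a04 Vale.Agent.P078.Fast.a05
  Vale.Agent.P078.Fast.a06 Vale.Agent.P078.Fast.a07 Vale.Agent.P078.Fast.a08
  Vale.Agent.P078.Fast.a09 Vale.Agent.P078.Fast.a10 Vale.Agent.P078.Fast.a11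
  Vale.Agent.P078.Fast.a12 Vale.Agent.P078.Fast.a13 Vale.Agent.P078.Fast.a14
  Vale.Agent.P078.Fast.a15 Vale.Agent.P078.Fast.a16 Vale.Agent.P078.Fast.a17
  Vale.Agent.P078.Fast.a18 Vale.Agent.P078.Fast.a19 Vale.Agent.P078.Fast.a20
  Vale.Agent.P078.Fast.a21 Vale.Agent.P078.Fast.a22 Vale.Agent.P078.Fast.a23
  Vale.Agent.P078.Fast.a24 Vale.Agent.P078.Fast.a25 Vale.Agent.P078.Fast.a26
  Vale.Agent.P078.Fast.a27 Vale.Agent.P078.Fast.a28 Vale.Agent.P078.Fast.a29
  Vale.Agent.P078.Fast.a30 Vale.Agent.P078.Fast.a31 Vale.Agent.P078.Fast.a32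
  Vale.Agent.P078.Fast.a33 Vale.Agent.P078.Fast.a34 Vale.Agent.P078.Fast.a35
  Vale.Agent.P078.Fast.a36 Vale.Agent.P078.Fast.a37 Vale.Agent.P078.Fast.a38
  Vale.Agent.P078.Fast.a39 Vale.Agent.P078.Fast.a40 Vale.Agent.P078.Fast.a41
  Vale.Agent.P078.Fast.a42 Vale.Agent.P078.Fast.a43 Vale.Agent.P078.Fast.a44
  Vale.Agent.P078.Fast.a45 Vale.Agent.P078.Fast.a46 Vale.Agent.P078.Fast.a47
  Vale.Agent.P078.Fast.a48 Vale.Agent.P078.Fast.a49 Vale.Agent.P078.Fast.a50
  Vale.Agent.P078.Fast.a51 Vale.Agent.P078.Fast.a52 Vale.Agent.P078.Fast.a53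
  Vale.Agent.P078.Fast.a54

/-! Rates of growth of the so-paving number for all maximal abelian subalgebras of `B(H)`. -/

namespace Vale.Agent.P078

open Filter Topology
open scoped InnerProductSpace
open InnerProductSpace (rankOne)

variable {H : Type*} [NormedAddCommGroup H] [InnerProductSpace ℂ H] [CompleteSpace H]
variable {M : VonNeumannAlgebra H} {A : StarSubalgebra ℂ (H →L[ℂ] H)}

/-- a finite family of vectors, continued by zero -/
noncomputable def padZ {N : ℕ} (w : Fin N → H) : ℕ → H :=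
  fun n => if h : n < N then w ⟨n, h⟩ else 0

theorem padZ_coe {N : ℕ} (w : Fin N → H) (i : Fin N) : padZ w i = w i := by
  unfold padZ
  rw [dif_pos i.2]

theorem padZ_zero {N : ℕ} (w : Fin N → H) {n : ℕ} (hn : n ∉ Finset.range N) : padZ w n = 0 := by
  unfold padZ
  rw [dif_neg fun h => hn (Finset.mem_range.2 h)]

theorem padZ_tsum {E : Type*} [AddCommMonoid E] [TopologicalSpace E] {N : ℕ} (w : Fin N → H)
    (φ : H → E) (h0 : φ 0 = 0) : ∑' n, φ (padZ w n) = ∑ i, φ (w i) := by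
  rw [tsum_eq_sum (s := Finset.range N) fun n hn => by rw [padZ_zero w hn, h0],
    Finset.sum_range]
  exact Finset.sum_congr rfl fun i _ => by rw [padZ_coe]

theorem padZ_summable {N : ℕ} (w : Fin N → H) : Summable fun n => ‖padZ w n‖ ^ 2 :=
  summable_of_ne_finset_zero (s := Finset.range N) fun n hn => by
    rw [padZ_zero w hn, norm_zero]; norm_num

theorem isStarProjection_sum {N : ℕ} {p : Fin N → (H →L[ℂ] H)} (hp : ∀ i, IsStarProjection (p i))
    (ho : ∀ i j, i ≠ j → p i * p j = 0) : IsStarProjection (∑ i, p i) := by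
  refine ⟨?_, ?_⟩
  · change (∑ i, p i) * (∑ i, p i) = ∑ i, p i
    rw [Finset.sum_mul_sum]
    refine Finset.sum_congr rfl fun i _ => ?_
    rw [Finset.sum_eq_single i]
    · exact (hp i).isIdempotentElem.eq
    · intro j _ hj
      exact ho i j hj.symm
    · intro hi
      exact absurd (Finset.mem_univ i) hi
  · rw [IsSelfAdjoint, star_sum]
    exact Finset.sum_congr rfl fun i _ => (hp i).isSelfAdjoint.star_eq

theorem rankOne_mul_rankOne (a b c d : H) :
    (rankOne ℂ a b : H →L[ℂ] H) * rankOne ℂ c d = ⟪b, c⟫_ℂ • rankOne ℂ a d := by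
  ext ζ
  change rankOne ℂ a b (rankOne ℂ c d ζ) = ⟪b, c⟫_ℂ • (rankOne ℂ a d ζ)
  rw [InnerProductSpace.rankOne_apply, InnerProductSpace.rankOne_apply,
    InnerProductSpace.rankOne_apply, inner_smul_right, smul_smul, mul_comm]

theorem star_rankOne (a b : H) : star (rankOne ℂ a b : H →L[ℂ] H) = rankOne ℂ b a := by
  rw [ContinuousLinearMap.star_eq_adjoint, InnerProductSpace.adjoint_rankOne]

theorem sum_rankOne_apply {N : ℕ} (v : Fin N → H) (ζ : H) :
    (∑ l, rankOne ℂ (v l) (v l) : H →L[ℂ] H) ζ = ∑ l, ⟪v l, ζ⟫_ℂ • v l := by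
  rw [_root_.sum_apply]
  rfl

theorem cornerTrace_atoms (hM : ∀ x : H →L[ℂ] H, x ∈ M) {N : ℕ} (hN : 0 < N) {v : Fin N → H}
    (hv : Orthonormal ℂ v) :
    ∃ (ξ : ℕ → H) (T : CornerTrace M (∑ l, rankOne ℂ (v l) (v l)) ξ), ‖T.X 1‖ = 1 := by
  classical
  obtain ⟨e0, he0⟩ : ∃ e0 : H →L[ℂ] H, e0 = ∑ l, rankOne ℂ (v l) (v l) := ⟨_, rfl⟩
  rw [← he0]
  have hNR : (0 : ℝ) < N := by exact_mod_cast hN
  set c : ℝ := (Real.sqrt N)⁻¹ with hc
  have hc2 : c ^ 2 = 1 / N := by rw [hc, inv_pow, Real.sq_sqrt hNR.le, one_div]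
  set w : Fin N → H := fun l => (c : ℂ) • v l with hw
  have he0v : ∀ l, e0 (v l) = v l := by
    intro l
    rw [he0, sum_rankOne_apply, Finset.sum_eq_single l]
    · rw [inner_self_eq_norm_sq_to_K, hv.1 l]
      simp
    · intro j _ hj
      rw [hv.2 hj, zero_smul]
    · intro hi
      exact absurd (Finset.mem_univ l) hi
  have hproj : IsStarProjection e0 := by
    rw [he0]
    refine isStarProjection_sum
      (fun i => InnerProductSpace.isStarProjection_rankOne_self (hv.1 i)) fun i j hij => ?_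
    rw [rankOne_mul_rankOne, hv.2 hij, zero_smul]
  have hvt : ∀ x : H →L[ℂ] H, vecTrace (padZ w) x = ((c ^ 2 : ℝ) : ℂ) * ∑ l, ⟪v l, x (v l)⟫_ℂ := by
    intro x
    unfold vecTrace
    rw [padZ_tsum w (fun ζ => ⟪ζ, x ζ⟫_ℂ) (by rw [inner_zero_left]), Finset.mul_sum]
    refine Finset.sum_congr rfl fun l _ => ?_
    rw [hw]
    simp only [map_smul, inner_smul_right, inner_smul_left, Complex.conj_ofReal]
    push_cast
    ring
  have key : ∀ x y : H →L[ℂ] H, e0 * y * e0 = y →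
      ∑ l, ⟪v l, (x * y) (v l)⟫_ℂ = ∑ l, ∑ k, ⟪v k, y (v l)⟫_ℂ * ⟪v l, x (v k)⟫_ℂ := by
    intro x y hy
    refine Finset.sum_congr rfl fun l _ => ?_
    have h1 : y (v l) = ∑ k, ⟪v k, y (v l)⟫_ℂ • v k := by
      have h2 : e0 * y = y := by
        rw [← hy, ← mul_assoc, ← mul_assoc, hproj.isIdempotentElem.eq]
      have h3 : e0 (y (v l)) = y (v l) := DFunLike.congr_fun h2 (v l)
      rw [he0, sum_rankOne_apply] at h3
      exact h3.symm
    change ⟪v l, x (y (v l))⟫_ℂ = _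
    conv_lhs => rw [h1]
    rw [map_sum, inner_sum]
    refine Finset.sum_congr rfl fun k _ => ?_
    rw [map_smul, inner_smul_right]
  let T : CornerTrace M e0 (padZ w) :=
    { summable := padZ_summable w
      mem := hM e0
      proj := hproj
      apply := fun n => by
        by_cases hn : n < N
        · have h1 : padZ w n = w ⟨n, hn⟩ := by unfold padZ; rw [dif_pos hn]
          rw [h1, hw]
          simp only
          rw [map_smul, he0v]
        · rw [padZ_zero w (fun h => hn (Finset.mem_range.1 h)), map_zero]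
      trace := fun x _ y _ hx hy => by
        rw [hvt, hvt, key x y hy, key y x hx]
        congr 1
        rw [Finset.sum_comm]
        exact Finset.sum_congr rfl fun l _ => Finset.sum_congr rfl fun k _ => mul_comm _ _ }
  refine ⟨padZ w, T, ?_⟩
  have h2 : ‖T.X 1‖ ^ 2 = 1 := by
    have h3 : ‖T.X 1‖ ^ 2 = ∑' n, ‖(1 : H →L[ℂ] H) (padZ w n)‖ ^ 2 :=
      vecMap_norm_sq T.summable 1
    rw [h3]
    change ∑' n, ‖padZ w n‖ ^ 2 = 1
    rw [padZ_tsum w (fun ζ => ‖ζ‖ ^ 2) (by rw [norm_zero]; norm_num)]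
    have h4 : ∀ l, ‖w l‖ ^ 2 = 1 / N := by
      intro l
      rw [hw]
      simp only
      rw [norm_smul, mul_pow, hv.1 l, Complex.norm_real, Real.norm_eq_abs, sq_abs, hc2, one_pow,
        mul_one]
    simp_rw [h4]
    rw [Finset.sum_const, Finset.card_univ, Fintype.card_fin, nsmul_eq_mul,
      mul_one_div_cancel hNR.ne']
  have h3 : 0 ≤ ‖T.X 1‖ := norm_nonneg _
  nlinarith only [h2, h3]

/-- the quadratic lower bound for maximal abelian subalgebras with infinitely many atoms -/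
theorem quadratic_atoms (hM : ∀ x : H →L[ℂ] H, x ∈ M) (hA : IsMASA A M)
    (hinf : ∀ n : ℕ, ∃ v : Fin n → H, Orthonormal ℂ v ∧ ∀ l, rankOne ℂ (v l) (v l) ∈ A)
    {ε : ℝ} (hε : 0 < ε) : (⌈1 / ε ^ 2⌉₊ : ℕ∞) ≤ pavingNumber M A 1 ε := by
  refine le_pavingNumber fun r hr hpave => ?_
  have h3 : 1 / (r : ℝ) ≤ ε ^ 2 := by
    refine quadratic_of_frames hA hε.le (by omega)
      (fun x hx hxs => hpave x hx hxs (by simp)) fun m => ?_
    obtain ⟨v, hv, hvA⟩ := hinf (2 ^ m)
    have hpos : 0 < 2 ^ m := by positivity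
    obtain ⟨ξ, T, hT⟩ := cornerTrace_atoms hM hpos hv
    have ho : ∀ l l', l ≠ l' →
        (rankOne ℂ (v l) (v l) : H →L[ℂ] H) * rankOne ℂ (v l') (v l') = 0 := by
      intro l l' hll
      rw [rankOne_mul_rankOne, hv.2 hll, zero_smul]
    have hone : ∀ l, ⟪v l, v l⟫_ℂ = 1 := by
      intro l
      rw [inner_self_eq_norm_sq_to_K, hv.1 l]
      simp
    obtain ⟨Fr, hg, hG⟩ := frame_of_units (A := A) T hT m
      (g := rankOne ℂ (v ⟨0, hpos⟩) (v ⟨0, hpos⟩))
      (e := fun l => rankOne ℂ (v l) (v l)) (v := fun l => rankOne ℂ (v l) (v ⟨0, hpos⟩))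
      (fun l => ⟨hvA l, InnerProductSpace.isStarProjection_rankOne_self (hv.1 l)⟩) ho rfl
      (hM _) (InnerProductSpace.isStarProjection_rankOne_self (hv.1 _)) (by
        rw [Finset.sum_mul, Finset.sum_eq_single ⟨0, hpos⟩]
        · exact (InnerProductSpace.isStarProjection_rankOne_self (hv.1 _)).isIdempotentElem.eq
        · intro j _ hj
          exact ho j _ hj
        · intro hi
          exact absurd (Finset.mem_univ _) hi)
      (fun l => ⟨hM _, by rw [star_rankOne, rankOne_mul_rankOne, hone, one_smul],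
        by rw [star_rankOne, rankOne_mul_rankOne, hone, one_smul]⟩)
    exact ⟨_, _, ξ, T, Fr, sum_mem fun l _ => hvA l, hT, hg, hG⟩
  rw [Nat.cast_le, Nat.ceil_le]
  have hr0 : (0 : ℝ) < r := by exact_mod_cast hr
  rw [div_le_iff₀ hr0] at h3
  rw [div_le_iff₀ (by positivity)]
  linarith only [h3]

end Vale.Agent.P078
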