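import Vale.Agent.P078.H598.Rate4
import Vale.Agent.P078.Bdl.Fast

set_option linter.all false
attribute [local instance] Vale.Agent.P078.Fast.a01 Vale.Agent.P078.Fast.a02
  Vale.Agent.P078.Fast.a03 Vale.Agent.P078.Fast.a04 Vale.Agent.P078.Fast.a05
  Vale.Agent.P078.Fast.a06 Vale.Agent.P078.Fast.a07 Vale.Agent.P078.Fast.a08
  Vale.Agent.P078.Fast.a09 Vale.Agent.P078.Fast.a10 Vale.Agent.P078.Fast.a11
  Vale.Agent.P078.Fast.a12 Vale.Agent.P078.Fast.a13 Vale.Agent.P078.Fast.a14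
  Vale.Agent.P078.Fast.a15 Vale.Agent.P078.Fast.a16 Vale.Agent.P078.Fast.a17
  Vale.Agent.P078.Fast.a18 Vale.Agent.P078.Fast.a19 Vale.Agent.P078.Fast.a20
  Vale.Agent.P078.Fast.a21 Vale.Agent.P078.Fast.a22 Vale.Agent.P078.Fast.a23
  Vale.Agent.P078.Fast.a24 Vale.Agent.P078.Fast.a25 Vale.Agent.P078.Fast.a26
  Vale.Agent.P078.Fast.a27 Vale.Agent.P078.Fast.a28 Vale.Agent.P078.Fast.a29
  Vale.Agent.P078.Fast.a30 Vale.Agent.P078.Fast.a31 Vale.Agent.P078.Fast.a32
  Vale.Agent.P078.Fast.a33 Vale.Agent.P078.Fast.a34 Vale.Agent.P078.Fast.a35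
  Vale.Agent.P078.Fast.a36 Vale.Agent.P078.Fast.a37 Vale.Agent.P078.Fast.a38
  Vale.Agent.P078.Fast.a39 Vale.Agent.P078.Fast.a40 Vale.Agent.P078.Fast.a41
  Vale.Agent.P078.Fast.a42 Vale.Agent.P078.Fast.a43 Vale.Agent.P078.Fast.a44
  Vale.Agent.P078.Fast.a45 Vale.Agent.P078.Fast.a46 Vale.Agent.P078.Fast.a47
  Vale.Agent.P078.Fast.a48 Vale.Agent.P078.Fast.a49 Vale.Agent.P078.Fast.a50
  Vale.Agent.P078.Fast.a51 Vale.Agent.P078.Fast.a52 Vale.Agent.P078.Fast.a53
  Vale.Agent.P078.Fast.a54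

/-! Rates of growth of the so-paving number for all maximal abelian subalgebras of `B(H)`:
finitely many atoms and infinitely many atoms. -/

namespace Vale.Agent.P078

open Filter Topology
open scoped InnerProductSpace
open InnerProductSpace (rankOne)

variable {H : Type*} [NormedAddCommGroup H] [InnerProductSpace ℂ H] [CompleteSpace H]
variable {M : VonNeumannAlgebra H} {A : StarSubalgebra ℂ (H →L[ℂ] H)}

theorem rankOne_conj (v : H) (x : H →L[ℂ] H) :
    (rankOne ℂ v v : H →L[ℂ] H) * x * rankOne ℂ v v = ⟪v, x v⟫_ℂ • rankOne ℂ v v := by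
  ext ζ
  change rankOne ℂ v v (x (rankOne ℂ v v ζ)) = ⟪v, x v⟫_ℂ • (rankOne ℂ v v ζ)
  rw [InnerProductSpace.rankOne_apply, InnerProductSpace.rankOne_apply, map_smul,
    inner_smul_right, smul_smul, mul_comm]

theorem inner_self_one {v : H} (hv : ‖v‖ = 1) : ⟪v, v⟫_ℂ = 1 := by
  rw [inner_self_eq_norm_sq_to_K, hv]
  simp

/-- commuting rank-one projections are equal or orthogonal -/
theorem rankOne_orth {v w : H} (hv : ‖v‖ = 1) (hw : ‖w‖ = 1)
    (hc : (rankOne ℂ v v : H →L[ℂ] H) * rankOne ℂ w w = rankOne ℂ w w * rankOne ℂ v v)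
    (hne : (rankOne ℂ v v : H →L[ℂ] H) ≠ rankOne ℂ w w) : ⟪v, w⟫_ℂ = 0 := by
  by_contra h0
  apply hne
  have h1 : ⟪v, w⟫_ℂ • v = (⟪w, v⟫_ℂ * ⟪v, w⟫_ℂ) • w := by
    have h2 := DFunLike.congr_fun hc w
    change rankOne ℂ v v (rankOne ℂ w w w) = rankOne ℂ w w (rankOne ℂ v v w) at h2
    simp only [InnerProductSpace.rankOne_apply, inner_self_one hw, one_smul, map_smul] at h2
    rw [h2, smul_smul, mul_comm]
  have h2 : v = ⟪w, v⟫_ℂ • w := by
    have h3 := congrArg (fun ζ => (⟪v, w⟫_ℂ)⁻¹ • ζ) h1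
    simp only [smul_smul] at h3
    rw [inv_mul_cancel₀ h0, one_smul, mul_comm ⟪w, v⟫_ℂ, ← mul_assoc, inv_mul_cancel₀ h0,
      one_mul] at h3
    exact h3
  obtain ⟨c, hc'⟩ : ∃ c : ℂ, c = ⟪w, v⟫_ℂ := ⟨_, rfl⟩
  rw [← hc'] at h2
  have hc1 : ‖c‖ = 1 := by
    have h3 := congrArg norm h2
    rw [norm_smul, hv, hw, mul_one] at h3
    exact h3.symm
  have h4 : (starRingEnd ℂ) c * c = 1 := by
    rw [Complex.conj_mul', hc1]
    simp
  rw [h2]
  ext ζ
  simp only [InnerProductSpace.rankOne_apply, inner_smul_left, smul_smul]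
  rw [mul_right_comm, h4, one_mul]

/-- a projection `e` of `B(H)` with `e x e` a multiple of `e` for all `x` is a rank-one
projection -/
theorem exists_rankOne_of_minimal {e : H →L[ℂ] H} (hep : IsStarProjection e) (he : e ≠ 0)
    (h : ∀ x : H →L[ℂ] H, ∃ c : ℂ, e * x * e = c • e) :
    ∃ v : H, ‖v‖ = 1 ∧ e = rankOne ℂ v v := by
  obtain ⟨v, hev, hv⟩ := exists_unit_of_proj hep he
  refine ⟨v, hv, ?_⟩
  obtain ⟨c, hc⟩ := h (rankOne ℂ v v)
  have h1 : e * (rankOne ℂ v v : H →L[ℂ] H) * e = rankOne ℂ v v := by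
    ext ζ
    change e (rankOne ℂ v v (e ζ)) = rankOne ℂ v v ζ
    rw [InnerProductSpace.rankOne_apply, InnerProductSpace.rankOne_apply, map_smul, hev,
      ← proj_inner hep, hev]
  rw [h1] at hc
  have h2 : c = 1 := by
    have h3 := DFunLike.congr_fun hc v
    change rankOne ℂ v v v = c • e v at h3
    rw [InnerProductSpace.rankOne_apply, inner_self_one hv, hev] at h3
    have h4 : (1 - c) • v = 0 := by rw [sub_smul, h3, sub_self]
    rcases smul_eq_zero.1 h4 with h5 | h5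
    · exact (sub_eq_zero.1 h5).symm
    · rw [h5, norm_zero] at hv
      exact absurd hv zero_ne_one
  rw [hc, h2, one_smul]

/-- the rank-one projections in `A` -/
def atomSet (A : StarSubalgebra ℂ (H →L[ℂ] H)) : Set (H →L[ℂ] H) :=
  {e | e ∈ A ∧ ∃ v : H, ‖v‖ = 1 ∧ e = rankOne ℂ v v}

theorem exists_orthonormal_of_atoms (hc : ∀ x ∈ A, ∀ y ∈ A, x * y = y * x) {n : ℕ}
    {f : Fin n → (H →L[ℂ] H)} (hf : ∀ i, f i ∈ atomSet A) (hinj : Function.Injective f) :
    ∃ v : Fin n → H, Orthonormal ℂ v ∧ ∀ l, f l = rankOne ℂ (v l) (v l) := by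
  choose v hv1 hv2 using fun i => (hf i).2
  refine ⟨v, ⟨hv1, fun i j hij => ?_⟩, hv2⟩
  refine rankOne_orth (hv1 i) (hv1 j) ?_ ?_
  · rw [← hv2, ← hv2]
    exact hc _ (hf i).1 _ (hf j).1
  · rw [← hv2, ← hv2]
    exact fun h => hij (hinj h)

theorem quadratic_of_infinite (hM : ∀ x : H →L[ℂ] H, x ∈ M) (hA : IsMASA A M)
    (hinf : (atomSet A).Infinite) {ε : ℝ} (hε : 0 < ε) :
    (⌈1 / ε ^ 2⌉₊ : ℕ∞) ≤ pavingNumber M A 1 ε := by
  classical
  refine quadratic_atoms hM hA (fun n => ?_) hε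
  obtain ⟨t, ht, htc⟩ := hinf.exists_subset_card_eq n
  let φ := (t.equivFinOfCardEq htc).symm
  obtain ⟨v, hv, hvf⟩ := exists_orthonormal_of_atoms hA.2.1 (f := fun i => (φ i : H →L[ℂ] H))
    (fun i => ht (φ i).2) (fun i j hij => φ.injective (Subtype.ext hij))
  refine ⟨v, hv, fun l => ?_⟩
  rw [← hvf l]
  exact (ht (φ l).2).1

/-- the structure of a maximal abelian subalgebra of `B(H)` with exactly `N` atoms -/
theorem exists_split (hM : ∀ x : H →L[ℂ] H, x ∈ M) (hA : IsMASA A M) {N : ℕ}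
    (hN : (atomSet A).encard = N) :
    ∃ z ∈ A, IsStarProjection z ∧ SumAbelian M A z N ∧ SmallProp M A (1 - z) ∧
      (¬ FiniteDimensional ℂ H → 1 - z ≠ 0) := by
  classical
  have hfin : (atomSet A).Finite := Set.finite_of_encard_eq_coe hN
  have hcard : hfin.toFinset.card = N := by
    have h1 := hfin.encard_eq_coe_toFinset_card
    rw [hN] at h1
    exact_mod_cast h1.symm
  let φ := (hfin.toFinset.equivFinOfCardEq hcard).symm
  obtain ⟨f, hf⟩ : ∃ f : Fin N → (H →L[ℂ] H), f = fun i => (φ i : H →L[ℂ] H) := ⟨_, rfl⟩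
  have hfm : ∀ i, f i ∈ atomSet A := fun i => by
    rw [hf]
    exact hfin.mem_toFinset.1 (φ i).2
  have hfinj : Function.Injective f := by
    rw [hf]
    exact fun i j hij => φ.injective (Subtype.ext hij)
  have hfsur : ∀ e ∈ atomSet A, ∃ i, f i = e := by
    intro e he
    refine ⟨φ.symm ⟨e, hfin.mem_toFinset.2 he⟩, ?_⟩
    rw [hf]
    simp
  obtain ⟨v, hv, hfv⟩ := exists_orthonormal_of_atoms hA.2.1 hfm hfinj
  have hfp : ∀ i, IsStarProjection (f i) := fun i => by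
    rw [hfv i]
    exact InnerProductSpace.isStarProjection_rankOne_self (hv.1 i)
  have hfo : ∀ i j, i ≠ j → f i * f j = 0 := by
    intro i j hij
    rw [hfv i, hfv j, rankOne_mul_rankOne, hv.2 hij, zero_smul]
  obtain ⟨z, hz⟩ : ∃ z, z = ∑ i, f i := ⟨_, rfl⟩
  have hzA : z ∈ A := by rw [hz]; exact sum_mem fun i _ => (hfm i).1
  have hzp : IsStarProjection z := by rw [hz]; exact isStarProjection_sum hfp hfo
  have hzf : ∀ i, z * f i = f i := by
    intro i
    rw [hz, Finset.sum_mul, Finset.sum_eq_single i]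
    · exact (hfp i).isIdempotentElem.eq
    · intro j _ hj
      exact hfo j i hj
    · intro hi
      exact absurd (Finset.mem_univ i) hi
  refine ⟨z, hzA, hzp, ⟨f, fun i => ⟨(hfm i).1, hfp i, fun x _ => ?_⟩, hfo, hz.symm⟩, ?_, ?_⟩
  · rw [hfv i, rankOne_conj, ← hfv i]
    exact A.smul_mem (hfm i).1 _
  · refine smallProp_of_diffuse_corner hM hA (sub_mem (one_mem A) hzA) hzp.one_sub ?_
    intro e heA hep hze he
    by_contra hcon
    push Not at hcon
    have hmin := hA.minimal heA hep he fun f hfA hfp hef => by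
      by_cases hf0 : f = 0
      · exact Or.inl hf0
      · exact Or.inr (hcon f hfA hfp hef hf0)
    obtain ⟨u, hu, heu⟩ := exists_rankOne_of_minimal hep he fun x => hmin x (hM x)
    obtain ⟨i, hi⟩ := hfsur e ⟨heA, u, hu, heu⟩
    apply he
    have h1 : z * e = e := by rw [← hi]; exact hzf i
    rw [sub_mul, one_mul, h1, sub_self] at hze
    exact hze.symm
  · intro hinf h0
    apply hinf
    have hz1 : z = 1 := (sub_eq_zero.1 h0).symm
    have htop : (⊤ : Submodule ℂ H) ≤ Submodule.span ℂ (Set.range v) := by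
      intro ζ _
      have h1 : ζ = ∑ l, ⟪v l, ζ⟫_ℂ • v l := by
        rw [← sum_rankOne_apply]
        have h2 : (∑ l, rankOne ℂ (v l) (v l) : H →L[ℂ] H) = 1 := by
          rw [← hz1, hz]
          exact Finset.sum_congr rfl fun l _ => (hfv l).symm
        rw [h2]
        rfl
      rw [h1]
      exact Submodule.sum_mem _ fun l _ =>
        Submodule.smul_mem _ _ (Submodule.subset_span ⟨l, rfl⟩)
    have h3 : FiniteDimensional ℂ (Submodule.span ℂ (Set.range v)) :=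
      FiniteDimensional.span_of_finite ℂ (Set.finite_range v)
    have h4 : FiniteDimensional ℂ (⊤ : Submodule ℂ H) := Submodule.finiteDimensional_of_le htop
    exact FiniteDimensional.of_surjective (Submodule.subtype ⊤) fun ζ => ⟨⟨ζ, trivial⟩, rfl⟩

end Vale.Agent.P078
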