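import Vale.Agent.P078.H598.Rate5
import Vale.Agent.P078.Bdl.B17
import Vale.Agent.P078.Bdl.Fast

set_option linter.all false
attribute [local instance] Vale.Agent.P078.Fast.a01 Vale.Agent.P078.Fast.a02
  Vale.Agent.P078.Fast.a03 Vale.Agent.P078.Fast.a04 Vale.Agent.P078.Fast.a05
  Vale.Agent.P078.Fast.a06 Vale.Agent.P078.Fast.a07 Vale.Agent.P078.Fast.a08
  Vale.Agent.P078.Fast.a09 Vale.Agent.P078.Fast.a10 Vale.Agent.P078.Fast.a11
  Vale.Agent.P078.Fast.a12 Vale.Agent.P078.Fast.a13 Vale.Agent.P078.Fast.a14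
  Vale.Agent.P078.Fast.a15 Vale.Agent.P078.Fast.a16 Vale.Agent.P078.Fast.a17
  Vale.Agent.P078.Fast.a18 Vale.Agent.P078.Fast.a19 Vale.Agent.P078.Fast.a20
  Vale.Agent.P078.Fast.a21 Vale.Agent.P078.Fast.a22 Vale.Agent.P078.Fast.a23
  Vale.Agent.P078.Fast.a24 Vale.Agent.P078.Fast.a25 Vale.Agent.P078.Fast.a26
  Vale.Agent.P078.Fast.a27 Vale.Agent.P078.Fast.a28 Vale.Agent.P078.Fast.a29
  Vale.Agent.P078.Fast.a30 Vale.Agent.P078.Fast.a31 Vale.Agent.P078.Fast.a32
  Vale.Agent.P078.Fast.a33 Vale.Agent.P078.Fast.a34 Vale.Agent.P078.Fast.a35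
  Vale.Agent.P078.Fast.a36 Vale.Agent.P078.Fast.a37 Vale.Agent.P078.Fast.a38
  Vale.Agent.P078.Fast.a39 Vale.Agent.P078.Fast.a40 Vale.Agent.P078.Fast.a41
  Vale.Agent.P078.Fast.a42 Vale.Agent.P078.Fast.a43 Vale.Agent.P078.Fast.a44
  Vale.Agent.P078.Fast.a45 Vale.Agent.P078.Fast.a46 Vale.Agent.P078.Fast.a47
  Vale.Agent.P078.Fast.a48 Vale.Agent.P078.Fast.a49 Vale.Agent.P078.Fast.a50
  Vale.Agent.P078.Fast.a51 Vale.Agent.P078.Fast.a52 Vale.Agent.P078.Fast.a53
  Vale.Agent.P078.Fast.a54

/-! Rates of growth of the so-paving number: the quadratic lower bound for semifinite factors. -/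

namespace Vale.Agent.P078

open Filter Topology Vale.Agent.P078.C Vale.Agent.P078.G
open scoped InnerProductSpace ENNReal
open Vale.Agent.P078.SO (wt SemiTrace)

universe u

variable {H : Type u} [NormedAddCommGroup H] [InnerProductSpace ℂ H] [CompleteSpace H]
variable {M A : VonNeumannAlgebra H}

theorem wt_mono {ι : Type*} (η : ι → H) {f p : H →L[ℂ] H} (hf : IsStarProjection f)
    (hfp : f * p = f) : wt η f ≤ wt η p := by
  unfold wt
  refine ENNReal.tsum_le_tsum fun k => ENNReal.ofReal_le_ofReal ?_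
  have h1 : f (η k) = f (p (η k)) := by
    conv_lhs => rw [← hfp]
    rfl
  rw [h1]
  exact pow_le_pow_left₀ (norm_nonneg _) (proj_norm_le hf _) 2

/-- a normalized trace on a corner -/
theorem exists_cornerTrace {p : H →L[ℂ] H} (hpM : p ∈ M) (hpp : IsStarProjection p) (hp0 : p ≠ 0)
    {ξ : ℕ → H} (hξ : TraceOn M p ξ) :
    ∃ (η : ℕ → H) (T : CornerTrace M p η), ‖T.X 1‖ = 1 ∧
      ∀ x ∈ M, (∀ n, x (η n) = 0) → x * p = 0 := by
  set C : ℝ := ∑' n, ‖ξ n‖ ^ 2 with hC
  have hne : ∃ n, ξ n ≠ 0 := by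
    by_contra hcon
    push Not at hcon
    apply hp0
    have h1 := hξ.faithful 1 (one_mem M) fun n => by rw [hcon n, map_zero]
    rwa [one_mul] at h1
  have hCpos : 0 < C := by
    obtain ⟨n, hn⟩ := hne
    exact hξ.summable.tsum_pos (fun n => sq_nonneg _) n (by
      have := norm_pos_iff.mpr hn
      positivity)
  set c : ℝ := (Real.sqrt C)⁻¹ with hcdef
  set η : ℕ → H := fun n => (c : ℂ) • ξ n with hη
  have hηn : ∀ n, ‖η n‖ ^ 2 = c ^ 2 * ‖ξ n‖ ^ 2 := by
    intro n
    rw [hη]
    simp only [norm_smul, mul_pow, Complex.norm_real, Real.norm_eq_abs, sq_abs]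
  have hηs : Summable fun n => ‖η n‖ ^ 2 := by
    simp_rw [hηn]; exact hξ.summable.mul_left _
  have hvt : ∀ x, vecTrace η x = ((c ^ 2 : ℝ) : ℂ) * vecTrace ξ x := by
    intro x
    unfold vecTrace
    rw [← tsum_mul_left]
    refine tsum_congr fun n => ?_
    rw [hη]
    simp only [map_smul, inner_smul_right, inner_smul_left, Complex.conj_ofReal]
    push_cast
    ring
  have hpp2 : p * p = p := hpp.isIdempotentElem.eq
  have T : CornerTrace M p η :=
    { summable := hηs
      mem := hpM
      proj := hpp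
      apply := fun n => by
        rw [hη]
        simp only
        rw [map_smul, hξ.fix]
      trace := fun x hx y hy hpx hpy => by
        rw [hvt, hvt]
        congr 1
        have h1 := hξ.tracial x hx y hy
        have e1 : x * p = x := by rw [← hpx, mul_assoc, hpp2]
        have e2 : y * p = y := by rw [← hpy, mul_assoc, hpp2]
        rw [e1, e2] at h1
        exact h1 }
  refine ⟨η, T, ?_, fun x hx h => hξ.faithful x hx fun n => ?_⟩
  swap
  · have h5 := h n
    rw [hη] at h5
    simp only [map_smul] at h5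
    refine (smul_eq_zero.1 h5).resolve_left ?_
    have hc0 : 0 < c := inv_pos.mpr (Real.sqrt_pos.mpr hCpos)
    exact_mod_cast hc0.ne'
  have h2 : ‖T.X 1‖ ^ 2 = 1 := by
    have h3 : ‖T.X 1‖ ^ 2 = ∑' n, ‖(1 : H →L[ℂ] H) (η n)‖ ^ 2 := vecMap_norm_sq T.summable 1
    rw [h3]
    have h4 : ∀ n, ‖(1 : H →L[ℂ] H) (η n)‖ ^ 2 = c ^ 2 * ‖ξ n‖ ^ 2 := hηn
    simp_rw [h4]
    rw [tsum_mul_left, ← hC, hcdef, inv_pow, Real.sq_sqrt hCpos.le, inv_mul_cancel₀ hCpos.ne']
  have h3 : 0 ≤ ‖T.X 1‖ := norm_nonneg _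
  nlinarith only [h2, h3]

/-- below a projection of a finite-dimensional corner there is a minimal projection of `A` -/
theorem exists_minimal {A : StarSubalgebra ℂ (H →L[ℂ] H)} (hA : IsMASA A M) {e : H →L[ℂ] H}
    (heA : e ∈ A) (hep : IsStarProjection e) (he : e ≠ 0) (hfin : ¬ InfCorner M e) :
    ∃ f ∈ A, IsStarProjection f ∧ f ≠ 0 ∧ e * f = f ∧ ∀ x ∈ M, ∃ c : ℂ, f * x * f = c • f := by
  classical
  by_contra hcon
  have hcon' : ∀ f ∈ A, IsStarProjection f → e * f = f → f ≠ 0 →
      ∃ g ∈ A, IsStarProjection g ∧ f * g = g ∧ g ≠ 0 ∧ g ≠ f := by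
    intro f hfA hfp hef hf0
    by_contra hg
    push Not at hg
    apply hcon
    refine ⟨f, hfA, hfp, hf0, hef, hA.minimal hfA hfp hf0 fun g hgA hgp hfg => ?_⟩
    by_cases hg0 : g = 0
    · exact Or.inl hg0
    · exact Or.inr (hg g hgA hgp hfg hg0)
  have hmany : ∀ n : ℕ, ∀ f ∈ A, IsStarProjection f → e * f = f → f ≠ 0 →
      ∃ p : Fin n → (H →L[ℂ] H), (∀ i, p i ∈ A ∧ IsStarProjection (p i) ∧ p i ≠ 0 ∧
        f * p i = p i) ∧ ∀ i j, i ≠ j → p i * p j = 0 := by
    intro n
    induction n with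
    | zero => exact fun f _ _ _ _ => ⟨fun i => i.elim0, fun i => i.elim0, fun i => i.elim0⟩
    | succ n ih =>
      intro f hfA hfp hef hf0
      obtain ⟨g, hgA, hgp, hfg, hg0, hgf⟩ := hcon' f hfA hfp hef hf0
      obtain ⟨p, hp, ho⟩ := ih g hgA hgp (by rw [← hfg, ← mul_assoc, hef]) hg0
      have hgf' : g * f = g := by rw [hA.2.1 g hgA f hfA, hfg]
      have hff : f * f = f := hfp.isIdempotentElem.eq
      have hgg : g * g = g := hgp.isIdempotentElem.eq
      have hsubp : IsStarProjection (f - g) := by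
        refine ⟨?_, hfp.isSelfAdjoint.sub hgp.isSelfAdjoint⟩
        change (f - g) * (f - g) = f - g
        rw [sub_mul, mul_sub, mul_sub, hff, hfg, hgf', hgg, sub_self, sub_zero]
      refine ⟨Fin.cons (f - g) p, fun i => ?_, fun i j hij => ?_⟩
      · refine Fin.cases ?_ (fun i => ?_) i
        · rw [Fin.cons_zero]
          exact ⟨sub_mem hfA hgA, hsubp, sub_ne_zero.2 (Ne.symm hgf), by rw [mul_sub, hff, hfg]⟩
        · rw [Fin.cons_succ]
          refine ⟨(hp i).1, (hp i).2.1, (hp i).2.2.1, ?_⟩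
          rw [← (hp i).2.2.2, ← mul_assoc, hfg]
      · have h1 : ∀ i, (f - g) * p i = 0 := fun i => by
          rw [sub_mul, (hp i).2.2.2, ← (hp i).2.2.2, ← mul_assoc, hfg, sub_self]
        have h2 : ∀ i, p i * (f - g) = 0 := fun i => by
          rw [hA.2.1 _ (hp i).1 _ (sub_mem hfA hgA), h1]
        revert hij
        refine Fin.cases ?_ (fun i => ?_) i <;> refine Fin.cases ?_ (fun j => ?_) j
        · intro h
          exact absurd rfl h
        · intro _
          rw [Fin.cons_zero, Fin.cons_succ]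
          exact h1 j
        · intro _
          rw [Fin.cons_zero, Fin.cons_succ]
          exact h2 i
        · intro hij
          rw [Fin.cons_succ, Fin.cons_succ]
          exact ho i j fun h => hij (by rw [h])
  unfold InfCorner at hfin
  rw [not_not] at hfin
  obtain ⟨s, hs⟩ := hfin
  have hee : e * e = e := hep.isIdempotentElem.eq
  obtain ⟨p, hp, ho⟩ := hmany (s.card + 1) e heA hep hee he
  have hfd : FiniteDimensional ℂ (Submodule.span ℂ (s : Set (H →L[ℂ] H))) :=
    FiniteDimensional.span_finset ℂ s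
  have hpe : ∀ i, p i * e = p i := fun i => by
    rw [hA.2.1 _ (hp i).1 _ heA, (hp i).2.2.2]
  let v : Fin (s.card + 1) → Submodule.span ℂ (s : Set (H →L[ℂ] H)) :=
    fun i => ⟨p i, hs _ (hA.1 (hp i).1) (by rw [(hp i).2.2.2, hpe])⟩
  have hv : LinearIndependent ℂ v := by
    rw [Fintype.linearIndependent_iff]
    intro g hg i
    have h2 : ∑ j, g j • p j = 0 := by
      have h3 : ((∑ j, g j • v j : Submodule.span ℂ (s : Set (H →L[ℂ] H))) : H →L[ℂ] H) =
          ∑ j, g j • p j := by
        rw [AddSubmonoidClass.coe_finset_sum]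
        rfl
      rw [← h3, hg]
      rfl
    have h4 : p i * ∑ j, g j • p j = g i • p i := by
      rw [Finset.mul_sum, Finset.sum_eq_single i]
      · rw [mul_smul_comm, (hp i).2.1.isIdempotentElem.eq]
      · intro j _ hj
        rw [mul_smul_comm, ho i j hj.symm, smul_zero]
      · intro hi
        exact absurd (Finset.mem_univ i) hi
    rw [h2, mul_zero] at h4
    exact (smul_eq_zero.1 h4.symm).resolve_right (hp i).2.2.1
  have h5 := hv.fintype_card_le_finrank
  rw [Fintype.card_fin] at h5
  have h6 : Module.finrank ℂ (Submodule.span ℂ (s : Set (H →L[ℂ] H))) ≤ s.card :=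
    finrank_span_finset_le_card s
  omega

/-- a nonzero projection `c • g` equals `g` -/
theorem eq_of_smul_proj {g y : H →L[ℂ] H} (hgp : IsStarProjection g) (hy : y * y = y)
    (hy0 : y ≠ 0) {c : ℂ} (h : y = c • g) : y = g := by
  have hgg : g * g = g := hgp.isIdempotentElem.eq
  have hg0 : g ≠ 0 := by
    rintro rfl
    exact hy0 (by rw [h, smul_zero])
  have h1 : (c * c) • g = c • g := by
    rw [← h, ← hy]
    conv_rhs => rw [h]
    rw [smul_mul_smul_comm, hgg]
  have h2 : (c * c - c) • g = 0 := by rw [sub_smul, h1, sub_self]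
  have h3 : c * (c - 1) = 0 := by
    rcases smul_eq_zero.1 h2 with h4 | h4
    · rw [mul_sub, mul_one]; exact h4
    · exact absurd h4 hg0
  rcases mul_eq_zero.1 h3 with h4 | h4
  · exact absurd (by rw [h, h4, zero_smul]) hy0
  · rw [h, sub_eq_zero.1 h4, one_smul]

/-- minimal projections of a factor are equivalent -/
theorem exists_unit_of_minimal (hF : SO.IsFactor M) {g f : H →L[ℂ] H} (hgM : g ∈ M) (hfM : f ∈ M)
    (hgp : IsStarProjection g) (hfp : IsStarProjection f) (hg0 : g ≠ 0) (hf0 : f ≠ 0)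
    (hg : ∀ x ∈ M, ∃ c : ℂ, g * x * g = c • g) (hf : ∀ x ∈ M, ∃ c : ℂ, f * x * f = c • f) :
    ∃ v ∈ M, v * star v = f ∧ star v * v = g := by
  obtain ⟨v, hvM, hfv, hvg, hv⟩ := IsFactor.exists_compare hF hgM hfM hgp hfp
  refine ⟨v, hvM, ?_⟩
  have hvf : star v * f = star v := by
    have := congrArg star hfv
    rwa [star_mul, hfp.isSelfAdjoint.star_eq] at this
  have hgv : g * star v = star v := by
    have := congrArg star hvg
    rwa [star_mul, hgp.isSelfAdjoint.star_eq] at this
  rcases hv with h1 | h1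
  · refine ⟨h1, ?_⟩
    obtain ⟨c, hc⟩ := hg (star v * v) (mul_mem (star_mem hvM) hvM)
    have e1 : g * (star v * v) * g = star v * v := by rw [← mul_assoc, hgv, mul_assoc, hvg]
    rw [e1] at hc
    refine eq_of_smul_proj hgp ?_ (fun h0 => ?_) hc
    · rw [mul_assoc, ← mul_assoc v, h1, hfv]
    · have hv0 : v = 0 := (CStarRing.star_mul_self_eq_zero_iff _).1 h0
      rw [hv0, zero_mul] at h1
      exact hf0 h1.symm
  · refine ⟨?_, h1⟩
    obtain ⟨c, hc⟩ := hf (v * star v) (mul_mem hvM (star_mem hvM))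
    have e1 : f * (v * star v) * f = v * star v := by rw [← mul_assoc, hfv, mul_assoc, hvf]
    rw [e1] at hc
    refine eq_of_smul_proj hfp ?_ (fun h0 => ?_) hc
    · rw [mul_assoc, ← mul_assoc (star v), h1, hgv]
    · have hv0 : v = 0 := (CStarRing.mul_star_self_eq_zero_iff _).1 h0
      rw [hv0, mul_zero] at h1
      exact hg0 h1.symm

theorem mul_proj_of_comm {p q : H →L[ℂ] H} (hp : IsStarProjection p) (hq : IsStarProjection q)
    (hc : p * q = q * p) : IsStarProjection (p * q) := by
  refine ⟨?_, ?_⟩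
  · change p * q * (p * q) = p * q
    rw [mul_assoc, ← mul_assoc q, ← hc, mul_assoc p q q, hq.isIdempotentElem.eq, ← mul_assoc,
      hp.isIdempotentElem.eq]
  · rw [IsSelfAdjoint, star_mul, hp.isSelfAdjoint.star_eq, hq.isSelfAdjoint.star_eq, hc]

/-- the quadratic lower bound over semifinite expected parts of factors -/
theorem quadratic_semifinite (hA : SO.IsMASA A M) (hF : SO.IsFactor M) {z : H →L[ℂ] H}
    (hz : z ∈ A) (hzp : IsStarProjection z) {E : (H →L[ℂ] H) →ₗ[ℂ] (H →L[ℂ] H)}
    (hE : SO.IsNormalExpectation M A z E) {ι : Type*} {η : ι → H} (hη : SemiTrace M z η)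
    (hinf : ∀ N, ¬ SumAbelian M A.toStarSubalgebra z N) {ε : ℝ} (hε : 0 < ε) :
    (⌈1 / ε ^ 2⌉₊ : ℕ∞) ≤ pavingNumber M A.toStarSubalgebra 1 ε := by
  classical
  have hA' := SO.IsMASA.toStar hA
  have hcm : ∀ x ∈ A, ∀ y ∈ A, x * y = y * x := hA.2.1
  refine le_pavingNumber fun r hr hpave => ?_
  have hpave' : ∀ x ∈ M, IsSelfAdjoint x → SOPavable M A.toStarSubalgebra 1 x ε r :=
    fun x hx hxs => hpave x hx hxs (by simp)
  have h3 : 1 / (r : ℝ) ≤ ε ^ 2 := by
    by_cases hcase : ∃ e0 ∈ A, IsStarProjection e0 ∧ z * e0 = e0 ∧ e0 ≠ 0 ∧ wt η e0 ≠ ∞ ∧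
        InfCorner M e0
    · obtain ⟨e0, he0A, he0p, hze0, he00, hfin, hcor⟩ := hcase
      obtain ⟨ξ, hξ⟩ := traceOn_of_wt hzp hη (hA.1 _ he0A) he0p hze0 hfin
      obtain ⟨η', T, hT, -⟩ := exists_cornerTrace (hA.1 _ he0A) he0p he00 hξ
      exact T.quadratic hA' hF he0A hT hcor hε.le (by omega) hpave'
    · push Not at hcase
      -- minimal projections below projections of `A`
      have hmin : ∀ f ∈ A, IsStarProjection f → z * f = f → f ≠ 0 →
          ∃ g ∈ A, IsStarProjection g ∧ g ≠ 0 ∧ f * g = g ∧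
            ∀ x ∈ M, ∃ c : ℂ, g * x * g = c • g := by
        intro f hfA hfp hzf hf0
        obtain ⟨ζ, hfζ, hζ⟩ := exists_unit_of_proj hfp hf0
        have hzζ : z ζ = ζ := by
          have := DFunLike.congr_fun hzf ζ
          change z (f ζ) = f ζ at this
          rwa [hfζ] at this
        obtain ⟨p, hpA, hpp, hzp', hpF, hfin⟩ := exists_finite_approx hA hz hzp hE hη {ζ}
          (by simpa using hzζ) (show (0 : ℝ) < 1 / 2 by norm_num)
        have hpf : p * f = f * p := hcm _ hpA _ hfA
        have he0p : IsStarProjection (p * f) := mul_proj_of_comm hpp hfp hpf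
        have he00 : p * f ≠ 0 := by
          intro h0
          have h1 : p ζ = 0 := by
            have := DFunLike.congr_fun h0 ζ
            change p (f ζ) = 0 at this
            rwa [hfζ] at this
          have h2 := hpF ζ (by simp)
          rw [h1, sub_zero, hζ] at h2
          linarith only [h2]
        have hz0 : z * (p * f) = p * f := by rw [← mul_assoc, hzp']
        have hfin0 : wt η (p * f) ≠ ∞ := by
          refine ne_top_of_le_ne_top hfin (wt_mono η he0p ?_)
          rw [mul_assoc, ← hpf, ← mul_assoc, hpp.isIdempotentElem.eq]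
        obtain ⟨g, hgA, hgp, hg0, heg, hgm⟩ := exists_minimal hA' (mul_mem hpA hfA) he0p he00
          (hcase _ (mul_mem hpA hfA) he0p hz0 he00 hfin0)
        refine ⟨g, hgA, hgp, hg0, ?_, hgm⟩
        rw [← heg, ← mul_assoc, ← mul_assoc, ← hpf, mul_assoc p f f, hfp.isIdempotentElem.eq]
      have hmany : ∀ n : ℕ, ∃ e : Fin n → (H →L[ℂ] H), (∀ i, e i ∈ A ∧ IsStarProjection (e i) ∧
          e i ≠ 0 ∧ z * e i = e i ∧ ∀ x ∈ M, ∃ c : ℂ, e i * x * e i = c • e i) ∧
          ∀ i j, i ≠ j → e i * e j = 0 := by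
        intro n
        induction n with
        | zero => exact ⟨fun i => i.elim0, fun i => i.elim0, fun i => i.elim0⟩
        | succ n ih =>
          obtain ⟨e, he, ho⟩ := ih
          obtain ⟨s, hs⟩ : ∃ s, s = ∑ i, e i := ⟨_, rfl⟩
          have hsA : s ∈ A := by rw [hs]; exact sum_mem fun i _ => (he i).1
          have hsp : IsStarProjection s := by
            rw [hs]; exact isStarProjection_sum (fun i => (he i).2.1) ho
          have hzs : z * s = s := by
            rw [hs, Finset.mul_sum]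
            exact Finset.sum_congr rfl fun i _ => (he i).2.2.2.1
          have hsz : s * z = s := by rw [hcm _ hsA _ hz, hzs]
          have hse : ∀ i, s * e i = e i := by
            intro i
            rw [hs, Finset.sum_mul, Finset.sum_eq_single i]
            · exact (he i).2.1.isIdempotentElem.eq
            · intro j _ hj
              exact ho j i hj
            · intro hi
              exact absurd (Finset.mem_univ i) hi
          have hss : s * s = s := hsp.isIdempotentElem.eq
          have hzz : z * z = z := hzp.isIdempotentElem.eq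
          have hw0 : z - s ≠ 0 := by
            intro h0
            refine hinf n ⟨e, fun i => ⟨(he i).1, (he i).2.1, fun x hx => ?_⟩, ho, ?_⟩
            · obtain ⟨c, hc⟩ := (he i).2.2.2.2 x hx
              rw [hc]
              exact A.toStarSubalgebra.smul_mem (he i).1 _
            · rw [← hs]
              exact (sub_eq_zero.1 h0).symm
          have hwp : IsStarProjection (z - s) := by
            refine ⟨?_, hzp.isSelfAdjoint.sub hsp.isSelfAdjoint⟩
            change (z - s) * (z - s) = z - s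
            rw [sub_mul, mul_sub, mul_sub, hzz, hzs, hsz, hss, sub_self, sub_zero]
          have hzw : z * (z - s) = z - s := by rw [mul_sub, hzz, hzs]
          obtain ⟨g, hgA, hgp, hg0, hwg, hgm⟩ := hmin (z - s) (sub_mem hz hsA) hwp hzw hw0
          have h1 : ∀ i, g * e i = 0 := by
            intro i
            have h2 : (z - s) * e i = 0 := by rw [sub_mul, (he i).2.2.2.1, hse, sub_self]
            have h3 : g * (z - s) = g := by rw [hcm _ hgA _ (sub_mem hz hsA), hwg]
            rw [← h3, mul_assoc, h2, mul_zero]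
          have h2 : ∀ i, e i * g = 0 := fun i => by rw [hcm _ (he i).1 _ hgA, h1]
          refine ⟨Fin.cons g e, fun i => ?_, fun i j hij => ?_⟩
          · refine Fin.cases ?_ (fun i => ?_) i
            · rw [Fin.cons_zero]
              exact ⟨hgA, hgp, hg0, by rw [← hwg, ← mul_assoc, hzw], hgm⟩
            · rw [Fin.cons_succ]
              exact he i
          · revert hij
            refine Fin.cases ?_ (fun i => ?_) i <;> refine Fin.cases ?_ (fun j => ?_) j
            · intro h
              exact absurd rfl h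
            · intro _
              rw [Fin.cons_zero, Fin.cons_succ]
              exact h1 j
            · intro _
              rw [Fin.cons_zero, Fin.cons_succ]
              exact h2 i
            · intro hij
              rw [Fin.cons_succ, Fin.cons_succ]
              exact ho i j fun h => hij (by rw [h])
      refine quadratic_of_frames hA' hε.le (by omega) hpave' fun m => ?_
      obtain ⟨e, he, ho⟩ := hmany (2 ^ m)
      have hpos : 0 < 2 ^ m := by positivity
      choose ζ hζe hζ1 using fun l => exists_unit_of_proj (he l).2.1 (he l).2.2.1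
      have hzζ : ∀ l, z (ζ l) = ζ l := by
        intro l
        have := DFunLike.congr_fun (he l).2.2.2.1 (ζ l)
        change z (e l (ζ l)) = e l (ζ l) at this
        rwa [hζe] at this
      obtain ⟨p, hpA, hpp, hzp', hpF, hfin⟩ := exists_finite_approx hA hz hzp hE hη
        (Finset.univ.image ζ) (by
          intro ξ hξ
          obtain ⟨l, _, rfl⟩ := Finset.mem_image.1 hξ
          exact hzζ l) (show (0 : ℝ) < 1 / 2 by norm_num)
      have hep : ∀ l, e l * p = e l := by
        intro l
        obtain ⟨c, hc⟩ := (he l).2.2.2.2 p (hA.1 _ hpA)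
        have hcomm : e l * p = p * e l := hcm _ (he l).1 _ hpA
        have hpr := mul_proj_of_comm (he l).2.1 hpp hcomm
        have e1 : e l * p * e l = e l * p := by
          rw [mul_assoc, ← hcomm, ← mul_assoc, (he l).2.1.isIdempotentElem.eq]
        rw [e1] at hc
        refine eq_of_smul_proj (he l).2.1 hpr.isIdempotentElem.eq (fun h0 => ?_) hc
        have h1 : p (ζ l) = 0 := by
          have h2 : p * e l = 0 := by rw [← hcomm, h0]
          have := DFunLike.congr_fun h2 (ζ l)
          change p (e l (ζ l)) = 0 at this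
          rwa [hζe] at this
        have h2 := hpF (ζ l) (Finset.mem_image_of_mem _ (Finset.mem_univ l))
        rw [h1, sub_zero, hζ1] at h2
        linarith only [h2]
      obtain ⟨e0, he0⟩ : ∃ e0, e0 = ∑ l, e l := ⟨_, rfl⟩
      have he0A : e0 ∈ A := by rw [he0]; exact sum_mem fun l _ => (he l).1
      have he0p : IsStarProjection e0 := by
        rw [he0]; exact isStarProjection_sum (fun i => (he i).2.1) ho
      have he0e : ∀ l, e0 * e l = e l := by
        intro l
        rw [he0, Finset.sum_mul, Finset.sum_eq_single l]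
        · exact (he l).2.1.isIdempotentElem.eq
        · intro j _ hj
          exact ho j l hj
        · intro hi
          exact absurd (Finset.mem_univ l) hi
      have hze0 : z * e0 = e0 := by
        rw [he0, Finset.mul_sum]
        exact Finset.sum_congr rfl fun l _ => (he l).2.2.2.1
      have he00 : e0 ≠ 0 := by
        intro h0
        have h1 := he0e ⟨0, hpos⟩
        rw [h0, zero_mul] at h1
        exact (he ⟨0, hpos⟩).2.2.1 h1.symm
      have hfin0 : wt η e0 ≠ ∞ := by
        refine ne_top_of_le_ne_top hfin (wt_mono η he0p ?_)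
        rw [he0, Finset.sum_mul]
        exact Finset.sum_congr rfl fun l _ => hep l
      obtain ⟨ξ, hξ⟩ := traceOn_of_wt hzp hη (hA.1 _ he0A) he0p hze0 hfin0
      obtain ⟨η', T, hT, -⟩ := exists_cornerTrace (hA.1 _ he0A) he0p he00 hξ
      choose v hvM hv1 hv2 using fun l => exists_unit_of_minimal hF
        (hA.1 _ (he ⟨0, hpos⟩).1) (hA.1 _ (he l).1) (he ⟨0, hpos⟩).2.1 (he l).2.1
        (he ⟨0, hpos⟩).2.2.1 (he l).2.2.1 (he ⟨0, hpos⟩).2.2.2.2 (he l).2.2.2.2
      obtain ⟨Fr, hg, hG⟩ := frame_of_units (A := A.toStarSubalgebra) T hT m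
        (g := e ⟨0, hpos⟩) (e := e) (v := v) (fun l => ⟨(he l).1, (he l).2.1⟩) ho he0.symm
        (hA.1 _ (he ⟨0, hpos⟩).1) (he ⟨0, hpos⟩).2.1 (he0e _) fun l => ⟨hvM l, hv1 l, hv2 l⟩
      exact ⟨e0, _, η', T, Fr, he0A, hT, hg, hG⟩
  rw [Nat.cast_le, Nat.ceil_le]
  have hr0 : (0 : ℝ) < r := by exact_mod_cast hr
  rw [div_le_iff₀ hr0] at h3
  rw [div_le_iff₀ (by positivity)]
  linarith only [h3]

end Vale.Agent.P078
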