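import Vale.Agent.P078.H598.Rate6
import Vale.Agent.P078.Bdl.Fast

set_option linter.all false
attribute [local instance] Vale.Agent.P078.Fast.a01 Vale.Agent.P078.Fast.a02
  Vale.Agent.P078.Fast.a03 Vale.Agent.P078.Fast.a04 Vale.Agent.P078.Fast.a05
  Vale.Agent.P078.Fast.a06 Vale.Agent.P078.Fast.a07 Vale.Agent.P078.Fast.a08
  Vale.Agent.P078.Fast.a09 Vale.Agent.P078.Fast.a10 Vale.Agent.P078.Fast.a11
  Vale.Agent.P078.Fast.a12 Vale.Agent.P078.Fast.a13 Vale.Agent.P078.Fast.a14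
  Vale.Agent.P078.Fast.a15 Vale.Agent.P078.Fast.a16 Vale.Agent.P078.Fast.a17
  Vale.Agent.P078.Fast.a18 Vale.Agent.P078.Fast.a19 Vale.Agent.P078.Fast.a20
  Vale.Agent.P078.Fast.a21 Vale.Agent.P078.Fast.a22 Vale.Agent.P078.Fast.a23
  Vale.Agent.P078.Fast.a24 Vale.Agent.P078.Fast.a25 Vale.Agent.P078.Fast.a26
  Vale.Agent.P078.Fast.a27 Vale.Agent.P078.Fast.a28 Vale.Agent.P078.Fast.a29
  Vale.Agent.P078.Fast.a30 Vale.Agent.P078.Fast.a31 Vale.Agent.P078.Fast.a32
  Vale.Agent.P078.Fast.a33 Vale.Agent.P078.Fast.a34 Vale.Agent.P078.Fast.a35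
  Vale.Agent.P078.Fast.a36 Vale.Agent.P078.Fast.a37 Vale.Agent.P078.Fast.a38
  Vale.Agent.P078.Fast.a39 Vale.Agent.P078.Fast.a40 Vale.Agent.P078.Fast.a41
  Vale.Agent.P078.Fast.a42 Vale.Agent.P078.Fast.a43 Vale.Agent.P078.Fast.a44
  Vale.Agent.P078.Fast.a45 Vale.Agent.P078.Fast.a46 Vale.Agent.P078.Fast.a47
  Vale.Agent.P078.Fast.a48 Vale.Agent.P078.Fast.a49 Vale.Agent.P078.Fast.a50
  Vale.Agent.P078.Fast.a51 Vale.Agent.P078.Fast.a52 Vale.Agent.P078.Fast.a53
  Vale.Agent.P078.Fast.a54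

/-! Rates of growth of the so-paving number: abelian projections of `A` and Zorn's lemma. -/

namespace Vale.Agent.P078

open Filter Topology Vale.Agent.P078.C Vale.Agent.P078.G
open scoped InnerProductSpace ENNReal
open Vale.Agent.P078.SO (wt SemiTrace)

universe u

variable {H : Type u} [NormedAddCommGroup H] [InnerProductSpace ℂ H] [CompleteSpace H]
variable {M A : VonNeumannAlgebra H}

/-- `f` is a projection of `A` with `f M f ⊆ A` -/
def AbProj (M A : VonNeumannAlgebra H) (f : H →L[ℂ] H) : Prop :=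
  f ∈ A ∧ IsStarProjection f ∧ ∀ x ∈ M, f * x * f ∈ A

theorem AbProj.of_le (hA : SO.IsMASA A M) {f g : H →L[ℂ] H} (hf : AbProj M A f) (hg : g ∈ A)
    (hgp : IsStarProjection g) (hfg : f * g = g) : AbProj M A g := by
  refine ⟨hg, hgp, fun x hx => ?_⟩
  have hgf : g * f = g := by rw [hA.2.1 _ hg _ hf.1, hfg]
  have h1 : g * x * g = f * (g * x * g) * f := by
    rw [← mul_assoc, ← mul_assoc, hfg, mul_assoc (g * x), hgf]
  rw [h1]
  exact hf.2.2 _ (mul_mem (mul_mem (hA.1 _ hg) hx) (hA.1 _ hg))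

/-- limits of compressions -/
theorem AbProj.sup (hA : SO.IsMASA A M) {D : Set (H →L[ℂ] H)} (hne : D.Nonempty)
    (hdir : DirectedOn (· ≤ ·) D) (hD : ∀ f ∈ D, AbProj M A f) {g : H →L[ℂ] H} (hgA : g ∈ A)
    (hgp : IsStarProjection g) (hlub : IsLUB D g) : AbProj M A g := by
  refine ⟨hgA, hgp, fun x hx => ?_⟩
  have hgM := hA.1 _ hgA
  have hle : ∀ d ∈ D, g * d = d ∧ d * g = d := fun d hd => by
    have h1 := (IsStarProjection.le_iff_mul_eq_right (hD d hd).2.1 hgp).1 (hlub.1 hd)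
    exact ⟨h1, by rw [hA.2.1 _ (hD d hd).1 _ hgA, h1]⟩
  obtain ⟨l, hl1, hl2, ⟨R, hl3⟩, -, hl5⟩ := tendsto_of_isLUB hne hdir hlub
  -- weak limits
  have key : ∀ a ∈ A, ∀ d ∈ D, a * (d * x * d) = (d * x * d) * a :=
    fun a ha d hd => hA.2.1 _ ha _ ((hD d hd).2.2 x hx)
  -- first `d x d'` for `d ≤ d'`
  have h1 : ∀ d ∈ D, ∀ d' ∈ D, d ≤ d' → d * x * d' ∈ A := by
    intro d hd d' hd' hdd
    have h2 : d' * d = d := (IsStarProjection.le_iff_mul_eq_right (hD d hd).2.1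
      (hD d' hd').2.1).1 hdd
    have h3 : d * d' = d := by rw [hA.2.1 _ (hD d hd).1 _ (hD d' hd').1, h2]
    have h4 : d * x * d' = d * (d' * x * d') := by
      rw [← mul_assoc, ← mul_assoc, h3]
    rw [h4]
    exact mul_mem (hD d hd).1 ((hD d' hd').2.2 x hx)
  have h2 : ∀ d ∈ D, ∀ a ∈ A, a * (d * x * g) = (d * x * g) * a := by
    intro d hd a ha
    refine inner_ext fun ξ η => ?_
    obtain ⟨l, hl1, hl2, ⟨R, hl3⟩, hl4, hl5⟩ := tendsto_of_isLUB hne hdir hlub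
    have t1 : Tendsto (fun d' : H →L[ℂ] H => ⟪ξ, (a * (d * x * d')) η⟫_ℂ) l
        (𝓝 ⟪ξ, (a * (d * x * g)) η⟫_ℂ) := by
      have := hl5 (star (a * (d * x)) ξ) η
      simp only [star_apply_inner] at this
      exact this
    have t2 : Tendsto (fun d' : H →L[ℂ] H => ⟪ξ, (d * x * d' * a) η⟫_ℂ) l
        (𝓝 ⟪ξ, (d * x * g * a) η⟫_ℂ) := by
      have := hl5 (star (d * x) ξ) (a η)
      simp only [star_apply_inner] at this
      exact this
    refine tendsto_nhds_unique t1 (t2.congr' ?_)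
    filter_upwards [hl2, hl4 d hd] with d' hd' hdd
    rw [hA.2.1 _ ha _ (h1 d hd d' hd' hdd)]
  have h3 : ∀ a ∈ A, a * (g * x * g) = (g * x * g) * a := by
    intro a ha
    refine inner_ext fun ξ η => ?_
    have t1 : Tendsto (fun d : H →L[ℂ] H => ⟪ξ, (a * (d * x * g)) η⟫_ℂ) l
        (𝓝 ⟪ξ, (a * (g * x * g)) η⟫_ℂ) := by
      have := hl5 (star a ξ) ((x * g) η)
      simp only [star_apply_inner] at this
      exact this
    have t2 : Tendsto (fun d : H →L[ℂ] H => ⟪ξ, (d * x * g * a) η⟫_ℂ) l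
        (𝓝 ⟪ξ, (g * x * g * a) η⟫_ℂ) := by
      exact hl5 ξ ((x * g * a) η)
    refine tendsto_nhds_unique t1 (t2.congr' ?_)
    filter_upwards [hl2] with d hd
    rw [h2 d hd a ha]
  exact hA.2.2 _ (mul_mem (mul_mem hgM hx) hgM) h3

/-- a maximal projection `e ≤ w` of `A` with `e M e ⊆ A` -/
theorem exists_max_abProj (hA : SO.IsMASA A M) {w : H →L[ℂ] H} (hwp : IsStarProjection w) :
    ∃ e, AbProj M A e ∧ w * e = e ∧
      ∀ g, AbProj M A g → w * g = g → e * g = 0 → (∀ x ∈ M, g * x * e = 0) → g = 0 := by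
  let S : Set (H →L[ℂ] H) := {g | AbProj M A g ∧ w * g = g}
  have h0 : (0 : H →L[ℂ] H) ∈ S :=
    ⟨⟨zero_mem A, IsStarProjection.zero _, fun x _ => by
      rw [zero_mul, zero_mul]; exact zero_mem A⟩, mul_zero _⟩
  obtain ⟨e, -, he⟩ := zorn_le_nonempty₀ S (by
    intro c hcS hc y hy
    have hne : c.Nonempty := ⟨y, hy⟩
    obtain ⟨g, hgA, hgp, hglub, -⟩ := exists_sup_proj (M := A) hne hc.directedOn
      fun g hg => ⟨(hcS hg).1.1, (hcS hg).1.2.1⟩
    refine ⟨g, ⟨AbProj.sup hA hne hc.directedOn (fun f hf => (hcS hf).1) hgA hgp hglub, ?_⟩,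
      hglub.1⟩
    refine (IsStarProjection.le_iff_mul_eq_right hgp hwp).1 (hglub.2 fun d hd => ?_)
    exact (IsStarProjection.le_iff_mul_eq_right (hcS hd).1.2.1 hwp).2 (hcS hd).2) 0 h0
  obtain ⟨⟨heab, hwe⟩, hmax⟩ := he
  refine ⟨e, heab, hwe, fun g hg hwg heg hx0 => ?_⟩
  have hge : g * e = 0 := by rw [hA.2.1 _ hg.1 _ heab.1, heg]
  have hx0' : ∀ x ∈ M, e * x * g = 0 := by
    intro x hx
    have := congrArg star (hx0 (star x) (star_mem hx))
    rwa [star_mul, star_mul, star_star, hg.2.1.isSelfAdjoint.star_eq,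
      heab.2.1.isSelfAdjoint.star_eq, star_zero, ← mul_assoc] at this
  have hp : IsStarProjection (e + g) := heab.2.1.add hg.2.1 heg
  have h1 : e + g ∈ S := by
    refine ⟨⟨add_mem heab.1 hg.1, hp, fun x hx => ?_⟩, by rw [mul_add, hwe, hwg]⟩
    have h2 : (e + g) * x * (e + g) = e * x * e + g * x * g := by
      rw [add_mul, add_mul, mul_add, mul_add, hx0' x hx, hx0 x hx, add_zero, zero_add]
    rw [h2]
    exact add_mem (heab.2.2 x hx) (hg.2.2 x hx)
  have h3 := hmax h1 (le_add_of_nonneg_right hg.2.1.nonneg)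
  have h4 : g ≤ 0 := by
    have := sub_nonneg.2 h3
    rw [sub_add_cancel_left] at this
    exact neg_nonneg.1 this
  exact le_antisymm h4 hg.2.1.nonneg

/-- equivalent abelian projections inside two abelian projections of `A` -/
theorem exists_unit_of_abProj (hA : SO.IsMASA A M) {g f x : H →L[ℂ] H} (hg : AbProj M A g)
    (hf : AbProj M A f) (hx : x ∈ M) (h : g * x * f ≠ 0) :
    ∃ v ∈ M, v ≠ 0 ∧ f * v = v ∧ v * g = v ∧ v * star v * v = v ∧ star v * v ∈ A ∧
      v * star v ∈ A := by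
  obtain ⟨v, hvM, hfv, hvg, hvv, hv⟩ := exists_partial_isometry M (hA.1 _ hg.1) (hA.1 _ hf.1)
    hg.2.1 hf.2.1
  have hvf : star v * f = star v := by
    have := congrArg star hfv
    rwa [star_mul, hf.2.1.isSelfAdjoint.star_eq] at this
  have hgv : g * star v = star v := by
    have := congrArg star hvg
    rwa [star_mul, hg.2.1.isSelfAdjoint.star_eq] at this
  refine ⟨v, hvM, ?_, hfv, hvg, hvv, ?_, ?_⟩
  · rintro rfl
    have h1 := hv (star x) (star_mem hx)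
    rw [star_zero, mul_zero, sub_zero, sub_zero] at h1
    apply h
    have := congrArg star h1
    rwa [star_mul, star_mul, star_star, hg.2.1.isSelfAdjoint.star_eq,
      hf.2.1.isSelfAdjoint.star_eq, star_zero, ← mul_assoc] at this
  · have h1 := hg.2.2 _ (mul_mem (star_mem hvM) hvM)
    have e1 : g * (star v * v) * g = star v * v := by rw [← mul_assoc, hgv, mul_assoc, hvg]
    rwa [e1] at h1
  · have h1 := hf.2.2 _ (mul_mem hvM (star_mem hvM))
    have e1 : f * (v * star v) * f = v * star v := by rw [← mul_assoc, hfv, mul_assoc, hvf]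
    rwa [e1] at h1

end Vale.Agent.P078
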