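import Vale.Agent.P078.H598.Rate7
import Vale.Agent.P078.Bdl.Fast

set_option linter.all false
attribute [local instance] Vale.Agent.P078.Fast.a01 Vale.Agent.P078.Fast.a02
  Vale.Agent.P078.Fast.a03 Vale.Agent.P078.Fast.a04 Vale.Agent.P078.Fast.a05
  Vale.Agent.P078.Fast.a06 Vale.Agent.P078.Fast.a07 Vale.Agent.P078.Fast.a08
  Vale.Agent.P078.Fast.a09 Vale.Agent.P078.Fast.a10 Vale.Agent.P078.Fast.a11
  Vale.Agent.P078.Fast.a12 Vale.Agent.P078.Fast.a13 Vale.Agent.P078.Fast.a14
  Vale.Agent.P078.Fast.a15 Vale.Agent.P078.Fast.a16 Vale.Agent.P078.Fast.a17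
  Vale.Agent.P078.Fast.a18 Vale.Agent.P078.Fast.a19 Vale.Agent.P078.Fast.a20
  Vale.Agent.P078.Fast.a21 Vale.Agent.P078.Fast.a22 Vale.Agent.P078.Fast.a23
  Vale.Agent.P078.Fast.a24 Vale.Agent.P078.Fast.a25 Vale.Agent.P078.Fast.a26
  Vale.Agent.P078.Fast.a27 Vale.Agent.P078.Fast.a28 Vale.Agent.P078.Fast.a29
  Vale.Agent.P078.Fast.a30 Vale.Agent.P078.Fast.a31 Vale.Agent.P078.Fast.a32
  Vale.Agent.P078.Fast.a33 Vale.Agent.P078.Fast.a34 Vale.Agent.P078.Fast.a35
  Vale.Agent.P078.Fast.a36 Vale.Agent.P078.Fast.a37 Vale.Agent.P078.Fast.a38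
  Vale.Agent.P078.Fast.a39 Vale.Agent.P078.Fast.a40 Vale.Agent.P078.Fast.a41
  Vale.Agent.P078.Fast.a42 Vale.Agent.P078.Fast.a43 Vale.Agent.P078.Fast.a44
  Vale.Agent.P078.Fast.a45 Vale.Agent.P078.Fast.a46 Vale.Agent.P078.Fast.a47
  Vale.Agent.P078.Fast.a48 Vale.Agent.P078.Fast.a49 Vale.Agent.P078.Fast.a50
  Vale.Agent.P078.Fast.a51 Vale.Agent.P078.Fast.a52 Vale.Agent.P078.Fast.a53
  Vale.Agent.P078.Fast.a54

/-! Rates of growth of the so-paving number: frames of abelian projections. -/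

namespace Vale.Agent.P078

open Filter Topology Vale.Agent.P078.C Vale.Agent.P078.G
open scoped InnerProductSpace ENNReal
open Vale.Agent.P078.SO (wt SemiTrace)

universe u

variable {H : Type u} [NormedAddCommGroup H] [InnerProductSpace ℂ H] [CompleteSpace H]
variable {M A : VonNeumannAlgebra H}

theorem wt_ne_top_of_summable {ι : Type*} {η : ι → H} {x : H →L[ℂ] H}
    (h : Summable fun k => ‖x (η k)‖ ^ 2) : wt η x ≠ ∞ := by
  rw [wt_eq h]
  exact ENNReal.ofReal_ne_top

theorem wt_add_ne_top {ι : Type*} {η : ι → H} {x y : H →L[ℂ] H} (hx : wt η x ≠ ∞)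
    (hy : wt η y ≠ ∞) : wt η (x + y) ≠ ∞ := by
  refine wt_ne_top_of_summable ?_
  refine Summable.of_nonneg_of_le (fun k => sq_nonneg _) (fun k => ?_)
    (((wt_summable hx).mul_left 2).add ((wt_summable hy).mul_left 2))
  change ‖x (η k) + y (η k)‖ ^ 2 ≤ _
  have h1 : ‖x (η k) + y (η k)‖ ^ 2 ≤ (‖x (η k)‖ + ‖y (η k)‖) ^ 2 :=
    pow_le_pow_left₀ (norm_nonneg _) (norm_add_le _ _) 2
  nlinarith only [h1, sq_nonneg (‖x (η k)‖ - ‖y (η k)‖)]

theorem wt_sum_ne_top {ι : Type*} {η : ι → H} {κ : Type*} (s : Finset κ) {x : κ → (H →L[ℂ] H)}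
    (hx : ∀ i, wt η (x i) ≠ ∞) : wt η (∑ i ∈ s, x i) ≠ ∞ := by
  classical
  induction s using Finset.induction_on with
  | empty =>
    rw [Finset.sum_empty]
    refine wt_ne_top_of_summable ?_
    simpa using (summable_zero : Summable fun _ : ι => (0 : ℝ))
  | insert j s hj ih =>
    rw [Finset.sum_insert hj]
    exact wt_add_ne_top (hx j) ih

/-- equivalent projections have the same trace -/
theorem wt_unit {ι : Type*} {η : ι → H} {z : H →L[ℂ] H} (hη : SemiTrace M z η) {v : H →L[ℂ] H}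
    (hv : v ∈ M) (hzv : z * v = v) (hvz : v * z = v) (hp : IsStarProjection (star v * v))
    (hq : IsStarProjection (v * star v)) : wt η (v * star v) = wt η (star v * v) := by
  have h1 : ∀ u : H →L[ℂ] H, IsStarProjection (star u * u) → wt η (star u * u) = wt η u := by
    intro u hu
    unfold wt
    refine tsum_congr fun k => ?_
    congr 1
    have h2 : ⟪η k, (star u * u) (η k)⟫_ℂ = ⟪u (η k), u (η k)⟫_ℂ := by
      have := star_apply_inner (star u) (η k) (u (η k))
      rw [star_star] at this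
      exact this.symm
    have h3 := proj_inner_self hu (η k)
    rw [h2, inner_self_eq_norm_sq_to_K] at h3
    rw [← h3]
    norm_cast
  have h2 := h1 (star v) (by rw [star_star]; exact hq)
  rw [star_star] at h2
  rw [h2, h1 v hp]
  exact (hη.tracial v hv (by rw [hzv, hvz])).symm

/-- successive maximal abelian projections -/
theorem exists_family (hA : SO.IsMASA A M) {z : H →L[ℂ] H} (hz : z ∈ A)
    (hzp : IsStarProjection z) (n : ℕ) :
    ∃ e : Fin n → (H →L[ℂ] H), (∀ i, AbProj M A (e i) ∧ z * e i = e i) ∧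
      (∀ i j, i ≠ j → e i * e j = 0) ∧
      ∀ g, AbProj M A g → z * g = g → (∀ i, e i * g = 0) → g ≠ 0 →
        ∀ i, ∃ x ∈ M, g * x * e i ≠ 0 := by
  classical
  induction n with
  | zero => exact ⟨fun i => i.elim0, fun i => i.elim0, fun i => i.elim0, fun _ _ _ _ _ i => i.elim0⟩
  | succ n ih =>
    obtain ⟨e, he, ho, hb⟩ := ih
    obtain ⟨s, hs⟩ : ∃ s, s = ∑ i, e i := ⟨_, rfl⟩
    have hsA : s ∈ A := by rw [hs]; exact sum_mem fun i _ => (he i).1.1
    have hsp : IsStarProjection s := by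
      rw [hs]; exact isStarProjection_sum (fun i => (he i).1.2.1) ho
    have hzs : z * s = s := by
      rw [hs, Finset.mul_sum]
      exact Finset.sum_congr rfl fun i _ => (he i).2
    have hsz : s * z = s := by rw [hA.2.1 _ hsA _ hz, hzs]
    have hse : ∀ i, s * e i = e i := by
      intro i
      rw [hs, Finset.sum_mul, Finset.sum_eq_single i]
      · exact (he i).1.2.1.isIdempotentElem.eq
      · intro j _ hj
        exact ho j i hj
      · intro hi
        exact absurd (Finset.mem_univ i) hi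
    have hss : s * s = s := hsp.isIdempotentElem.eq
    have hzz : z * z = z := hzp.isIdempotentElem.eq
    have hwp : IsStarProjection (z - s) := by
      refine ⟨?_, hzp.isSelfAdjoint.sub hsp.isSelfAdjoint⟩
      change (z - s) * (z - s) = z - s
      rw [sub_mul, mul_sub, mul_sub, hzz, hzs, hsz, hss, sub_self, sub_zero]
    have hzw : z * (z - s) = z - s := by rw [mul_sub, hzz, hzs]
    obtain ⟨f, hf, hwf, hmax⟩ := exists_max_abProj hA hwp
    have hef : ∀ i, e i * f = 0 := by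
      intro i
      have h2 : e i * (z - s) = 0 := by
        rw [hA.2.1 _ (he i).1.1 _ (sub_mem hz hsA), sub_mul, (he i).2, hse, sub_self]
      rw [← hwf, ← mul_assoc, h2, zero_mul]
    have hfe : ∀ i, f * e i = 0 := fun i => by rw [hA.2.1 _ hf.1 _ (he i).1.1, hef]
    refine ⟨Fin.cons f e, fun i => ?_, fun i j hij => ?_, fun g hg hzg h0 hg0 i => ?_⟩
    · refine Fin.cases ?_ (fun i => ?_) i
      · rw [Fin.cons_zero]
        exact ⟨hf, by rw [← hwf, ← mul_assoc, hzw]⟩
      · rw [Fin.cons_succ]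
        exact he i
    · revert hij
      refine Fin.cases ?_ (fun i => ?_) i <;> refine Fin.cases ?_ (fun j => ?_) j
      · intro h
        exact absurd rfl h
      · intro _
        rw [Fin.cons_zero, Fin.cons_succ]
        exact hfe j
      · intro _
        rw [Fin.cons_zero, Fin.cons_succ]
        exact hef i
      · intro hij
        rw [Fin.cons_succ, Fin.cons_succ]
        exact ho i j fun h => hij (by rw [h])
    · have hfg : f * g = 0 := by
        have := h0 0
        rwa [Fin.cons_zero] at this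
      have heg : ∀ i, e i * g = 0 := fun i => by
        have := h0 i.succ
        rwa [Fin.cons_succ] at this
      refine Fin.cases ?_ (fun i => ?_) i
      · rw [Fin.cons_zero]
        by_contra hcon
        push Not at hcon
        refine hg0 (hmax g hg ?_ hfg hcon)
        have hsg : s * g = 0 := by
          rw [hs, Finset.sum_mul]
          exact Finset.sum_eq_zero fun i _ => heg i
        rw [sub_mul, hzg, hsg, sub_zero]
      · rw [Fin.cons_succ]
        exact hb g hg hzg heg hg0 i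

theorem AbProj.conj_mem {e v g : H →L[ℂ] H} (he : AbProj M A e) (hv : v ∈ M) (hg : g ∈ M)
    (hev : e * v = v) : v * g * star v ∈ A := by
  have hve : star v * e = star v := by
    have := congrArg star hev
    rwa [star_mul, he.2.1.isSelfAdjoint.star_eq] at this
  have h1 := he.2.2 _ (mul_mem (mul_mem hv hg) (star_mem hv))
  have e1 : e * (v * g * star v) * e = v * g * star v := by
    rw [← mul_assoc, ← mul_assoc, hev, mul_assoc, hve]
  rwa [e1] at h1

/-- simultaneous equivalences -/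
theorem exists_units (hA : SO.IsMASA A M) {z : H →L[ℂ] H} {n : ℕ} {e : Fin n → (H →L[ℂ] H)}
    (he : ∀ i, AbProj M A (e i) ∧ z * e i = e i)
    (hb : ∀ g, AbProj M A g → z * g = g → (∀ i, e i * g = 0) → g ≠ 0 →
        ∀ i, ∃ x ∈ M, g * x * e i ≠ 0) {g : H →L[ℂ] H} (hg : AbProj M A g) (hzg : z * g = g)
    (heg : ∀ i, e i * g = 0) (hg0 : g ≠ 0) (S : Finset (Fin n)) :
    ∃ g', AbProj M A g' ∧ g' ≠ 0 ∧ g * g' = g' ∧ ∃ v : Fin n → (H →L[ℂ] H), ∀ i ∈ S,
      v i ∈ M ∧ star (v i) * v i = g' ∧ v i * star (v i) ∈ A ∧ e i * v i = v i := by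
  classical
  induction S using Finset.induction_on with
  | empty =>
    exact ⟨g, hg, hg0, hg.2.1.isIdempotentElem.eq, fun _ => 0, fun i hi =>
      absurd hi (Finset.notMem_empty i)⟩
  | insert j S hj ih =>
    obtain ⟨g', hg', hg'0, hgg', v, hv⟩ := ih
    have hzg' : z * g' = g' := by rw [← hgg', ← mul_assoc, hzg]
    have heg' : ∀ i, e i * g' = 0 := fun i => by rw [← hgg', ← mul_assoc, heg, zero_mul]
    obtain ⟨x, hx, hxne⟩ := hb g' hg' hzg' heg' hg'0 j
    obtain ⟨u, huM, hu0, heu, hug, huu, huA, huA'⟩ := exists_unit_of_abProj hA hg' (he j).1 hx hxne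
    obtain ⟨k, hk⟩ : ∃ k, k = star u * u := ⟨_, rfl⟩
    have hkp : IsStarProjection k := by
      rw [hk]
      refine ⟨?_, IsSelfAdjoint.star_mul_self u⟩
      change star u * u * (star u * u) = star u * u
      rw [mul_assoc, ← mul_assoc u, huu]
    have hkA : k ∈ A := by rw [hk]; exact huA
    have hk0 : k ≠ 0 := by
      rw [hk]
      exact fun h => hu0 ((CStarRing.star_mul_self_eq_zero_iff _).1 h)
    have hgu : g' * star u = star u := by
      have := congrArg star hug
      rwa [star_mul, hg'.2.1.isSelfAdjoint.star_eq] at this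
    have hgk : g' * k = k := by rw [hk, ← mul_assoc, hgu]
    have hkab : AbProj M A k := hg'.of_le hA hkA hkp hgk
    refine ⟨k, hkab, hk0, by rw [← hgk, ← mul_assoc, hgg'], fun i => if i = j then u else v i * k,
      fun i hi => ?_⟩
    beta_reduce
    by_cases hij : i = j
    · rw [if_pos hij, hij]
      exact ⟨huM, hk.symm, huA', heu⟩
    · rw [if_neg hij]
      obtain ⟨h1, h2, h3, h4⟩ := hv i ((Finset.mem_insert.1 hi).resolve_left hij)
      have hkk : k * k = k := hkp.isIdempotentElem.eq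
      refine ⟨mul_mem h1 (hA.1 _ hkA), ?_, ?_, by rw [← mul_assoc, h4]⟩
      · rw [star_mul, hkp.isSelfAdjoint.star_eq, mul_assoc, ← mul_assoc (star (v i)), h2, hgk, hkk]
      · have e1 : v i * k * star (v i * k) = v i * k * star (v i) := by
          rw [star_mul, hkp.isSelfAdjoint.star_eq, ← mul_assoc, mul_assoc (v i) k k, hkk]
        rw [e1]
        exact (he i).1.conj_mem h1 (hA.1 _ hkA) h4

/-- frames of abelian projections of `A` -/
theorem exists_frames_abelian (hA : SO.IsMASA A M) {z : H →L[ℂ] H}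
    (hz : z ∈ A) (hzp : IsStarProjection z) {E : (H →L[ℂ] H) →ₗ[ℂ] (H →L[ℂ] H)}
    (hE : SO.IsNormalExpectation M A z E) {ι : Type*} {η : ι → H} (hη : SemiTrace M z η)
    (hinf : ∀ N, ¬ SumAbelian M A.toStarSubalgebra z N)
    (hab : ∀ w ∈ A, IsStarProjection w → z * w = w → w ≠ 0 →
      ∃ g, AbProj M A g ∧ g ≠ 0 ∧ w * g = g) (m : ℕ) :
    ∃ (e0 g : H →L[ℂ] H) (ξ : ℕ → H) (T : CornerTrace M e0 ξ)
      (Fr : HFrame M A.toStarSubalgebra e0 g (Fin (2 ^ m))), e0 ∈ A ∧ ‖T.X 1‖ = 1 ∧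
        ‖T.X g‖ ^ 2 ≤ 1 / (Fintype.card (Fin (2 ^ m)) : ℝ) ∧ 1 ≤ (T.tr Fr.G).re := by
  classical
  obtain ⟨e, he, ho, hb⟩ := exists_family (M := M) hA hz hzp (2 ^ m)
  have hpos : 0 < 2 ^ m := by positivity
  obtain ⟨s, hs⟩ : ∃ s, s = ∑ i, e i := ⟨_, rfl⟩
  have hsA : s ∈ A := by rw [hs]; exact sum_mem fun i _ => (he i).1.1
  have hsp : IsStarProjection s := by
    rw [hs]; exact isStarProjection_sum (fun i => (he i).1.2.1) ho
  have hzs : z * s = s := by
    rw [hs, Finset.mul_sum]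
    exact Finset.sum_congr rfl fun i _ => (he i).2
  have hsz : s * z = s := by rw [hA.2.1 _ hsA _ hz, hzs]
  have hss : s * s = s := hsp.isIdempotentElem.eq
  have hzz : z * z = z := hzp.isIdempotentElem.eq
  have hes : ∀ i, e i * s = e i := by
    intro i
    rw [hs, Finset.mul_sum, Finset.sum_eq_single i]
    · exact (he i).1.2.1.isIdempotentElem.eq
    · intro j _ hj
      exact ho i j hj.symm
    · intro hi
      exact absurd (Finset.mem_univ i) hi
  have hez : ∀ i, e i * z = e i := fun i => by rw [hA.2.1 _ (he i).1.1 _ hz, (he i).2]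
  have hwp : IsStarProjection (z - s) := by
    refine ⟨?_, hzp.isSelfAdjoint.sub hsp.isSelfAdjoint⟩
    change (z - s) * (z - s) = z - s
    rw [sub_mul, mul_sub, mul_sub, hzz, hzs, hsz, hss, sub_self, sub_zero]
  have hzw : z * (z - s) = z - s := by rw [mul_sub, hzz, hzs]
  have hw0 : z - s ≠ 0 := fun h0 => hinf (2 ^ m)
    ⟨e, fun i => (he i).1, ho, by rw [← hs]; exact (sub_eq_zero.1 h0).symm⟩
  obtain ⟨g, hg, hg0, hwg⟩ := hab (z - s) (sub_mem hz hsA) hwp hzw hw0
  have hzg : z * g = g := by rw [← hwg, ← mul_assoc, hzw]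
  have heg : ∀ i, e i * g = 0 := fun i => by
    rw [← hwg, ← mul_assoc, mul_sub, hez, hes, sub_self, zero_mul]
  obtain ⟨g', hg', hg'0, hgg', v, hv⟩ := exists_units hA he hb hg hzg heg hg0 Finset.univ
  have hzg' : z * g' = g' := by rw [← hgg', ← mul_assoc, hzg]
  -- cut to finite trace
  obtain ⟨ζ, hgζ, hζ⟩ := exists_unit_of_proj hg'.2.1 hg'0
  have hzζ : z ζ = ζ := by
    have := DFunLike.congr_fun hzg' ζ
    change z (g' ζ) = g' ζ at this
    rwa [hgζ] at this
  obtain ⟨p, hpA, hpp, hzp', hpF, hfin⟩ := exists_finite_approx hA hz hzp hE hη {ζ}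
    (by simpa using hzζ) (show (0 : ℝ) < 1 / 2 by norm_num)
  have hpg : g' * p = p * g' := hA.2.1 _ hg'.1 _ hpA
  obtain ⟨k, hk⟩ : ∃ k, k = g' * p := ⟨_, rfl⟩
  have hkp : IsStarProjection k := by rw [hk]; exact mul_proj_of_comm hg'.2.1 hpp hpg
  have hkA : k ∈ A := by rw [hk]; exact mul_mem hg'.1 hpA
  have hkM : k ∈ M := hA.1 _ hkA
  have hkk : k * k = k := hkp.isIdempotentElem.eq
  have hgk : g' * k = k := by rw [hk, ← mul_assoc, hg'.2.1.isIdempotentElem.eq]
  have hk0 : k ≠ 0 := by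
    rw [hk, hpg]
    intro h0
    have h1 : p ζ = 0 := by
      have := DFunLike.congr_fun h0 ζ
      change p (g' ζ) = 0 at this
      rwa [hgζ] at this
    have h2 := hpF ζ (by simp)
    rw [h1, sub_zero, hζ] at h2
    linarith only [h2]
  have hkfin : wt η k ≠ ∞ := by
    refine ne_top_of_le_ne_top hfin (wt_mono η hkp ?_)
    rw [hk, mul_assoc, hpp.isIdempotentElem.eq]
  have hzk : z * k = k := by rw [← hgk, ← mul_assoc, hzg']
  have hkz : k * z = k := by rw [hA.2.1 _ hkA _ hz, hzk]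
  obtain ⟨w, hw⟩ : ∃ w : Fin (2 ^ m) → (H →L[ℂ] H), w = fun i => v i * k := ⟨_, rfl⟩
  have hwM : ∀ i, w i ∈ M := fun i => by
    rw [hw]; exact mul_mem (hv i (Finset.mem_univ i)).1 hkM
  have hw1 : ∀ i, star (w i) * w i = k := fun i => by
    rw [hw]
    simp only
    rw [star_mul, hkp.isSelfAdjoint.star_eq, mul_assoc, ← mul_assoc (star (v i)),
      (hv i (Finset.mem_univ i)).2.1, hgk, hkk]
  have hwk : ∀ i, w i * k = w i := fun i => by
    rw [hw]
    simp only
    rw [mul_assoc, hkk]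
  have hew : ∀ i, e i * w i = w i := fun i => by
    rw [hw]
    simp only
    rw [← mul_assoc, (hv i (Finset.mem_univ i)).2.2.2]
  have hzw' : ∀ i, z * w i = w i := fun i => by rw [← hew i, ← mul_assoc, (he i).2]
  have hwz : ∀ i, w i * z = w i := fun i => by rw [← hwk i, mul_assoc, hkz]
  have hwA : ∀ i, w i * star (w i) ∈ A := fun i => by
    have h1 := (he i).1.conj_mem (hwM i) hkM (hew i)
    rwa [hwk] at h1
  have hwp' : ∀ i, IsStarProjection (w i * star (w i)) := fun i => by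
    refine ⟨?_, IsSelfAdjoint.mul_star_self _⟩
    change w i * star (w i) * (w i * star (w i)) = w i * star (w i)
    rw [mul_assoc, ← mul_assoc (star (w i)), hw1, ← mul_assoc, hwk]
  have hwo : ∀ i j, i ≠ j → star (w i) * w j = 0 := by
    intro i j hij
    have h1 : star (w i) * e i = star (w i) := by
      have := congrArg star (hew i)
      rwa [star_mul, (he i).1.2.1.isSelfAdjoint.star_eq] at this
    rw [← h1, ← hew j, mul_assoc, ← mul_assoc (e i), ho i j hij, zero_mul, mul_zero]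
  have hwo' : ∀ i j, i ≠ j → w i * star (w i) * (w j * star (w j)) = 0 := by
    intro i j hij
    rw [mul_assoc, ← mul_assoc (star (w i)), hwo i j hij, zero_mul, mul_zero]
  have hwfin : ∀ i, wt η (w i * star (w i)) ≠ ∞ := fun i => by
    rw [wt_unit hη (hwM i) (hzw' i) (hwz i) (by rw [hw1]; exact hkp) (hwp' i), hw1]
    exact hkfin
  obtain ⟨e0, he0⟩ : ∃ e0, e0 = ∑ i, w i * star (w i) := ⟨_, rfl⟩
  have he0A : e0 ∈ A := by rw [he0]; exact sum_mem fun i _ => hwA i
  have he0p : IsStarProjection e0 := by rw [he0]; exact isStarProjection_sum hwp' hwo'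
  have hze0 : z * e0 = e0 := by
    rw [he0, Finset.mul_sum]
    exact Finset.sum_congr rfl fun i _ => by rw [← mul_assoc, hzw']
  have he0e : ∀ i, e0 * (w i * star (w i)) = w i * star (w i) := by
    intro i
    rw [he0, Finset.sum_mul, Finset.sum_eq_single i]
    · exact (hwp' i).isIdempotentElem.eq
    · intro j _ hj
      exact hwo' j i hj
    · intro hi
      exact absurd (Finset.mem_univ i) hi
  have he00 : e0 ≠ 0 := by
    intro h0
    have h1 := he0e ⟨0, hpos⟩
    rw [h0, zero_mul] at h1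
    have h2 : w ⟨0, hpos⟩ = 0 := (CStarRing.mul_star_self_eq_zero_iff _).1 h1.symm
    have h3 := hw1 ⟨0, hpos⟩
    rw [h2, mul_zero] at h3
    exact hk0 h3.symm
  have he0fin : wt η e0 ≠ ∞ := by rw [he0]; exact wt_sum_ne_top _ hwfin
  obtain ⟨ξ, hξ⟩ := traceOn_of_wt hzp hη (hA.1 _ he0A) he0p hze0 he0fin
  obtain ⟨η', T, hT, -⟩ := exists_cornerTrace (hA.1 _ he0A) he0p he00 hξ
  obtain ⟨Fr, hgF, hG⟩ := frame_of_units (A := A.toStarSubalgebra) T hT m
    (g := w ⟨0, hpos⟩ * star (w ⟨0, hpos⟩)) (e := fun i => w i * star (w i))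
    (v := fun i => w i * star (w ⟨0, hpos⟩)) (fun l => ⟨hwA l, hwp' l⟩) hwo' he0.symm
    (hA.1 _ (hwA _)) (hwp' _) (he0e _) fun l => ⟨mul_mem (hwM l) (star_mem (hwM _)), by
      rw [star_mul, star_star, mul_assoc, ← mul_assoc (star (w ⟨0, hpos⟩)), hw1, ← mul_assoc,
        hwk], by
      rw [star_mul, star_star, mul_assoc, ← mul_assoc (star (w l)), hw1, ← mul_assoc, hwk]⟩
  exact ⟨e0, _, η', T, Fr, he0A, hT, hgF, hG⟩

end Vale.Agent.P078
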