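import Vale.Agent.P078.H598.Rate8
import Vale.Agent.P078.Bdl.Fast

set_option linter.all false
attribute [local instance] Vale.Agent.P078.Fast.a01 Vale.Agent.P078.Fast.a02
  Vale.Agent.P078.Fast.a03 Vale.Agent.P078.Fast.a04 Vale.Agent.P078.Fast.a05
  Vale.Agent.P078.Fast.a06 Vale.Agent.P078.Fast.a07 Vale.Agent.P078.Fast.a08
  Vale.Agent.P078.Fast.a09 Vale.Agent.P078.Fast.a10 Vale.Agent.P078.Fast.a11
  Vale.Agent.P078.Fast.a12 Vale.Agent.P078.Fast.a13 Vale.Agent.P078.Fast.a14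
  Vale.Agent.P078.Fast.a15 Vale.Agent.P078.Fast.a16 Vale.Agent.P078.Fast.a17
  Vale.Agent.P078.Fast.a18 Vale.Agent.P078.Fast.a19 Vale.Agent.P078.Fast.a20
  Vale.Agent.P078.Fast.a21 Vale.Agent.P078.Fast.a22 Vale.Agent.P078.Fast.a23
  Vale.Agent.P078.Fast.a24 Vale.Agent.P078.Fast.a25 Vale.Agent.P078.Fast.a26
  Vale.Agent.P078.Fast.a27 Vale.Agent.P078.Fast.a28 Vale.Agent.P078.Fast.a29
  Vale.Agent.P078.Fast.a30 Vale.Agent.P078.Fast.a31 Vale.Agent.P078.Fast.a32
  Vale.Agent.P078.Fast.a33 Vale.Agent.P078.Fast.a34 Vale.Agent.P078.Fast.a35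
  Vale.Agent.P078.Fast.a36 Vale.Agent.P078.Fast.a37 Vale.Agent.P078.Fast.a38
  Vale.Agent.P078.Fast.a39 Vale.Agent.P078.Fast.a40 Vale.Agent.P078.Fast.a41
  Vale.Agent.P078.Fast.a42 Vale.Agent.P078.Fast.a43 Vale.Agent.P078.Fast.a44
  Vale.Agent.P078.Fast.a45 Vale.Agent.P078.Fast.a46 Vale.Agent.P078.Fast.a47
  Vale.Agent.P078.Fast.a48 Vale.Agent.P078.Fast.a49 Vale.Agent.P078.Fast.a50
  Vale.Agent.P078.Fast.a51 Vale.Agent.P078.Fast.a52 Vale.Agent.P078.Fast.a53
  Vale.Agent.P078.Fast.a54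

/-! Rates of growth of the so-paving number: halving projections of `A` over the centre. -/

namespace Vale.Agent.P078

open Filter Topology Vale.Agent.P078.C Vale.Agent.P078.G
open scoped InnerProductSpace ENNReal

universe u

variable {H : Type u} [NormedAddCommGroup H] [InnerProductSpace ℂ H] [CompleteSpace H]
variable {M A : VonNeumannAlgebra H} {e0 : H →L[ℂ] H} {ξ : ℕ → H}

theorem CornerTrace.wcont (T : CornerTrace M e0 ξ) : WCont M T.tr := by
  refine WCont.of_approx fun ε hε => ?_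
  obtain ⟨s, hs⟩ : ∃ s : Finset ℕ, ∑' n, ‖ξ n‖ ^ 2 - ∑ n ∈ s, ‖ξ n‖ ^ 2 ≤ ε := by
    have h1 := T.summable.hasSum
    rw [HasSum, Metric.tendsto_nhds] at h1
    obtain ⟨s, hs⟩ := (h1 ε hε).exists
    refine ⟨s, ?_⟩
    rw [dist_eq_norm, Real.norm_eq_abs, abs_lt] at hs
    linarith [hs.1]
  refine ⟨fun x => ∑ n ∈ s, inner ℂ (ξ n) (x (ξ n)),
    WCont.sum s fun n _ => WCont.inner_apply (ξ n) (ξ n), fun x _ => ?_⟩
  have hsum : Summable fun n => inner ℂ (ξ n) (x (ξ n)) :=
    Summable.of_norm_bounded (T.summable.mul_left ‖x‖) (vtr_bound x)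
  have h2 : T.tr x - ∑ n ∈ s, inner ℂ (ξ n) (x (ξ n)) =
      ∑' n : { n // n ∉ s }, inner ℂ (ξ n) (x (ξ n)) := by
    rw [T.tr_eq, sub_eq_iff_eq_add, add_comm]
    exact (hsum.sum_add_tsum_subtype_compl s).symm
  rw [h2]
  have hsn : Summable fun n : { n // n ∉ s } => ‖inner ℂ (ξ (n : ℕ)) (x (ξ n))‖ :=
    hsum.norm.subtype _
  have hsn2 : Summable fun n : { n // n ∉ s } => ‖x‖ * ‖ξ (n : ℕ)‖ ^ 2 :=
    (T.summable.mul_left ‖x‖).subtype _
  refine (norm_tsum_le_tsum_norm hsn).trans ?_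
  refine (Summable.tsum_le_tsum (fun n => vtr_bound x _) hsn hsn2).trans ?_
  rw [tsum_mul_left, mul_comm]
  refine mul_le_mul_of_nonneg_right ?_ (norm_nonneg _)
  have h3 := T.summable.sum_add_tsum_subtype_compl s
  linarith

/-- the expectation onto `A`, preserving the trace of a corner -/
theorem CornerTrace.exists_exp (T : CornerTrace M e0 ξ) (hA : SO.IsMASA A M) (he0 : e0 ∈ A) :
    ∃ E : (H →L[ℂ] H) →ₗ[ℂ] (H →L[ℂ] H), (∀ x, ‖E x‖ ≤ ‖x‖) ∧ (∀ x ∈ M, E x ∈ A) ∧
      (∀ x, IsSelfAdjoint x → IsSelfAdjoint (E x)) ∧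
      (∀ a ∈ A, ∀ x, E (a * x) = a * E x ∧ E (x * a) = E x * a) ∧
      ∀ x ∈ M, e0 * x * e0 = x → T.tr (E x) = T.tr x := by
  have hAs := SO.IsMASA.toStar hA
  have := Part.filter_neBot hAs.2.1
  obtain ⟨E, hlim, hnorm, hmem, hpos, hsa, hbi, hid, -⟩ := exists_limit_expectation' hAs
    (Ultrafilter.of (Part.filter A.toStarSubalgebra)) (Ultrafilter.of_le _)
  refine ⟨E, hnorm, hmem, hsa, hbi, fun x hx hex => ?_⟩
  have hEx : E x ∈ M := hA.1 _ (hmem x hx)
  have h1 := T.wcont ‖x‖ (E x) (Filter.map (fun Q : Part A.toStarSubalgebra => Q.E x)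
    (Ultrafilter.of (Part.filter A.toStarSubalgebra) : Filter _)) hEx ?_ ?_
  · refine tendsto_nhds_unique h1 ?_
    rw [tendsto_map'_iff]
    refine tendsto_const_nhds.congr fun Q => ?_
    change T.tr x = T.tr (Q.E x)
    rw [Part.E_apply, map_sum]
    have h2 : ∀ i, T.tr (Q.e i * x * Q.e i) = T.tr (Q.e i * x) := by
      intro i
      have hei : Q.e i ∈ M := hAs.1 (Q.mem i)
      have hc : e0 * Q.e i = Q.e i * e0 := hA.2.1 _ he0 _ (Q.mem i)
      have h3 := T.tr_comm (u := Q.e i * x) (p := Q.e i) (mul_mem hei hx) (by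
        rw [← mul_assoc, hc, mul_assoc (Q.e i), mul_assoc (Q.e i), hex]) hei hc
      rw [h3, ← mul_assoc, Q.e_mul_self]
    simp_rw [h2]
    rw [← map_sum, ← Finset.sum_mul, Q.sum_eq, one_mul]
  · rw [eventually_map]
    exact Eventually.of_forall fun Q => ⟨Q.E_mem hAs.1 hx, Q.norm_E_le x⟩
  · intro ζ η
    rw [tendsto_map'_iff]
    exact hlim x ζ η

/-- a self-adjoint element of `A` under a non-abelian projection, of trace zero over the centre -/
theorem CornerTrace.exists_perturb (T : CornerTrace M e0 ξ)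
    (hfa : ∀ x ∈ M, (∀ n, x (ξ n) = 0) → x * e0 = 0) (hA : SO.IsMASA A M) (he0 : e0 ∈ A)
    {g : H →L[ℂ] H} (hg : g ∈ A) (hgp : IsStarProjection g) (he0g : e0 * g = g)
    (hnab : ¬ ∀ x ∈ M, g * x * g ∈ A) :
    ∃ u ∈ A, IsSelfAdjoint u ∧ u ≠ 0 ∧ g * u = u ∧ ‖u‖ ≤ 2 ∧
      ∀ c ∈ M, (∀ y ∈ M, c * y = y * c) → T.tr (u * c) = 0 := by
  have hAs := SO.IsMASA.toStar hA
  have hgM := hA.1 _ hg
  have hgg : g * g = g := hgp.isIdempotentElem.eq
  obtain ⟨k, hkA, hkp, hgk, x, hx, hne⟩ : ∃ k ∈ A, IsStarProjection k ∧ g * k = k ∧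
      ∃ x ∈ M, k * x * (g - k) ≠ 0 := by
    by_contra hcon
    push Not at hcon
    apply hnab
    intro x hx
    refine hAs.mem (mul_mem (mul_mem hgM hx) hgM) fun a ha => ?_
    refine (hAs.comm_of_proj (fun e he hep => ?_) a ha).symm
    have hge : g * e = e * g := hA.2.1 _ hg _ he
    have hkA : g * e ∈ A := mul_mem hg he
    have hkp : IsStarProjection (g * e) := mul_proj_of_comm hgp hep hge
    have hgk : g * (g * e) = g * e := by rw [← mul_assoc, hgg]
    have h1 := hcon (g * e) hkA hkp hgk x hx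
    have h2 := congrArg star (hcon (g * e) hkA hkp hgk (star x) (star_mem hx))
    rw [star_mul, star_mul, star_star, star_sub, hgp.isSelfAdjoint.star_eq,
      hkp.isSelfAdjoint.star_eq, star_zero, ← mul_assoc] at h2
    rw [mul_sub, sub_eq_zero] at h1
    rw [sub_mul, sub_mul, sub_eq_zero] at h2
    calc g * x * g * e = g * x * (g * e) := by rw [mul_assoc (g * x)]
      _ = g * e * x * (g * e) := h2
      _ = g * e * x * g := h1.symm
      _ = e * (g * x * g) := by rw [hge]; simp only [mul_assoc]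
  have hkg : k * g = k := by rw [hA.2.1 _ hkA _ hg, hgk]
  have hkk : k * k = k := hkp.isIdempotentElem.eq
  have hgkp : IsStarProjection (g - k) := by
    refine ⟨?_, hgp.isSelfAdjoint.sub hkp.isSelfAdjoint⟩
    change (g - k) * (g - k) = g - k
    rw [sub_mul, mul_sub, mul_sub, hgg, hgk, hkg, hkk, sub_self, sub_zero]
  have hgkA : g - k ∈ A := sub_mem hg hkA
  obtain ⟨v, hvM, hkv, hvg, hvv, hv⟩ := exists_partial_isometry M (hA.1 _ hgkA) (hA.1 _ hkA)
    hgkp hkp
  have hv0 : v ≠ 0 := by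
    rintro rfl
    have h1 := hv x hx
    rw [zero_mul, sub_zero, mul_zero, sub_zero] at h1
    exact hne h1
  have hsvM : star v ∈ M := star_mem hvM
  have hgv : (g - k) * star v = star v := by
    have := congrArg star hvg
    rwa [star_mul, hgkp.isSelfAdjoint.star_eq] at this
  have hvk : star v * k = star v := by
    have := congrArg star hkv
    rwa [star_mul, hkp.isSelfAdjoint.star_eq] at this
  have hgv' : g * v = v := by rw [← hkv, ← mul_assoc, hgk]
  have hgsv : g * star v = star v := by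
    rw [← hgv, ← mul_assoc, mul_sub, hgg, hgk]
  have hksv : k * star v = 0 := by
    rw [← hgv, ← mul_assoc, mul_sub, hkg, hkk, sub_self, zero_mul]
  have hvg' : v * g = v := by
    have := congrArg star hgsv
    rwa [star_mul, star_star, hgp.isSelfAdjoint.star_eq] at this
  have he0v : e0 * v = v := by rw [← hgv', ← mul_assoc, he0g]
  have hge0 : g * e0 = g := by rw [hA.2.1 _ hg _ he0, he0g]
  have hve0 : v * e0 = v := by rw [← hvg', mul_assoc, hge0]
  have he0sv : e0 * star v = star v := by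
    have := congrArg star hve0
    rwa [star_mul, T.proj.isSelfAdjoint.star_eq] at this
  have hsve0 : star v * e0 = star v := by
    have := congrArg star he0v
    rwa [star_mul, T.proj.isSelfAdjoint.star_eq] at this
  have hp1 : IsStarProjection (v * star v) := by
    refine ⟨?_, IsSelfAdjoint.mul_star_self v⟩
    change v * star v * (v * star v) = v * star v
    rw [← mul_assoc, hvv]
  have hp2 : IsStarProjection (star v * v) := by
    refine ⟨?_, IsSelfAdjoint.star_mul_self v⟩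
    change star v * v * (star v * v) = star v * v
    rw [mul_assoc, ← mul_assoc v, hvv]
  obtain ⟨E, hEn, hEm, hEs, hEb, hEt⟩ := T.exists_exp hA he0
  have hM1 : v * star v ∈ M := mul_mem hvM hsvM
  have hM2 : star v * v ∈ M := mul_mem hsvM hvM
  have hc1 : e0 * (v * star v) * e0 = v * star v := by
    rw [← mul_assoc, he0v, mul_assoc, hsve0]
  have hc2 : e0 * (star v * v) * e0 = star v * v := by
    rw [← mul_assoc, he0sv, mul_assoc, hve0]
  refine ⟨E (v * star v) - E (star v * v), sub_mem (hEm _ hM1) (hEm _ hM2),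
    (hEs _ hp1.isSelfAdjoint).sub (hEs _ hp2.isSelfAdjoint), fun h0 => ?_, ?_, ?_, ?_⟩
  · have h1 : k * (E (v * star v) - E (star v * v)) = E (v * star v) := by
      rw [mul_sub, ← (hEb k hkA _).1, ← (hEb k hkA _).1, ← mul_assoc, ← mul_assoc, hkv, hksv,
        zero_mul, map_zero, sub_zero]
    rw [h0, mul_zero] at h1
    have h2 := hEt _ hM1 hc1
    rw [← h1, map_zero] at h2
    have h3 := T.norm_X_sq (star v)
    rw [star_star, ← h2, Complex.zero_re] at h3
    have h4 : T.X (star v) = 0 := by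
      rw [← norm_eq_zero]
      exact pow_eq_zero_iff (two_ne_zero) |>.1 h3
    have h5 : ∀ n, star v (ξ n) = 0 := by
      intro n
      have h6 : (T.X (star v)) n = star v (ξ n) := rfl
      rw [← h6, h4]
      rfl
    have h6 := hfa _ hsvM h5
    rw [hsve0] at h6
    exact hv0 (star_eq_zero.1 h6)
  · rw [mul_sub, ← (hEb g hg _).1, ← (hEb g hg _).1, ← mul_assoc, ← mul_assoc, hgv', hgsv]
  · calc ‖E (v * star v) - E (star v * v)‖ ≤ ‖E (v * star v)‖ + ‖E (star v * v)‖ := norm_sub_le _ _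
      _ ≤ 1 + 1 := add_le_add ((hEn _).trans (proj_opNorm_le hp1))
          ((hEn _).trans (proj_opNorm_le hp2))
      _ = 2 := by norm_num
  · intro c hcM hc
    have hcA : c ∈ A := hA.2.2 c hcM fun a ha => (hc a (hA.1 _ ha)).symm
    rw [sub_mul, map_sub, ← (hEb c hcA _).2, ← (hEb c hcA _).2, hEt, hEt, sub_eq_zero]
    · have h1 := T.tr_comm (u := v) (p := star v * c) hvM (by rw [he0v, hve0])
        (mul_mem hsvM hcM) (by
          rw [← mul_assoc, he0sv, mul_assoc, hc e0 (hA.1 _ he0), ← mul_assoc, hsve0])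
      rw [mul_assoc, h1, mul_assoc, hc v hvM, ← mul_assoc]
    · exact mul_mem hM2 hcM
    · have hce := hc e0 (hA.1 _ he0)
      calc e0 * (star v * v * c) * e0 = e0 * (star v * v) * (c * e0) := by simp only [mul_assoc]
        _ = e0 * (star v * v) * e0 * c := by rw [hce]; simp only [mul_assoc]
        _ = _ := by rw [hc2]
    · exact mul_mem hM1 hcM
    · have hce := hc e0 (hA.1 _ he0)
      calc e0 * (v * star v * c) * e0 = e0 * (v * star v) * (c * e0) := by simp only [mul_assoc]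
        _ = e0 * (v * star v) * e0 * c := by rw [hce]; simp only [mul_assoc]
        _ = _ := by rw [hc1]

end Vale.Agent.P078
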